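import Mathlib

/-! Words in a free product `G * F` that evaluate into `G` have a noncrossing cancellation. -/

namespace Vale.Agent.P174

open Monoid

variable {G : Type*} [Group G] {ι : Type}

/-- Letters. -/
abbrev Lt (G : Type*) (ι : Type) := G ⊕ (ι × Bool)

/-- Value of a letter. -/
def evL : Lt G ι → Coprod G (FreeGroup ι)
  | .inl g => Coprod.inl g
  | .inr (j, true) => Coprod.inr (FreeGroup.of j)
  | .inr (j, false) => Coprod.inr (FreeGroup.of j)⁻¹

/-- Inverse letter. -/
def invL : Lt G ι → Lt G ι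
  | .inl g => .inl g⁻¹
  | .inr (j, b) => .inr (j, !b)

theorem evL_invL (x : Lt G ι) : evL (invL x) = (evL x)⁻¹ := by
  rcases x with g | ⟨j, _ | _⟩ <;> simp [evL, invL]

theorem invL_invL (x : Lt G ι) : invL (invL x) = x := by
  rcases x with g | ⟨j, b⟩ <;> simp [invL]

theorem exists_word (x : Coprod G (FreeGroup ι)) : ∃ l : List (Lt G ι), (l.map evL).prod = x := by
  have hmul : ∀ x y : Coprod G (FreeGroup ι), (∃ l : List (Lt G ι), (l.map evL).prod = x) →
      (∃ l : List (Lt G ι), (l.map evL).prod = y) →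
      ∃ l : List (Lt G ι), (l.map evL).prod = x * y := by
    rintro x y ⟨l, rfl⟩ ⟨l', rfl⟩
    exact ⟨l ++ l', by simp⟩
  induction x using Coprod.induction_on with
  | inl g => exact ⟨[.inl g], by simp [evL]⟩
  | inr f =>
    induction f using FreeGroup.induction_on with
    | C1 => exact ⟨[], by simp⟩
    | of j => exact ⟨[.inr (j, true)], by simp [evL]⟩
    | inv_of j _ => exact ⟨[.inr (j, false)], by simp [evL]⟩
    | mul a b ha hb => rw [map_mul]; exact hmul _ _ ha hb
  | mul a b ha hb => exact hmul _ _ ha hb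

/-- Balanced lists of names. -/
inductive Bal {I : Type} (lab : I → Lt G ι) : List I → G → Prop
  | nil : Bal lab [] 1
  | cons {c l g h} : lab c = .inl h → Bal lab l g → Bal lab (c :: l) (h * g)
  | arc {c c' l l' g j b} : lab c = .inr (j, b) → lab c' = .inr (j, !b) → Bal lab l' 1 →
      Bal lab l g → Bal lab (c :: (l' ++ c' :: l)) g

/-- Raw states. -/
abbrev St (G : Type*) (ι : Type) := G × List ((ι × Bool) × G)

open Classical in
/-- Action of a variable letter. -/
noncomputable def push (y : ι × Bool) : St G ι → St G ι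
  | (g, []) => (1, [(y, g)])
  | (g, (y', g') :: s) => if g = 1 ∧ y' = (y.1, !y.2) then (g', s) else (1, (y, g) :: (y', g') :: s)

/-- Reduced states. -/
def Red (s : St G ι) : Prop := s.2.IsChain fun a b => ¬ (a.2 = 1 ∧ b.1 = (a.1.1, !a.1.2))

theorem push_red (y : ι × Bool) {s : St G ι} (h : Red s) : Red (push y s) := by
  obtain ⟨g, _ | ⟨⟨y', g'⟩, s⟩⟩ := s
  · simp [push, Red]
  · simp only [push]
    split_ifs with h1
    · exact h.tail
    · exact List.IsChain.cons_cons h1 h

theorem push_push (y : ι × Bool) {s : St G ι} (h : Red s) : push (y.1, !y.2) (push y s) = s := by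
  obtain ⟨g, _ | ⟨⟨y', g'⟩, s⟩⟩ := s
  · simp [push]
  · simp only [push]
    split_ifs with h1
    · obtain ⟨rfl, rfl⟩ := h1
      rcases s with _ | ⟨⟨y'', g''⟩, s⟩
      · rfl
      · have := (List.isChain_cons_cons.mp h).1
        simp only [push]
        rw [if_neg this]
    · simp [push]

/-- The permutation representation on reduced states. -/
noncomputable def rho : Coprod G (FreeGroup ι) →* Equiv.Perm {s : St G ι // Red s} :=
  Coprod.lift
    { toFun := fun g => ⟨fun s => ⟨(g * s.1.1, s.1.2), s.2⟩, fun s => ⟨(g⁻¹ * s.1.1, s.1.2), s.2⟩,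
        fun s => by simp, fun s => by simp⟩
      map_one' := by ext s <;> simp
      map_mul' := fun g h => by ext s <;> simp [mul_assoc] }
    (FreeGroup.lift fun j => ⟨fun s => ⟨push (j, true) s.1, push_red _ s.2⟩,
      fun s => ⟨push (j, false) s.1, push_red _ s.2⟩,
      fun s => Subtype.ext (push_push (j, true) s.2),
      fun s => Subtype.ext (push_push (j, false) s.2)⟩)

theorem rho_inr (y : ι × Bool) (s : {s : St G ι // Red s}) :
    (rho (evL (.inr y)) s).1 = push y s.1 := by
  obtain ⟨j, _ | _⟩ := y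
  · simp only [rho, evL, Coprod.lift_apply_inr, map_inv, FreeGroup.lift_apply_of]; rfl
  · simp only [rho, evL, Coprod.lift_apply_inr, FreeGroup.lift_apply_of]; rfl

/-- Decomposition along a state. -/
def Dec {I : Type} (lab : I → Lt G ι) : List I → G → List ((ι × Bool) × G) → Prop
  | l, g, [] => Bal lab l g
  | l, g, (y, g') :: s => ∃ l0 c l1, l = l0 ++ c :: l1 ∧ lab c = .inr y ∧ Bal lab l0 g ∧
      Dec lab l1 g' s

theorem dec_run {I : Type} (lab : I → Lt G ι) (l : List I) :
    Dec lab l (rho (l.map (evL ∘ lab)).prod ⟨(1, []), List.IsChain.nil⟩).1.1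
      (rho (l.map (evL ∘ lab)).prod ⟨(1, []), List.IsChain.nil⟩).1.2 := by
  induction l with
  | nil => exact Bal.nil
  | cons c l ih =>
    rw [List.map_cons, List.prod_cons, map_mul, Equiv.Perm.mul_apply, Function.comp_apply]
    generalize rho (l.map (evL ∘ lab)).prod ⟨(1, []), List.IsChain.nil⟩ = s at ih
    obtain ⟨⟨g, s⟩, hs⟩ := s
    rcases h : lab c with k | y
    · change Dec lab (c :: l) (k * g) s
      rcases s with _ | ⟨⟨y', g'⟩, s⟩
      · exact Bal.cons h ih
      · obtain ⟨l0, c', l1, rfl, h1, h2, h3⟩ := ih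
        exact ⟨c :: l0, c', l1, rfl, h1, Bal.cons h h2, h3⟩
    · rw [rho_inr]
      rcases s with _ | ⟨⟨y', g'⟩, s⟩
      · exact ⟨[], c, l, rfl, h, Bal.nil, ih⟩
      · simp only [push]
        split_ifs with h1
        · obtain ⟨rfl, rfl⟩ := h1
          obtain ⟨l0, c', l1, rfl, h1, h2, h3⟩ := ih
          rcases s with _ | ⟨⟨y'', g''⟩, s⟩
          · exact Bal.arc h h1 h2 h3
          · obtain ⟨l2, c'', l3, rfl, h4, h5, h6⟩ := h3
            exact ⟨c :: (l0 ++ c' :: l2), c'', l3, by simp, h4, Bal.arc h h1 h2 h5, h6⟩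
        · exact ⟨[], c, l, rfl, h, Bal.nil, ih⟩

theorem bal_of_eval {I : Type} (lab : I → Lt G ι) (l : List I) (g : G)
    (h : (l.map (evL ∘ lab)).prod = Coprod.inl g) : Bal lab l g := by
  have := dec_run lab l
  rw [h] at this
  change Bal lab l (g * 1) at this
  rwa [mul_one] at this

end Vale.Agent.P174
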