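import Vale.Agent.P174.Up

/-! Block diagonal unitaries and the degree lemma in block form. -/

namespace Vale.Agent.P174

open Matrix Equiv

set_option linter.unusedSectionVars false
set_option linter.unusedSimpArgs false

theorem cost_two {A : Type*} [Ring A] [Algebra ℂ A] [StarRing A] [StarModule ℂ A]
    {τ : A →ₗ[ℂ] ℂ} (h : IsTr τ) {a b P : A} (ha : star a = a) (ha2 : a * a = 1)
    (hb : star b = b) (hb2 : b * b = 1) (hP : star P = P) (hP2 : P * P = P)
    (hab : a * P = b * P) (h0 : P * a * P = 0) :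
    Cost τ (b * a) ((τ 1 - τ a).re / 2 + (τ 1 - τ b).re / 2 - 2 * (τ P).re) := by
  have key : ∀ a : A, star a = a → a * a = 1 → P * a * P = 0 →
      Cost τ (a - (a * P + P * a) + (P + a * P * a)) ((τ 1 - τ a).re / 2 - (τ P).re) := by
    intro a ha ha2 h0
    have e1 : ∀ x, a * (a * x) = x := fun x => by rw [← mul_assoc, ha2, one_mul]
    have e2 : ∀ x, P * (P * x) = P * x := fun x => by rw [← mul_assoc, hP2]
    have e3 : ∀ x, P * (a * (P * x)) = 0 := fun x => by
      rw [← mul_assoc, ← mul_assoc, h0, zero_mul]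
    have e4 : P * (a * P) = 0 := by rw [← mul_assoc, h0]
    have := h.cost (T := a - (a * P + P * a) + (P + a * P * a))
      (by simp only [star_add, star_sub, star_mul, ha, hP, mul_assoc]; abel)
      (by simp only [mul_add, add_mul, mul_sub, sub_mul, mul_assoc, e1, e2, e3, e4, ha2, hP2,
            mul_zero, mul_one]; abel)
    convert this using 1
    have f1 : τ (a * P) = 0 := by rw [← hP2, ← mul_assoc, h.comm, ← mul_assoc, h0, map_zero]
    have f2 : τ (P * a) = 0 := by rw [h.comm, f1]
    have f3 : τ (a * P * a) = τ P := by rw [h.comm, ← mul_assoc, ha2, one_mul]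
    simp only [map_add, map_sub, f1, f2, f3, Complex.sub_re, Complex.add_re, Complex.zero_re]
    ring
  have hab' : P * a = P * b := by
    have := congrArg star hab
    rwa [star_mul, star_mul, ha, hb, hP] at this
  have h1 := (key b hb hb2 (by rw [← hab', h0])).mul (key a ha ha2 h0)
  have e1 : ∀ x, a * (a * x) = x := fun x => by rw [← mul_assoc, ha2, one_mul]
  have e2 : ∀ x, P * (P * x) = P * x := fun x => by rw [← mul_assoc, hP2]
  have e3 : ∀ x, P * (a * (P * x)) = 0 := fun x => by
    rw [← mul_assoc, ← mul_assoc, h0, zero_mul]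
  have e4 : P * (a * P) = 0 := by rw [← mul_assoc, h0]
  have e5 : b * (a * P) = P := by rw [hab, ← mul_assoc, hb2, one_mul]
  have e6 : ∀ x, b * (a * (P * x)) = P * x := fun x => by
    rw [← mul_assoc a, ← mul_assoc, e5]
  have e7 : ∀ x, b * (P * x) = a * (P * x) := fun x => by
    rw [← mul_assoc, ← hab, mul_assoc]
  have e8 : b * P * b = a * P * a := by rw [← hab, mul_assoc, ← hab', mul_assoc]
  rw [e8, ← hab, ← hab'] at h1
  convert h1 using 1
  · simp only [mul_add, add_mul, mul_sub, sub_mul, mul_assoc, e1, e2, e3, e4, e5, e6, e7, ha2, hP2,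
      mul_zero, mul_one, ← hab]
    abel
  · ring

variable {J D B S : Type} [Fintype J] [DecidableEq J] [Fintype D] [DecidableEq D] [Fintype B]
  [DecidableEq B] [Fintype S] [DecidableEq S]

variable (S) in
/-- Block diagonal unitaries. -/
def BU : (B → unitaryGroup D ℂ) →* unitaryGroup ((D × B) ⊕ S) ℂ where
  toFun F := ⟨fromBlocks (blockDiagonal fun β => (F β).1) 0 0 1, by
    have : ∀ β, (F β).1 * (F β).1ᴴ = 1 := fun β => (F β).2.2
    rw [mem_unitaryGroup_iff, star_eq_conjTranspose]
    simp only [fromBlocks_conjTranspose, fromBlocks_multiply, blockDiagonal_conjTranspose,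
      ← blockDiagonal_mul, this]
    simp [← fromBlocks_one, ← blockDiagonal_one]; rfl⟩
  map_one' := Subtype.ext (by
    change fromBlocks (blockDiagonal 1) 0 0 1 = 1
    rw [blockDiagonal_one, fromBlocks_one])
  map_mul' F F' := Subtype.ext (by
    change _ = fromBlocks _ _ _ _ * fromBlocks _ _ _ _
    simp [fromBlocks_multiply, ← blockDiagonal_mul])

variable (D) in
/-- Lifted permutations. -/
def lf (σ : Perm B) (τ : Perm S) : Perm ((D × B) ⊕ S) :=
  Equiv.sumCongr (Equiv.prodCongr (Equiv.refl D) σ) τ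

@[simp] theorem lf_inl (σ : Perm B) (τ : Perm S) (d : D) (β : B) :
    lf D σ τ (.inl (d, β)) = .inl (d, σ β) := rfl

@[simp] theorem lf_inr (σ : Perm B) (τ : Perm S) (s : S) :
    lf D σ τ (.inr s) = .inr (τ s) := rfl

theorem lf_mul (σ σ' : Perm B) (τ τ' : Perm S) :
    lf D (σ * σ') (τ * τ') = lf D σ τ * lf D σ' τ' := by
  ext1 x; rcases x with ⟨d, β⟩ | s <;> rfl

theorem lf_one : lf D (1 : Perm B) (1 : Perm S) = 1 := by
  ext1 x; rcases x with ⟨d, β⟩ | s <;> rfl

theorem BU_ll (F : B → unitaryGroup D ℂ) (d d' : D) (β β' : B) :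
    (BU S F).1 (.inl (d, β)) (.inl (d', β')) = if β = β' then (F β).1 d d' else 0 :=
  blockDiagonal_apply (fun β => (F β).1) (d, β) (d', β')

theorem BU_lr (F : B → unitaryGroup D ℂ) (x : D × B) (s : S) :
    (BU S F).1 (.inl x) (.inr s) = 0 := rfl

theorem BU_rl (F : B → unitaryGroup D ℂ) (x : D × B) (s : S) :
    (BU S F).1 (.inr s) (.inl x) = 0 := rfl

theorem BU_rr (F : B → unitaryGroup D ℂ) (s s' : S) :
    (BU S F).1 (.inr s) (.inr s') = if s = s' then 1 else 0 := one_apply

theorem pU_mul {I : Type} [Fintype I] [DecidableEq I] (σ τ : Perm I) :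
    pU (σ * τ) = pU σ * pU τ := Subtype.ext (pm_mul σ τ)

theorem pU_one {I : Type} [Fintype I] [DecidableEq I] : pU (1 : Perm I) = 1 :=
  Subtype.ext pm_one

theorem BU_pU (F : B → unitaryGroup D ℂ) (σ : Perm B) (τ : Perm S) :
    BU S F * pU (lf D σ τ) = pU (lf D σ τ) * BU S fun β => F (σ β) := by
  refine Subtype.ext ?_
  change (BU S F).1 * pm ℂ _ = pm ℂ _ * (BU S _).1
  ext x y
  obtain ⟨x, rfl⟩ := (lf D σ τ).surjective x
  rw [mul_pm_apply, pm_mul_apply, symm_apply_apply]
  rcases x with ⟨d, β⟩ | s <;> rcases y with ⟨d', β'⟩ | s' <;>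
    simp [BU_ll, BU_lr, BU_rl, BU_rr]

/-- Reindexing unitaries. -/
def rU {I K : Type} [Fintype I] [DecidableEq I] [Fintype K] [DecidableEq K] (e : K ≃ I) :
    unitaryGroup I ℂ →* unitaryGroup K ℂ where
  toFun U := ⟨U.1.submatrix e e, by
    have : U.1 * U.1ᴴ = 1 := U.2.2
    rw [mem_unitaryGroup_iff, star_eq_conjTranspose, conjTranspose_submatrix,
      submatrix_mul_equiv, this, submatrix_one_equiv]⟩
  map_one' := Subtype.ext (submatrix_one_equiv e)
  map_mul' U V := Subtype.ext (submatrix_mul_equiv U.1 V.1 e e e).symm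

theorem Wd.zpow {R : Type} [Fintype R] [DecidableEq R]
    {φ : (J → unitaryGroup D ℂ) → unitaryGroup (D ⊕ R) ℂ} {e : J → ℤ} (h : Wd φ e) (k : ℤ) :
    Wd (φ ^ k) (k • e) := by
  induction k using Int.induction_on with
  | zero => rw [zpow_zero, zero_smul]; exact Wd.const 1
  | succ k ih => rw [_root_.zpow_add_one, add_smul, one_smul]; exact ih.mul h
  | pred k ih =>
    rw [_root_.zpow_sub_one, sub_smul, one_smul, sub_eq_add_neg]; exact ih.mul h.inv

/-- Splitting off one block. -/
def e0 (D S : Type) (β0 : B) : D ⊕ ((D × {β // β ≠ β0}) ⊕ S) ≃ (D × B) ⊕ S where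
  toFun
    | .inl d => .inl (d, β0)
    | .inr (.inl (d, β)) => .inl (d, β.1)
    | .inr (.inr s) => .inr s
  invFun
    | .inl (d, β) => if h : β = β0 then .inl d else .inr (.inl (d, ⟨β, h⟩))
    | .inr s => .inr (.inr s)
  left_inv := by
    rintro (d | ⟨d, β, h⟩ | s)
    · simp
    · simp [h]
    · rfl
  right_inv := by
    rintro (⟨d, β⟩ | s)
    · by_cases h : β = β0 <;> simp [h]
    · rfl

theorem degreeB (β0 β1 : B) (h01 : β1 ≠ β0) (ty : B → J) (ε : J → B → ℤ)
    (C : J → unitaryGroup ((D × B) ⊕ S) ℂ)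
    (hdet : (Matrix.of fun i j => ∑ β, if ty β = i then ε j β else 0).det ≠ 0) :
    ∃ U : J → unitaryGroup D ℂ, ∀ j, ∃ W : Matrix ((D × B) ⊕ S) D ℂ, Wᴴ * W = 1 ∧
      (C j * BU S fun β => U (ty β) ^ ε j β).1 * W = W := by
  have h0 : ∀ V : unitaryGroup D ℂ, rU (e0 D S β0) (BU S (Pi.mulSingle β0 V)) = blkU _ V := by
    intro V
    refine Subtype.ext ?_
    ext x y
    change (BU S (Pi.mulSingle β0 V)).1 (e0 D S β0 x) (e0 D S β0 y) = fromBlocks V.1 0 0 1 x y
    rcases x with d | ⟨d, β, h⟩ | s <;> rcases y with d' | ⟨d', β', h'⟩ | s' <;>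
      simp [e0, BU_ll, BU_lr, BU_rl, BU_rr, one_apply, Pi.mulSingle_apply]
    · exact fun e => absurd e.symm h'
    · exact fun e => absurd e h
    · by_cases e : β = β' <;> simp [e, h, h', one_apply]
  have h1 : ∀ β i, Wd (J := J) (fun U => rU (e0 D S β0) (BU S (Pi.mulSingle β (U i))))
      (Pi.single i 1) := by
    intro β i
    have := ((Wd.const (J := J) (rU (e0 D S β0) (pU (lf D (swap β β0) 1)))⁻¹).mul
      (Wd.var i)).mul (Wd.const (rU (e0 D S β0) (pU (lf D (swap β β0) 1))))
    convert this using 1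
    · funext U
      simp only [Pi.mul_apply]
      rw [← h0, mul_assoc, ← map_mul, BU_pU, map_mul, inv_mul_cancel_left]
      congr 2
      funext γ
      simp only [Pi.mulSingle_apply, swap_apply_eq_iff, swap_apply_right]
    · simp
  have h2 : ∀ (j : J) (s : Finset B), Wd (J := J) (fun U => rU (e0 D S β0)
      (BU S fun β => if β ∈ s then U (ty β) ^ ε j β else 1))
      fun i => ∑ β ∈ s, if ty β = i then ε j β else 0 := by
    intro j s
    induction s using Finset.induction_on with
    | empty =>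
      convert Wd.const (J := J) (1 : unitaryGroup (D ⊕ ((D × {β // β ≠ β0}) ⊕ S)) ℂ) using 1
      · funext U
        simp only [Finset.notMem_empty, if_false]
        rw [← (rU (e0 D S β0)).map_one, ← (BU S).map_one]; rfl
      · rfl
    | insert γ s hγ ih =>
      convert ((h1 γ (ty γ)).zpow (ε j γ)).mul ih using 1
      · funext U
        simp only [Pi.mul_apply, Pi.pow_apply]
        rw [← map_zpow, ← map_zpow, ← map_mul, ← map_mul]
        congr 2
        funext β
        by_cases e : β = γ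
        · subst e; simp [hγ]
        · simp [e, Pi.mulSingle_apply]
      · funext i
        rw [Finset.sum_insert hγ]
        simp [Pi.single_apply, eq_comm]
  obtain ⟨U, hU⟩ := degree (R := (D × {β // β ≠ β0}) ⊕ S)
    ⟨fun d => .inl (d, ⟨β1, h01⟩), fun d d' h => by simpa using h⟩
    (fun j U => rU (e0 D S β0) (C j * BU S fun β => U (ty β) ^ ε j β)) _ (fun j => by
      have := (Wd.const (J := J) (rU (e0 D S β0) (C j))).mul (h2 j Finset.univ)
      convert this using 1
      · funext U; simp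
      · rw [zero_add]; rfl) hdet
  refine ⟨U, fun j => ?_⟩
  obtain ⟨W, hW1, hW2⟩ := hU j
  refine ⟨W.submatrix (e0 D S β0).symm id, ?_, ?_⟩
  · rw [conjTranspose_submatrix, submatrix_mul_equiv, hW1, submatrix_id_id]
  · have := congrArg (fun M => M.submatrix (e0 D S β0).symm id) hW2
    rw [← submatrix_mul_equiv _ _ _ (e0 D S β0).symm] at this
    convert this using 2
    change _ = (Matrix.submatrix _ _ _).submatrix _ _
    simp

end Vale.Agent.P174
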