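import Mathlib

/-! Closedness of the pulled back volume form, in purely algebraic form. -/

namespace Vale.Agent.P174

open Matrix Finset

set_option linter.unusedSectionVars false

variable {A : Type*} [CommRing A] [Algebra ℂ A]

theorem der_prod {ι : Type*} [DecidableEq ι] (D : Derivation ℂ A A) (s : Finset ι) (f : ι → A) :
    D (∏ i ∈ s, f i) = ∑ k ∈ s, (∏ i ∈ s.erase k, f i) * D (f k) := by
  induction s using Finset.induction_on with
  | empty => simp
  | insert a s ha ih =>
    rw [Finset.prod_insert ha, Finset.sum_insert ha, Finset.erase_insert ha, D.leibniz, ih,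
      smul_eq_mul, smul_eq_mul, Finset.mul_sum, add_comm]
    congr 1
    refine Finset.sum_congr rfl fun k hk => ?_
    have hne : a ≠ k := fun h => ha (h ▸ hk)
    rw [Finset.erase_insert_of_ne hne, Finset.prod_insert (fun h => ha (Finset.mem_of_mem_erase h))]
    ring

theorem der_det {n : Type*} [Fintype n] [DecidableEq n] (D : Derivation ℂ A A)
    (M : Matrix n n A) : D M.det = ∑ k, ∑ i, adjugate M k i * D (M i k) := by
  have h1 : ∀ k, ∑ i, adjugate M k i * D (M i k) = (M.updateCol k fun i => D (M i k)).det := by
    intro k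
    rw [← cramer_apply, cramer_eq_adjugate_mulVec]
    rfl
  simp only [h1, det_apply, map_sum]
  rw [Finset.sum_comm]
  refine Finset.sum_congr rfl fun σ _ => ?_
  rw [Units.smul_def, map_zsmul, der_prod, Finset.smul_sum]
  refine Finset.sum_congr rfl fun k _ => ?_
  rw [Units.smul_def]
  congr 1
  rw [← Finset.prod_erase_mul _ _ (Finset.mem_univ k)]
  congr 1
  · refine Finset.prod_congr rfl fun i hi => ?_
    rw [updateCol_ne (Finset.ne_of_mem_erase hi)]
  · rw [updateCol_self]

variable {κ : Type*} [Fintype κ] [DecidableEq κ]

/-- The bordered matrix. -/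
def bord (θ : Option κ → κ → A) (a : Option κ) : Matrix (Option κ) (Option κ) A :=
  Matrix.of fun b c => match c with
    | none => if b = a then 1 else 0
    | some k => θ b k

theorem adj_eq {n : Type*} [Fintype n] [DecidableEq n] (M : Matrix n n A) (i b : n) :
    adjugate M i b = (M.updateCol i (Pi.single b 1)).det := by
  rw [← cramer_apply, cramer_eq_adjugate_mulVec, mulVec_single_one]
  rfl

theorem adj_none (θ : Option κ → κ → A) (a b : Option κ) :
    adjugate (bord θ a) none b = (bord θ b).det := by
  rw [adj_eq]
  congr 1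
  ext c d
  cases d with
  | none => simp [bord, Pi.single_apply]
  | some k => simp [bord]

theorem adj_anti (θ : Option κ → κ → A) (a b : Option κ) (k : κ) :
    adjugate (bord θ a) (some k) b = - adjugate (bord θ b) (some k) a := by
  rw [adj_eq, adj_eq]
  have : (bord θ a).updateCol (some k) (Pi.single b 1) =
      ((bord θ b).updateCol (some k) (Pi.single a 1)).submatrix id
        (Equiv.swap none (some k)) := by
    ext c d
    cases d with
    | none => simp [bord, Pi.single_apply]
    | some j =>
      by_cases h : j = k
      · subst h; simp [bord, Pi.single_apply]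
      · have h' : (some j : Option κ) ≠ some k := by simpa using h
        simp [bord, Equiv.swap_apply_of_ne_of_ne (Option.some_ne_none j) h', updateCol_ne h']
  rw [this, det_permute', Equiv.Perm.sign_swap (by simp)]
  simp

theorem adj_rows (θ : Option κ → κ → A) (a b c : Option κ) :
    ∑ k, θ c k * adjugate (bord θ a) (some k) b =
      (if c = b then (bord θ a).det else 0) - (if c = a then (bord θ b).det else 0) := by
  have h := congrFun (congrFun (mul_adjugate (bord θ a)) c) b
  rw [mul_apply, Fintype.sum_option, adj_none] at h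
  simp only [bord, of_apply, Matrix.smul_apply, one_apply, smul_eq_mul, mul_ite, mul_one, mul_zero,
    ite_mul, one_mul, zero_mul] at h ⊢
  rw [← h]; ring

theorem adj_cols (θ : Option κ → κ → A) (a : Option κ) (k j : κ) :
    ∑ b, adjugate (bord θ a) (some k) b * θ b j = if k = j then (bord θ a).det else 0 := by
  have h := congrFun (congrFun (adjugate_mul (bord θ a)) (some k)) (some j)
  rw [mul_apply] at h
  simpa [bord, one_apply] using h

theorem sum_bord (θ : Option κ → κ → A) (j : κ) : ∑ a, (bord θ a).det * θ a j = 0 := by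
  have h := congrFun (congrFun (adjugate_mul (bord θ none)) none) (some j)
  rw [mul_apply] at h
  simp only [adj_none] at h
  simpa [bord] using h

theorem bord_none (θ : Option κ → κ → A) :
    (bord θ none).det = (Matrix.of fun a k => θ (some a) k).det := by
  have : bord θ none = (fromBlocks (1 : Matrix Unit Unit A) (Matrix.of fun _ k => θ none k) 0
      (Matrix.of fun a k => θ (some a) k)).submatrix
        ((Equiv.optionEquivSumPUnit κ).trans (Equiv.sumComm _ _))
        ((Equiv.optionEquivSumPUnit κ).trans (Equiv.sumComm _ _)) := by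
    ext a b
    cases a <;> cases b <;> simp [bord]
  rw [this, det_submatrix_equiv_self, det_fromBlocks_zero₂₁]
  simp

theorem sum4 {α β γ ε : Type*} [Fintype α] [Fintype β] [Fintype γ] [Fintype ε]
    (f : α → β → γ → ε → A) :
    ∑ a, ∑ b, ∑ k, ∑ s, f a b k s = ∑ k, ∑ s, ∑ a, ∑ b, f a b k s := by
  calc _ = ∑ a, ∑ k, ∑ s, ∑ b, f a b k s := by
        refine Finset.sum_congr rfl fun a _ => ?_
        rw [Finset.sum_comm]
        exact Finset.sum_congr rfl fun k _ => Finset.sum_comm
    _ = _ := by
        rw [Finset.sum_comm]
        exact Finset.sum_congr rfl fun k _ => Finset.sum_comm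

theorem closed {S : Type*} [Fintype S] (δ : Option κ → Derivation ℂ A A)
    (θ : Option κ → κ → A) (ψ : A) (ℓ : κ → A) (hψ : ∀ a, δ a ψ = ∑ k, ℓ k * θ a k)
    (co : κ → S → A) (i j : κ → S → κ) (c : Option κ → Option κ → Option κ → A)
    (hMC : ∀ a b k, δ a (θ b k) - δ b (θ a k) =
      ∑ s, co k s * (θ a (i k s) * θ b (j k s)) + ∑ e, c a b e * θ e k)
    (hc1 : ∀ a, ∑ b, c a b b = 0) (hc2 : ∀ b, ∑ a, c a b a = 0) :
    ∑ a, δ a (ψ * (bord θ a).det) = 0 := by
  set C : Option κ → Option κ → κ → A := fun a b k => adjugate (bord θ a) (some k) b with hC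
  have h1 : ∑ a, (bord θ a).det * δ a ψ = 0 := by
    simp only [hψ, Finset.mul_sum]
    rw [Finset.sum_comm]
    refine Finset.sum_eq_zero fun k _ => ?_
    have := sum_bord θ k
    calc _ = ℓ k * ∑ a, (bord θ a).det * θ a k := by
          rw [Finset.mul_sum]; exact Finset.sum_congr rfl fun a _ => by ring
      _ = 0 := by rw [this, mul_zero]
  have h2 : ∀ a, δ a (bord θ a).det = ∑ b, ∑ k, C a b k * δ a (θ b k) := by
    intro a
    rw [der_det, Fintype.sum_option, Finset.sum_comm]
    have : ∑ b, adjugate (bord θ a) none b * δ a (bord θ a b none) = 0 := by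
      refine Finset.sum_eq_zero fun b _ => ?_
      simp only [bord, of_apply]
      split_ifs <;> simp
    rw [this, zero_add]
    rfl
  set T := ∑ a, ∑ b, ∑ k, C a b k * δ a (θ b k) with hT
  have h3 : T = - ∑ a, ∑ b, ∑ k, C a b k * δ b (θ a k) := by
    rw [hT, Finset.sum_comm, ← Finset.sum_neg_distrib]
    refine Finset.sum_congr rfl fun a _ => ?_
    rw [← Finset.sum_neg_distrib]
    refine Finset.sum_congr rfl fun b _ => ?_
    rw [← Finset.sum_neg_distrib]
    refine Finset.sum_congr rfl fun k _ => ?_
    simp only [hC]
    rw [adj_anti θ b a k]; ring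
  have h4 : ∑ a, ∑ b, ∑ k, C a b k * ∑ s, co k s * (θ a (i k s) * θ b (j k s)) = 0 := by
    have : ∀ k s, ∑ a, ∑ b, C a b k * (co k s * (θ a (i k s) * θ b (j k s))) = 0 := by
      intro k s
      have e : ∀ a, ∑ b, C a b k * (co k s * (θ a (i k s) * θ b (j k s))) =
          (if k = j k s then co k s else 0) * ((bord θ a).det * θ a (i k s)) := by
        intro a
        have := adj_cols θ a k (j k s)
        calc _ = co k s * θ a (i k s) * ∑ b, adjugate (bord θ a) (some k) b * θ b (j k s) := by
              rw [Finset.mul_sum]; exact Finset.sum_congr rfl fun b _ => by simp only [hC]; ring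
          _ = _ := by rw [this]; split_ifs <;> ring
      simp only [e]
      rw [← Finset.mul_sum, sum_bord, mul_zero]
    simp only [Finset.mul_sum]
    rw [sum4]
    simp only [this, Finset.sum_const_zero]
  have h5 : ∑ a, ∑ b, ∑ k, C a b k * ∑ e, c a b e * θ e k = 0 := by
    have e : ∀ a b, ∑ k, C a b k * ∑ e, c a b e * θ e k =
        c a b b * (bord θ a).det - c a b a * (bord θ b).det := by
      intro a b
      calc _ = ∑ e, c a b e * ∑ k, θ e k * adjugate (bord θ a) (some k) b := by
            simp only [Finset.mul_sum]
            rw [Finset.sum_comm]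
            exact Finset.sum_congr rfl fun e _ => Finset.sum_congr rfl fun k _ => by
              simp only [hC]; ring
        _ = _ := by
            simp only [adj_rows, mul_sub, Finset.sum_sub_distrib, mul_ite, mul_zero,
              Finset.sum_ite_eq', Finset.mem_univ, if_true]
    simp only [e, Finset.sum_sub_distrib]
    rw [Finset.sum_comm (f := fun a b => c a b a * (bord θ b).det)]
    simp only [← Finset.sum_mul, hc1, hc2, zero_mul, Finset.sum_const_zero, sub_zero]
  have h6 : T + T = 0 := by
    calc T + T = ∑ a, ∑ b, ∑ k, C a b k * (δ a (θ b k) - δ b (θ a k)) := by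
          nth_rewrite 2 [h3]
          simp only [hT, mul_sub, Finset.sum_sub_distrib]; ring
      _ = 0 := by
          simp only [hMC, mul_add, Finset.sum_add_distrib]
          rw [h4, h5, add_zero]
  have h7 : T = 0 := by
    have : T = (1 / 2 : ℂ) • (T + T) := by
      rw [← two_smul ℂ T, smul_smul]; norm_num
    rw [this, h6, smul_zero]
  simp only [Derivation.leibniz, smul_eq_mul, Finset.sum_add_distrib, h1, add_zero, h2]
  rw [← Finset.mul_sum, ← hT, h7, mul_zero]

end Vale.Agent.P174
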