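import Vale.Agent.P174.Blk

/-! The core contradiction for a planar picture given by faces and stems. -/

namespace Vale.Agent.P174

open Matrix Equiv

set_option linter.unusedSectionVars false
set_option linter.unusedSimpArgs false

variable {G : Type*} [Group G] {ι : Type}

section up
variable {I : Type} [Fintype I] [DecidableEq I]

variable (G) in
/-- Scalar matrices inside matrices over the group algebra. -/
noncomputable def up : Matrix I I ℂ →+* Matrix I I (GA G) := (algebraMap ℂ (GA G)).mapMatrix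

theorem up_apply (M : Matrix I I ℂ) (i j : I) : up G M i j = gs 1 (M i j) := by
  change algebraMap ℂ (GA G) (M i j) = _
  rw [Algebra.algebraMap_eq_smul_one, ← gs_one, smul_gs, mul_one]

theorem up_star (M : Matrix I I ℂ) : star (up G M) = up G (star M) := by
  ext i j; rw [star_apply, up_apply, up_apply, star_gs, inv_one, star_apply]

theorem tM_up (M : Matrix I I ℂ) : tM (up G M) = M.trace := by
  simp [tM_apply, up_apply, t0_gs, trace]

theorem gs_zero (g : G) : gs g 0 = 0 := by rw [← zero_mul (0 : ℂ), ← smul_gs, zero_smul]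

theorem up_pm (σ : Perm I) : up G (pm ℂ σ) = pm (GA G) σ := by
  ext i j; rw [up_apply]; simp only [pm, of_apply]; split_ifs <;> simp [gs_one, gs_zero]

theorem up_diag (d : I → ℂ) : up G (diagonal d) = diagonal fun i => gs 1 (d i) := by
  ext i j; rw [up_apply]; simp only [diagonal_apply]; split_ifs <;> simp [gs_zero]

theorem proj_sum {J D : Type} [Fintype J] [DecidableEq J] [Fintype D] [DecidableEq D]
    (W : J → Matrix I D ℂ) (E : J → Matrix I I ℂ) (a b : Matrix I I ℂ)
    (hW : ∀ j, (W j)ᴴ * W j = 1) (hE : ∀ j, E j * W j = W j) (hE' : ∀ j, (E j)ᴴ = E j)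
    (hEE : ∀ j k, j ≠ k → E j * E k = 0) (hEa : ∀ j k, E j * a * E k = 0)
    (hab : ∀ j, a * W j = b * W j) (R : Type*) [Ring R] : ∃ P : Matrix I I ℂ, star P = P ∧
      P * P = P ∧ a * P = b * P ∧ P * a * P = 0 ∧ P.trace = Fintype.card J * Fintype.card D ∧
      ∀ (f : Matrix I I ℂ →+* R) (x : R), (∀ j, x * f (E j) = f (E j)) → x * f P = f P := by
  have hE2 : ∀ j, (W j)ᴴ * E j = (W j)ᴴ := fun j => by
    rw [← hE', ← conjTranspose_mul, hE]
  refine ⟨∑ j, W j * (W j)ᴴ, ?_, ?_, ?_, ?_, ?_, ?_⟩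
  · simp [star_sum, star_eq_conjTranspose, conjTranspose_mul]
  · rw [Finset.sum_mul_sum]
    refine Finset.sum_congr rfl fun j _ => ?_
    rw [Finset.sum_eq_single j (fun k _ hk => ?_) (by simp)]
    · rw [Matrix.mul_assoc, ← Matrix.mul_assoc (W j)ᴴ, hW, Matrix.one_mul]
    · rw [← hE2 j, ← hE k, conjTranspose_mul, hE']
      simp only [Matrix.mul_assoc]
      rw [← Matrix.mul_assoc (E j), hEE j k hk.symm]; simp
  · simp only [Finset.mul_sum, ← Matrix.mul_assoc, hab]
  · rw [Finset.sum_mul, Finset.sum_mul_sum]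
    refine Finset.sum_eq_zero fun j _ => Finset.sum_eq_zero fun k _ => ?_
    have : W j * (W j)ᴴ * a * (W k * (W k)ᴴ) =
        W j * (W j)ᴴ * (E j * a * E k) * (W k * (W k)ᴴ) := by
      simp only [Matrix.mul_assoc]
      rw [← Matrix.mul_assoc (E k), hE, ← Matrix.mul_assoc (W j)ᴴ (E j), hE2]
    rw [this, hEa]; simp
  · simp [trace_sum, trace_mul_comm (W _), hW]
  · intro f x hx
    simp only [map_sum, Finset.mul_sum]
    refine Finset.sum_congr rfl fun j _ => ?_
    rw [← hE j, Matrix.mul_assoc, conjTranspose_mul, hE', map_mul, ← mul_assoc, hx]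

end up

variable {J D B S : Type} [Fintype J] [DecidableEq J] [Fintype D] [DecidableEq D] [Fintype B]
  [DecidableEq B] [Fintype S] [DecidableEq S]

theorem BU_diag {R : Type*} [Ring R] (f : ℂ →+* R) (hf : ∀ c x, f c * x = x * f c)
    (F : B → unitaryGroup D ℂ) (d : (D × B) ⊕ S → R)
    (hd : ∀ x y β, d (.inl (x, β)) = d (.inl (y, β))) :
    diagonal d * f.mapMatrix (BU S F).1 = f.mapMatrix (BU S F).1 * diagonal d := by
  ext x y
  rw [diagonal_mul, mul_diagonal, RingHom.mapMatrix_apply, map_apply, hf]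
  rcases x with ⟨x, β⟩ | s <;> rcases y with ⟨y, β'⟩ | s'
  · rw [BU_ll]; split_ifs with h
    · subst h; rw [hd x y]
    · simp
  · simp [BU_lr]
  · simp [BU_rl]
  · rw [BU_rr]; split_ifs with h
    · subst h; rfl
    · simp

open Classical in
theorem core (ty : B → J) (sg : B → Bool) (fl rot : Perm B) (sf : Perm S) (z : S)
    (lb : B → Lt G ι) (ls : S → Lt G ι) (σ : J → ι) (hσ : Function.Injective σ)
    (fl2 : fl * fl = 1) (tyfl : ∀ β, ty (fl β) = ty β) (sgfl : ∀ β, sg (fl β) = !sg β)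
    (lbfl : ∀ β, lb (fl β) = invL (lb β)) (rot2 : rot * fl * (rot * fl) = 1)
    (tyrot : ∀ β, ty (rot β) = ty β) (sgrot : ∀ β, sg (rot β) = sg β)
    (sf2 : sf * sf = 1) (lssf : ∀ s, ls (sf s) = invL (ls s)) (sfne : ∀ s ≠ z, sf s ≠ s)
    (sfz : sf z = z) (lz : ls z = .inl 1) (β0 : B)
    (hdet : (Matrix.of fun i j => ∑ β, if ty β = i then
      (if lb β = .inr (σ j, true) then (if sg β then 1 else -1) else 0 : ℤ) else 0).det ≠ 0)
    (l : List ((D × B) ⊕ S)) (hl : (Sum.inr z :: l).Nodup) (hall : ∀ i, i ∈ Sum.inr z :: l)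
    (n : ℕ) (hlow : Low (lf D 1 sf) (lf D rot 1) l n)
    (hn : 2 * n + 1 ≤ 4 * (Fintype.card J * Fintype.card D) + Fintype.card S) (g : G)
    (hg : (l.map (evL ∘ Sum.elim (fun x => lb x.2) ls)).prod = Monoid.Coprod.inl g) : g = 1 := by
  by_contra hg1
  set lab : (D × B) ⊕ S → Lt G ι := Sum.elim (fun x => lb x.2) ls with hlab
  obtain ⟨ζ, hζ, hcon⟩ := contra (I := (D × B) ⊕ S) (.inr z) hg1
  obtain ⟨hzl, hl'⟩ := List.nodup_cons.mp hl
  have hω : ‖star (ζ * ζ)‖ = 1 := by simp [hζ]
  have hω' : ζ * ζ * star (ζ * ζ) = 1 := by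
    rw [RCLike.star_def, Complex.mul_conj, Complex.normSq_eq_norm_sq]; simp [hζ]
  obtain ⟨p, κ, hp, c0, hc0, hT⟩ := upper lab _ hω (bal_of_eval lab l g hg) hl'
  obtain ⟨T, hT1, hT2⟩ := hT _ hzl
  obtain ⟨s, Φ, h1, h2, hlo⟩ := lower (G := G) hlow _ hl
  have hin : ∀ i, i ≠ .inr z → i ∈ l := fun i hi => (List.mem_cons.mp (hall i)).resolve_left hi
  obtain rfl : s = lf D 1 sf := Equiv.ext fun i => by
    by_cases hi : i = .inr z
    · rw [hi, (h2 _ hzl).1, lf_inr, sfz]
    · exact (h1 i (hin i hi)).1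
  obtain rfl : Φ = lf D rot 1 := Equiv.ext fun i => by
    by_cases hi : i = .inr z
    · rw [hi, (h2 _ hzl).2]; rfl
    · exact (h1 i (hin i hi)).2
  have hR : ∀ i, (lab i).isRight → lab (p i) = invL (lab i) := fun i hi =>
    hp.lab i (hin i fun e => by simp [e, hlab, lz] at hi) hi
  have hL : ∀ i, (lab i).isLeft → p i = i ∧ κ i = 1 := fun i hi => hp.fix i (Or.inr hi)
  set mir := lf D fl sf with hmir
  have hM : ∀ i, lab (mir i) = invL (lab i) := by
    rintro (⟨d, β⟩ | s)
    · exact lbfl β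
    · exact lssf s
  have hpp : p * p = 1 := Equiv.ext hp.inv
  have hκ : ∀ i, κ (p i) * κ i = 1 := fun i => by
    rw [hp.star, RCLike.star_def, mul_comm, Complex.mul_conj, Complex.normSq_eq_norm_sq, hp.norm]
    simp
  obtain ⟨a0, ha0⟩ : ∃ a0 : Matrix _ _ ℂ, a0 = pm ℂ p * diagonal κ := ⟨_, rfl⟩
  have a02 : a0 * a0 = 1 := by
    rw [ha0, mul_assoc, ← mul_assoc (diagonal κ), diag_mul_pm, ← mul_assoc, ← mul_assoc, ← pm_mul,
      hpp, pm_one, one_mul, diagonal_mul_diagonal, ← diagonal_one]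
    simp only [hκ]
  have a0s : star a0 = a0 := by
    rw [ha0, star_mul, pm_star, inv_eq_of_mul_eq_one_right hpp, star_eq_conjTranspose,
      diagonal_conjTranspose, diag_mul_pm]
    congr 2; funext i; simp [hp.star]
  let Ed : ι × Bool → Matrix ((D × B) ⊕ S) ((D × B) ⊕ S) ℂ := fun y =>
    diagonal fun i => if lab i = .inr y then 1 else 0
  have Es : ∀ y, (Ed y)ᴴ = Ed y := fun y => by
    simp only [Ed, diagonal_conjTranspose]; congr 1; funext i
    simp only [Pi.star_apply]; split_ifs <;> simp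
  have E2 : ∀ y, Ed y * Ed y = Ed y := fun y => by
    simp only [Ed, diagonal_mul_diagonal]; congr 1; funext i; split_ifs <;> simp
  have EE : ∀ y y', y ≠ y' → Ed y * Ed y' = 0 := fun y y' h => by
    simp only [Ed, diagonal_mul_diagonal, ← diagonal_zero]; congr 1; funext i
    split_ifs with e1 e2
    · exact absurd (Sum.inr_injective (e1.symm.trans e2)) h
    all_goals simp
  have Einv : ∀ (x : Lt G ι) (y : ι × Bool), invL x = .inr y ↔ x = .inr (y.1, !y.2) := by
    rintro (k | ⟨j, b⟩) ⟨j', b'⟩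
    · simp [invL]
    · cases b <;> cases b' <;> simp [invL]
  have Em : ∀ y, Ed y * pm ℂ mir = pm ℂ mir * Ed (y.1, !y.2) := fun y => by
    simp only [Ed, diag_mul_pm, hM, Einv]
  have Ea : ∀ y, Ed y * a0 = a0 * Ed (y.1, !y.2) := fun y => by
    simp only [Ed, ha0, ← mul_assoc, diag_mul_pm]
    simp only [mul_assoc, diagonal_mul_diagonal]
    congr 2; funext i
    rw [mul_comm]
    rcases e : lab i with k | y'
    · rw [(hL i (by simp [e])).1, e]; simp
    · rw [hR i (by simp [e]), e]; simp only [Einv]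
  have EB : ∀ y (F : B → unitaryGroup D ℂ), Ed y * (BU S F).1 = (BU S F).1 * Ed y := fun y F =>
    BU_diag (RingHom.id ℂ) mul_comm F _ fun _ _ _ => rfl
  have hmm : mir * mir = 1 := by rw [hmir, ← lf_mul, fl2, sf2, lf_one]
  have hC : ∀ j, a0 * pm ℂ mir * Ed (σ j, true) - (1 - Ed (σ j, true)) ∈
      unitaryGroup ((D × B) ⊕ S) ℂ := fun j => by
    have e1 : Ed (σ j, true) * (a0 * pm ℂ mir) = a0 * pm ℂ mir * Ed (σ j, true) := by
      rw [← mul_assoc, Ea, mul_assoc, Em, mul_assoc]; rfl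
    have e2 : star (a0 * pm ℂ mir) * (a0 * pm ℂ mir) = 1 := by
      rw [star_mul, a0s, pm_star, mul_assoc, ← mul_assoc a0, a02, one_mul, ← pm_mul,
        inv_mul_cancel, pm_one]
    have e3 : star (Ed (σ j, true)) = Ed (σ j, true) := Es _
    have e4 := E2 (σ j, true)
    generalize a0 * pm ℂ mir = u at e1 e2
    generalize Ed (σ j, true) = E at e1 e3 e4
    have e5 : star u * E = E * star u := by rw [← e3, ← star_mul, e1, star_mul]
    have f1 : E * star u * (u * E) = E := by
      rw [mul_assoc, ← mul_assoc (star u), e2, one_mul, e4]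
    have f2 : E * star u * (1 - E) = 0 := by
      rw [← e5, mul_assoc, mul_sub, mul_one, e4, sub_self, mul_zero]
    have f3 : (1 - E) * (u * E) = 0 := by
      rw [← e1, ← mul_assoc, sub_mul, one_mul, e4, sub_self, zero_mul]
    have f4 : (1 - E) * (1 - E) = 1 - E := by
      rw [sub_mul, one_mul, mul_sub, mul_one, e4, sub_self, sub_zero]
    rw [mem_unitaryGroup_iff', star_sub, star_sub, star_one, star_mul, e3, sub_mul, mul_sub,
      mul_sub (1 - E), f1, f2, f3, f4]
    simp
  have hflne : ∀ β, fl β ≠ β := fun β h => by simpa [h] using sgfl β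
  obtain ⟨U, hU⟩ := degreeB β0 (fl β0) (hflne β0) ty _ (fun j => ⟨_, hC j⟩) hdet
  choose W hW1 hW2 using hU
  let F : B → unitaryGroup D ℂ := fun β => U (ty β) ^ (if sg β then 1 else -1 : ℤ)
  have hF : ∀ q : Perm B, (∀ β, ty (q β) = ty β) → (∀ β, sg (q β) = !sg β) → ∀ t : Perm S,
      q * q = 1 → t * t = 1 → pU (lf D q t) * BU S F * (pU (lf D q t) * BU S F) = 1 := by
    intro q e1 e2 t e3 e4
    rw [mul_assoc, ← mul_assoc (BU S F), BU_pU, ← mul_assoc, ← mul_assoc, ← pU_mul, ← lf_mul, e3,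
      e4, lf_one, pU_one, one_mul, ← map_mul, ← (BU S).map_one]
    congr 1; funext β
    simp only [F, Pi.mul_apply, e1, e2]
    cases sg β <;> simp
  have hinv : ∀ u : unitaryGroup ((D × B) ⊕ S) ℂ, u * u = 1 → star u.1 = u.1 ∧ u.1 * u.1 = 1 := by
    intro u hu
    have e : u.1 * u.1 = 1 := congrArg Subtype.val hu
    refine ⟨?_, e⟩
    rw [← mul_one (star u.1), ← e, ← mul_assoc, u.2.1, one_mul]
  obtain ⟨b0, hb0⟩ : ∃ b0 : Matrix _ _ ℂ, b0 = pm ℂ mir * (BU S F).1 := ⟨_, rfl⟩
  obtain ⟨b0s, b02⟩ : star b0 = b0 ∧ b0 * b0 = 1 := hb0 ▸ hinv _ (hF fl tyfl sgfl sf fl2 sf2)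
  obtain ⟨m0, hm0⟩ : ∃ m0 : Matrix _ _ ℂ, m0 = pm ℂ (lf D (rot * fl) 1) * (BU S F).1 := ⟨_, rfl⟩
  obtain ⟨m0s, m02⟩ : star m0 = m0 ∧ m0 * m0 = 1 := hm0 ▸ hinv _ (hF (rot * fl)
    (fun β => by simp [tyrot, tyfl]) (fun β => by simp [sgrot, sgfl]) 1 rot2 (one_mul 1))
  have hW3 : ∀ j, Ed (σ j, true) * W j = W j ∧ a0 * W j = b0 * W j := fun j => by
    have e0 := hW2 j
    set Fj : B → unitaryGroup D ℂ := fun β => U (ty β) ^
      (if lb β = .inr (σ j, true) then (if sg β then 1 else -1) else 0 : ℤ) with hFj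
    change (a0 * pm ℂ mir * Ed (σ j, true) - (1 - Ed (σ j, true))) * (BU S Fj).1 * W j = W j at e0
    have e1 : Ed (σ j, true) * (BU S Fj).1 = Ed (σ j, true) * (BU S F).1 := by
      ext x y
      simp only [Ed, diagonal_mul]
      split_ifs with h
      · rcases x with ⟨x, β⟩ | s <;> rcases y with ⟨y, β'⟩ | s'
        · have h : lb β = _ := h
          simp only [BU_ll, hFj, if_pos h, F]
        all_goals rfl
      · simp
    have e2 : (1 - Ed (σ j, true)) * (BU S Fj).1 = 1 - Ed (σ j, true) := by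
      ext x y
      simp only [Ed, ← diagonal_one, diagonal_sub, diagonal_mul]
      split_ifs with h
      · simp [diagonal_apply, h]
      · rcases x with ⟨x, β⟩ | s <;> rcases y with ⟨y, β'⟩ | s'
        · have h' : ¬ lb β = _ := h
          simp only [BU_ll, hFj, if_neg h', diagonal_apply, if_neg h]
          by_cases e : β = β' <;> simp [e, one_apply]
        · simp [BU_lr]
        · simp [BU_rl]
        · simp [BU_rr, diagonal_apply, h]
    rw [sub_mul, e2, mul_assoc _ (Ed _), e1, EB, ← mul_assoc, mul_assoc a0, ← hb0] at e0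
    have e3 : a0 * b0 * Ed (σ j, true) = Ed (σ j, true) * (a0 * b0) := by
      rw [hb0, ← mul_assoc (Ed _), Ea, mul_assoc a0 (Ed _), ← mul_assoc (Ed _), Em, mul_assoc,
        mul_assoc, mul_assoc, ← EB]; rfl
    have e4 : (1 - Ed (σ j, true)) * W j = -((1 - Ed (σ j, true)) * W j) := by
      conv_lhs => rw [← e0, ← Matrix.mul_assoc, e3]
      rw [← Matrix.neg_mul]
      congr 1
      simp [mul_sub, sub_mul, ← mul_assoc, E2]
    have e5 : Ed (σ j, true) * W j = W j := by
      have : (2 : ℂ) • ((1 - Ed (σ j, true)) * W j) = 0 := by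
        rw [two_smul]; exact add_eq_zero_iff_eq_neg.mpr e4
      rw [smul_eq_zero_iff_right two_ne_zero, Matrix.sub_mul, Matrix.one_mul, sub_eq_zero] at this
      exact this.symm
    refine ⟨e5, ?_⟩
    rw [Matrix.sub_mul, Matrix.sub_mul, Matrix.one_mul, e5, sub_self, sub_zero, Matrix.mul_assoc,
      e5] at e0
    conv_lhs => rw [← e0, ← Matrix.mul_assoc, ← mul_assoc, a02, one_mul]
  obtain ⟨P, Ps, P2, Pab, Pa, Ptr, PG⟩ := proj_sum W (fun j => Ed (σ j, true)) a0 b0 hW1
    (fun j => (hW3 j).1) (fun j => Es _) (fun j k h => EE _ _ fun e => h (hσ (by simpa using e)))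
    (fun j k => by rw [Ea, mul_assoc, EE _ _ (by simp), mul_zero]) (fun j => (hW3 j).2)
    (Matrix ((D × B) ⊕ S) ((D × B) ⊕ S) (GA G))
  obtain ⟨aG, haG⟩ : ∃ aG : Matrix _ _ (GA G), aG = diagonal fun i => gs (gp (lab i)) 1 :=
    ⟨_, rfl⟩
  have gpinv : ∀ x : Lt G ι, gp (invL x) = (gp x)⁻¹ := by rintro (k | y) <;> simp [gp, invL]
  have GB : aG * up G (BU S F).1 = up G (BU S F).1 * aG := by
    rw [haG]; exact BU_diag _ (fun c x => Algebra.commutes c x) F _ fun _ _ _ => rfl
  have Gs : star aG = diagonal fun i => gs (gp (lab i))⁻¹ 1 := by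
    rw [haG, star_eq_conjTranspose, diagonal_conjTranspose]; congr 1; funext i; simp [star_gs]
  have Gu : aG * star aG = 1 := by
    rw [Gs, haG, diagonal_mul_diagonal, ← diagonal_one]; simp [gs_mul, gs_one]
  have Gb : star aG * up G b0 = up G b0 * aG := by
    rw [hb0, map_mul, up_pm, mul_assoc, ← GB, ← mul_assoc, ← mul_assoc, Gs, diag_mul_pm, haG]
    simp only [hM, gpinv, inv_inv]
  have bs : star (up G b0 * aG) = up G b0 * aG := by rw [star_mul, up_star, b0s, Gb]
  have b2 : up G b0 * aG * (up G b0 * aG) = 1 := by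
    nth_rewrite 2 [← Gb]
    rw [mul_assoc, ← mul_assoc aG, Gu, one_mul, ← map_mul, b02, map_one]
  have GP : aG * up G P = up G P := PG (up G) aG fun j => by
    simp only [Ed, up_diag, haG, diagonal_mul_diagonal]
    congr 1; funext i
    split_ifs with h
    · simp [h, gp, gs_mul]
    · simp [gs_zero]
  have c3 := cost_two tM_tr (a := up G a0) (b := up G b0 * aG) (P := up G P)
    (by rw [up_star, a0s]) (by rw [← map_mul, a02, map_one]) bs b2 (by rw [up_star, Ps])
    (by rw [← map_mul, P2]) (by rw [mul_assoc, GP, ← map_mul, ← map_mul, Pab])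
    (by rw [← map_mul, ← map_mul, Pa, map_zero])
  have c2 := (tM_tr (G := G)).cost (T := up G m0) (by rw [up_star, m0s])
    (by rw [← map_mul, m02, map_one])
  have t1 : tM (up G m0) = Fintype.card S := by
    rw [tM_up, hm0, trace, Fintype.sum_sum_type, Finset.sum_eq_zero, zero_add]
    · simp only [diag_apply, pm_mul_apply]
      change ∑ s, (BU S F).1 (.inr s) (.inr s) = _
      simp [BU_rr]
    · rintro ⟨d, β⟩ _
      rw [diag_apply, pm_mul_apply]
      change (BU S F).1 (.inl (d, (rot * fl).symm β)) _ = _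
      rw [BU_ll, if_neg]
      rw [symm_apply_eq]
      intro e
      have := congrArg sg e
      simp [sgrot, sgfl] at this
  have t2 : tM (up G b0 * aG) = 1 := by
    rw [tM_apply, Finset.sum_eq_single (.inr z) (fun i _ hi => ?_) (by simp)]
    · rw [haG, mul_diagonal, up_apply, hb0, pm_mul_apply]
      change t0 (gs 1 ((BU S F).1 (.inr (sf.symm z)) _) * gs (gp (ls z)) 1) = _
      rw [BU_rr, if_pos (by rw [symm_apply_eq, sfz]), lz]
      simp [gs_mul, gp, t0_gs]
    · have : b0 i i = 0 := by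
        rw [hb0, pm_mul_apply]
        rcases i with ⟨d, β⟩ | s
        · change (BU S F).1 (.inl (d, fl.symm β)) _ = _
          rw [BU_ll, if_neg]
          rw [symm_apply_eq]; exact (hflne β).symm
        · change (BU S F).1 (.inr (sf.symm s)) _ = _
          rw [BU_rr, if_neg]
          rw [symm_apply_eq]; exact (sfne s fun e => hi (by rw [e])).symm
      rw [haG, mul_diagonal, up_apply, this, gs_zero, zero_mul, map_zero]
  have huniv : (Sum.inr z :: l).toFinset = Finset.univ :=
    Finset.eq_univ_of_forall fun i => List.mem_toFinset.mpr (hall i)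
  have hN : (Fintype.card ((D × B) ⊕ S) : ℝ) = l.length + 1 := by
    rw [← Finset.card_univ, ← huniv, List.toFinset_card_of_nodup hl]; simp
  have t3 : (tM (1 : Matrix ((D × B) ⊕ S) _ (GA G)) - tM (up G a0)).re =
      l.countP fun i => (lab i).isRight := by
    have e1 : tM (1 : Matrix ((D × B) ⊕ S) _ (GA G)) - tM (up G a0) =
        ∑ i, if (lab i).isRight then 1 else 0 := by
      rw [← (up G).map_one, tM_up, tM_up, ← trace_sub, trace]
      refine Finset.sum_congr rfl fun i _ => ?_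
      rw [diag_apply, Matrix.sub_apply, one_apply_eq, ha0, mul_diagonal]
      rcases e : lab i with k | y
      · simp [pm, hL i (by simp [e])]
      · have : i ≠ p i := fun h => by
          have := hR i (by simp [e])
          rw [← h, e] at this
          simp [invL, Prod.ext_iff] at this
        simp [pm, this]
    rw [e1, ← huniv, List.sum_toFinset _ hl, List.map_cons, List.sum_cons, if_neg (by
      simp [hlab, lz]), zero_add]
    generalize l = l'
    induction l' with
    | nil => simp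
    | cons x l' ih =>
      rw [List.map_cons, List.sum_cons, Complex.add_re, ih, List.countP_cons]
      split_ifs <;> simp [add_comm]
  refine hcon _ T (c0 * star (ζ * ζ)) _ _ (by rw [norm_mul, hc0, hω, one_mul])
    (hlo.mul (c2.mul c3)) hT1 ?_ ?_
  · have hn' : (2 * n + 1 : ℝ) ≤ 4 * (Fintype.card J * Fintype.card D) + Fintype.card S := by
      exact_mod_cast hn
    rw [t3, t1, t2, tM_up, Ptr, tM_one]
    simp only [Complex.sub_re, Complex.natCast_re, Complex.one_re, Complex.mul_re,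
      Complex.natCast_im, hN]
    linarith
  · have e1 : up G m0 * (up G b0 * aG * up G a0) =
        pm (GA G) (lf D rot 1 * lf D 1 sf) * (aG * up G a0) := by
      have : m0 * b0 = pm ℂ (lf D rot 1 * lf D 1 sf) := by
        have e : (BU S F).1 * b0 = pm ℂ mir := by
          have := b02
          nth_rewrite 1 [hb0] at this
          rw [← one_mul (_ * b0), ← pm_one, ← hmm, pm_mul, mul_assoc, ← mul_assoc (pm ℂ mir) _ b0,
            this, mul_one]
        rw [hm0, mul_assoc, e, ← pm_mul, hmir, ← lf_mul, ← lf_mul, mul_assoc, fl2]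
      rw [mul_assoc (up G b0), ← mul_assoc, ← map_mul, this, up_pm]
    have e2 : cy (.inr z :: l) * lf D 1 sf * (lf D rot 1)⁻¹ * (lf D rot 1 * lf D 1 sf) =
        cy (.inr z :: l) := by
      rw [mul_assoc, inv_mul_cancel_left, mul_assoc, ← lf_mul, sf2, mul_one, lf_one, mul_one]
    have e3 : T * dg (.inr z) (gs g (c0 * star (ζ * ζ))) =
        T * dg (.inr z) (gs g c0) * dg (.inr z) (gs 1 (star (ζ * ζ))) := by
      rw [mul_assoc, dg, dg, dg, diagonal_mul_diagonal]
      congr 2; funext i; split_ifs <;> simp [gs_mul]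
    rw [e1, ← mul_assoc, ← pm_mul, e2, e3, ← hT2, dg_eq, mono_mul, mul_one, ha0, map_mul, up_pm,
      up_diag, haG, ← mul_assoc (diagonal _), diag_mul_pm, mono, pm_mul, mul_assoc, mul_assoc,
      diagonal_mul_diagonal, ← mul_smul_comm, ← mul_smul_comm, ← diagonal_smul]
    congr 3; funext i
    have e4 : gp (lab (p i)) = gp (lab i) := by
      rcases e : lab i with k | y
      · rw [(hL i (by simp [e])).1, e]
      · rw [hR i (by simp [e]), e]; rfl
    rw [e4, Pi.smul_apply, Perm.one_apply, gs_mul]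
    by_cases hi : i = .inr z
    · rw [if_pos hi, if_neg (hi ▸ hzl), one_mul (gs _ _), smul_gs, hω', (hp.fix i (Or.inl (hi ▸ hzl))).2, hi]
      simp [hlab, lz, gp]
    · rw [if_neg hi, if_pos (hin i hi), mul_one, mul_one (gs _ _), smul_gs, ← mul_assoc, hω']

end Vale.Agent.P174
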