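import Vale.Agent.P174.Model

/-! The degree lemma: words in block embedded unitaries with nonsingular exponent matrix. -/

namespace Vale.Agent.P174

open Matrix

set_option linter.unusedSectionVars false
set_option linter.unusedSimpArgs false

section pm
variable {A : Type*} [Ring A] {I : Type} [Fintype I] [DecidableEq I]

/-- Permutation matrix. -/
def pm (A : Type*) [Ring A] (σ : Equiv.Perm I) : Matrix I I A :=
  Matrix.of fun i j => if i = σ j then 1 else 0

theorem pm_mul_apply {K : Type} (σ : Equiv.Perm I) (M : Matrix I K A) (i : I) (k : K) :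
    (pm A σ * M) i k = M (σ.symm i) k := by
  simp only [pm, mul_apply, of_apply, ite_mul, one_mul, zero_mul, ← Equiv.symm_apply_eq]
  simp

theorem mul_pm_apply {K : Type} (σ : Equiv.Perm I) (M : Matrix K I A) (i : I) (k : K) :
    (M * pm A σ) k i = M k (σ i) := by
  simp [pm, mul_apply]

theorem pm_mul (σ τ : Equiv.Perm I) : pm A (σ * τ) = pm A σ * pm A τ := by
  ext i j; rw [mul_pm_apply]; rfl

theorem pm_one : pm A (1 : Equiv.Perm I) = 1 := by
  ext i j; rw [one_apply]; rfl

theorem pm_star [StarRing A] (σ : Equiv.Perm I) : star (pm A σ) = pm A σ⁻¹ := by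
  ext i j
  simp only [pm, star_apply, of_apply, Equiv.Perm.eq_inv_iff_eq, eq_comm (a := j)]
  split_ifs <;> simp

/-- Permutation unitary. -/
def pU (σ : Equiv.Perm I) : unitaryGroup I ℂ := ⟨pm ℂ σ, by
  rw [mem_unitaryGroup_iff, pm_star, ← pm_mul, mul_inv_cancel, pm_one]⟩

end pm

variable {J D R : Type} [Fintype J] [DecidableEq J] [Fintype D] [DecidableEq D] [Fintype R]
  [DecidableEq R]

variable (J D R) in
/-- Null-homotopic maps. -/
def NN (p : Type) [Fintype p] [DecidableEq p] : Subgroup (PP J D R p) where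
  carrier := {f | ∃ h : PP J D R p, (∀ x, evU (x, 0) h = 1) ∧ ∀ x, evU (x, 1) h = evU (x, 1) f}
  one_mem' := ⟨1, fun x => map_one _, fun x => rfl⟩
  mul_mem' := by
    rintro f g ⟨h, h0, h1⟩ ⟨k, k0, k1⟩
    exact ⟨h * k, fun x => by rw [map_mul, h0, k0, mul_one], fun x => by
      rw [map_mul, map_mul, h1, k1]⟩
  inv_mem' := by
    rintro f ⟨h, h0, h1⟩
    exact ⟨h⁻¹, fun x => by rw [map_inv, h0, inv_one], fun x => by rw [map_inv, map_inv, h1]⟩

instance (p : Type) [Fintype p] [DecidableEq p] : (NN J D R p).Normal := ⟨by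
  rintro f ⟨h, h0, h1⟩ g
  exact ⟨g * h * g⁻¹, fun x => by simp [h0], fun x => by simp [h1]⟩⟩

/-- Constant element. -/
noncomputable def cP {p : Type} [Fintype p] [DecidableEq p] (c : unitaryGroup p ℂ) :
    PP J D R p := ⟨cU c, cU_mem c⟩

theorem evU_cP {p : Type} [Fintype p] [DecidableEq p] (c : unitaryGroup p ℂ) (ω) :
    evU ω (cP c : PP J D R p) = c := Subtype.ext (evM_cst _ _)

theorem ex_mul (a b : ℂ) : (ex a * ex b : Al J D R) = ex (a + b) :=
  AA_ext fun ω => by rw [map_mul, ev_ex, ev_ex, ev_ex, ← Complex.exp_add, add_mul]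

theorem ex_zero : (ex 0 : Al J D R) = 1 := AA_ext fun ω => by simp [ev_ex]

/-- Diagonal path. -/
noncomputable def dP {p : Type} [Fintype p] [DecidableEq p] (l : p → ℝ) : PP J D R p :=
  ⟨⟨diagonal fun i => ex (Complex.I * l i), diagonal fun i => ex (-(Complex.I * l i)), by
      simp [diagonal_mul_diagonal, ex_mul, ex_zero], by
      simp [diagonal_mul_diagonal, ex_mul, ex_zero]⟩,
    fun ω => by
      ext i j
      change ev ω (diagonal _ i j) = star (ev ω (diagonal _ j i))
      simp only [diagonal_apply, eq_comm (a := j)]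
      split_ifs with h
      · subst h; simp [ev_ex, ← Complex.exp_conj]
      · simp,
    fun ξ _ => by
      have : (diagonal fun i => (ex (Complex.I * l i) : Al J D R)).map (DD ξ) = 0 := by
        ext1 i j
        simp only [map_apply, diagonal_apply]
        split_ifs
        · exact ((dd_dir (toDir ξ)).hex _).trans (by simp)
        · simp
      rw [th]; change Matrix.map (diagonal _) _ * _ = 0
      rw [this, zero_mul]⟩

theorem evU_dP {p : Type} [Fintype p] [DecidableEq p] (l : p → ℝ) (x) (t : ℝ) :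
    evU (x, t) (dP l : PP J D R p) = diagU fun i => t * l i := by
  ext i j
  change ev (x, t) (diagonal _ i j) = diagonal _ i j
  simp only [diagonal_apply]
  split_ifs with h
  · rw [ev_ex]; congr 1; push_cast; ring
  · simp

theorem cP_mem {p : Type} [Fintype p] [DecidableEq p] (c : unitaryGroup p ℂ) :
    cP c ∈ NN J D R p := by
  obtain ⟨U, l, h⟩ := unitary_path c
  refine ⟨cP U * dP l * cP U⁻¹, fun x => ?_, fun x => ?_⟩
  · rw [map_mul, map_mul, evU_cP, evU_cP, evU_dP]; exact upath_zero U l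
  · rw [map_mul, map_mul, evU_cP, evU_cP, evU_dP, evU_cP, h]; rfl

/-- Block embedding. -/
noncomputable def io : PP J D R D →* PP J D R (D ⊕ R) where
  toFun f := ⟨Units.map (blk1 R) f.1, blk1_mem f.2⟩
  map_one' := Subtype.ext (map_one _)
  map_mul' f g := Subtype.ext (map_mul (Units.map (blk1 R)) f.1 g.1)

/-- Numeric block embedding. -/
def blkU (R : Type) [Fintype R] [DecidableEq R] (U : unitaryGroup D ℂ) :
    unitaryGroup (D ⊕ R) ℂ := ⟨fromBlocks U.1 0 0 1, by
  have : U.1 * U.1ᴴ = 1 := U.2.2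
  rw [mem_unitaryGroup_iff, star_eq_conjTranspose]
  simp [fromBlocks_conjTranspose, fromBlocks_multiply, this]⟩

theorem evU_io (ω) (f : PP J D R D) : evU ω (io f) = blkU R (evU ω f) := by
  refine Subtype.ext ?_
  change evM ω (fromBlocks f.1.1 0 0 1) = _
  rw [evM_blocks, map_one]; rfl

theorem io_comm (e : D ↪ R) (x y : PP J D R D) :
    QuotientGroup.mk' (NN J D R _) (io (x * y)) = QuotientGroup.mk' (NN J D R _) (io (y * x)) := by
  obtain ⟨σ, hσ⟩ := Equiv.Perm.exists_extending_pair (f := (Sum.inl : D → D ⊕ R))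
    (g := fun d => Sum.inr (e d)) Sum.inl_injective (Sum.inr_injective.comp e.injective)
  have h1 : QuotientGroup.mk' (NN J D R _) (cP (pU σ⁻¹)) = 1 :=
    (QuotientGroup.eq_one_iff _).mpr (cP_mem _)
  have h2 : QuotientGroup.mk' (NN J D R _) (cP (pU σ)) = 1 :=
    (QuotientGroup.eq_one_iff _).mpr (cP_mem _)
  have hc : ∀ τ : Equiv.Perm (D ⊕ R), cst (n := nn J D R) (pm ℂ τ) = pm (Al J D R) τ := by
    intro τ; ext1 i j; simp only [cst, pm, map_apply, of_apply]; split_ifs <;> simp
  have h3 : cP (pU σ⁻¹) * io x * cP (pU σ) * io y = io y * (cP (pU σ⁻¹) * io x * cP (pU σ)) := by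
    refine Subtype.ext (Units.ext ?_)
    change cst (n := nn J D R) (pm ℂ σ⁻¹) * fromBlocks x.1.1 0 0 1 * cst (n := nn J D R) (pm ℂ σ) *
      fromBlocks y.1.1 0 0 1 = fromBlocks y.1.1 0 0 1 *
      (cst (n := nn J D R) (pm ℂ σ⁻¹) * fromBlocks x.1.1 0 0 1 * cst (n := nn J D R) (pm ℂ σ))
    rw [hc, hc]
    obtain ⟨Z, hZ⟩ : ∃ Z, pm (Al J D R) σ⁻¹ * fromBlocks x.1.1 0 0 1 * pm (Al J D R) σ =
        fromBlocks 1 0 0 Z := by
      refine ⟨(pm (Al J D R) σ⁻¹ * fromBlocks x.1.1 0 0 1 * pm (Al J D R) σ).toBlocks₂₂, ?_⟩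
      have hne : ∀ a r, σ (.inr r) ≠ .inr (e a) := fun a r h => by
        rw [← hσ] at h; simpa using σ.injective h
      ext1 a b
      rcases a with a | a <;> rcases b with b | b
      · simp [mul_pm_apply, pm_mul_apply, hσ, one_apply, Equiv.Perm.inv_def]
      · have := hne a b
        rw [mul_pm_apply, pm_mul_apply, Equiv.Perm.inv_def, Equiv.symm_symm, hσ]
        rcases h : σ (.inr b) with c | c
        · simp
        · rw [h] at this
          have : e a ≠ c := fun h => this (by rw [h])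
          simp [one_apply, this]
      · have := hne b a
        rw [mul_pm_apply, pm_mul_apply, Equiv.Perm.inv_def, Equiv.symm_symm, hσ]
        rcases h : σ (.inr a) with c | c
        · simp
        · rw [h] at this
          have : c ≠ e b := fun h => this (by rw [h])
          simp [one_apply, this]
      · rfl
    rw [hZ]; simp [fromBlocks_multiply]
  have := congrArg (QuotientGroup.mk' (NN J D R _)) h3
  simpa only [map_mul, h1, h2, one_mul, mul_one] using this

/-- Words in constants and block embedded unknowns, with exponent vector. -/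
inductive Wd : ((J → unitaryGroup D ℂ) → unitaryGroup (D ⊕ R) ℂ) → (J → ℤ) → Prop
  | const (c) : Wd (fun _ => c) 0
  | var (i) : Wd (fun U => blkU R (U i)) (Pi.single i 1)
  | mul {φ ψ e e'} : Wd φ e → Wd ψ e' → Wd (φ * ψ) (e + e')
  | inv {φ e} : Wd φ e → Wd φ⁻¹ (-e)

theorem degree (e : D ↪ R) (φ : J → (J → unitaryGroup D ℂ) → unitaryGroup (D ⊕ R) ℂ)
    (a : Matrix J J ℤ) (h : ∀ j, Wd (φ j) fun i => a i j) (hdet : a.det ≠ 0) :
    ∃ U, ∀ j, ∃ W : Matrix (D ⊕ R) D ℂ, Wᴴ * W = 1 ∧ (φ j U).1 * W = W := by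
  set b : Matrix J J ℤ := a.det • adjugate a with hb
  set κ : ℕ := (a.det * a.det).toNat with hκ
  have hκ' : (κ : ℤ) = a.det * a.det := Int.toNat_of_nonneg (mul_self_nonneg _)
  have hκ0 : κ ≠ 0 := fun h0 => by
    rw [h0] at hκ'; exact mul_ne_zero hdet hdet hκ'.symm
  have hba : b * a = (κ : ℤ) • 1 := by
    rw [hb, smul_mul_assoc, adjugate_mul, smul_smul, hκ']
  let q := (QuotientGroup.mk' (NN J D R (D ⊕ R))).comp io
  have hq : ∀ x y, Abelianization.of x = Abelianization.of y → q x = q y := by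
    intro x y hxy
    have h1 : commutator (PP J D R D) ≤ q.ker := by
      rw [commutator_eq_closure, Subgroup.closure_le]
      rintro _ ⟨u, v, rfl⟩
      have : q (u * v) = q (v * u) := io_comm e u v
      simp only [SetLike.mem_coe, MonoidHom.mem_ker, commutatorElement_def]
      rw [mul_assoc, ← _root_.mul_inv_rev, map_mul, this, ← map_mul, mul_inv_cancel, map_one]
    have h2 : x⁻¹ * y ∈ commutator (PP J D R D) := by
      rw [← Abelianization.ker_of, MonoidHom.mem_ker, map_mul, map_inv, hxy, inv_mul_cancel]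
    have := h1 h2
    rwa [MonoidHom.mem_ker, map_mul, map_inv, inv_mul_eq_one] at this
  let V : J → PP J D R D := fun l => ⟨uU l, uU_mem l⟩
  let P : (J → ℤ) → Abelianization (PP J D R D) := fun e =>
    ∏ l, Abelianization.of (V l) ^ (b *ᵥ e) l
  choose U hU using fun i => QuotientGroup.mk_surjective (P (Pi.single i 1))
  have key : ∀ ψ e, Wd (R := R) ψ e → ∃ Φ : PP J D R (D ⊕ R),
      (∀ ω, evU ω Φ = ψ fun i => evU ω (U i)) ∧
        ∃ x, QuotientGroup.mk' (NN J D R _) Φ = q x ∧ Abelianization.of x = P e := by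
    intro ψ e hw
    induction hw with
    | const c =>
      refine ⟨cP c, fun ω => evU_cP _ _, 1, ?_, by simp [P]⟩
      rw [map_one]; exact (QuotientGroup.eq_one_iff _).mpr (cP_mem _)
    | var i => exact ⟨io (U i), fun ω => evU_io _ _, U i, rfl, hU i⟩
    | mul _ _ ih ih' =>
      obtain ⟨Φ, h1, x, h2, h3⟩ := ih
      obtain ⟨Φ', h1', x', h2', h3'⟩ := ih'
      refine ⟨Φ * Φ', fun ω => by rw [map_mul, h1, h1']; rfl, x * x', ?_, ?_⟩
      · rw [map_mul, map_mul, h2, h2']
      · simp only [map_mul, h3, h3', P, mulVec_add, Pi.add_apply, _root_.zpow_add,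
          Finset.prod_mul_distrib]
    | inv _ ih =>
      obtain ⟨Φ, h1, x, h2, h3⟩ := ih
      refine ⟨Φ⁻¹, fun ω => by rw [map_inv, h1]; rfl, x⁻¹, ?_, ?_⟩
      · rw [map_inv, map_inv, h2]
      · simp only [map_inv, h3, P, mulVec_neg, Pi.neg_apply, _root_.zpow_neg,
          Finset.prod_inv_distrib]
  choose Φ hΦ x hx hx' using fun j => key _ _ (h j)
  have hm : ∀ j, ∃ k : PP J D R (D ⊕ R), (∀ y, evU (y, 0) k = evU (y, 0)
      (io (V j ^ κ) * cP (Y0 D R))) ∧ ∀ y, evU (y, 1) k = evU (y, 1) (Φ j) := by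
    intro j
    have h1 : Abelianization.of (x j) = Abelianization.of (V j ^ κ) := by
      have : b *ᵥ (fun i => a i j) = Pi.single j (κ : ℤ) := by
        funext l
        have := congrFun (congrFun hba l) j
        rw [mul_apply] at this
        simp only [mulVec, dotProduct, this, Matrix.smul_apply, one_apply, Pi.single_apply]
        simp
      rw [hx', map_pow]
      simp only [P, this]
      rw [Finset.prod_eq_single j (fun l _ hl => by simp [Pi.single_eq_of_ne hl]) (by simp)]
      simp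
    have h2 : (io (V j ^ κ) * cP (Y0 D R))⁻¹ * Φ j ∈ NN J D R _ := by
      rw [← QuotientGroup.eq]
      change QuotientGroup.mk' _ _ = QuotientGroup.mk' _ _
      have h0 : QuotientGroup.mk' (NN J D R _) (cP (Y0 D R)) = 1 :=
        (QuotientGroup.eq_one_iff _).mpr (cP_mem _)
      rw [hx, hq _ _ h1, map_mul, h0, mul_one]; rfl
    obtain ⟨k, k0, k1⟩ := h2
    exact ⟨io (V j ^ κ) * cP (Y0 D R) * k, fun y => by rw [map_mul, k0, mul_one],
      fun y => by rw [map_mul, k1, ← map_mul, mul_inv_cancel_left]⟩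
  choose k k0 k1 using hm
  obtain ⟨y, hy⟩ := hit κ hκ0 k fun j y => congrArg Subtype.val (k0 j y)
  refine ⟨fun i => evU (y, 1) (U i), fun j => ?_⟩
  have h1 := hy j
  rw [k1, hΦ] at h1
  have hg : (xg y j).1 * (xg y j).1ᴴ = 1 := (xg y j).2.2
  refine ⟨(xg y j).1ᴴ * fromRows (1 : Matrix D D ℂ) (0 : Matrix R D ℂ), ?_, ?_⟩
  · rw [conjTranspose_mul, conjTranspose_conjTranspose, Matrix.mul_assoc,
      ← Matrix.mul_assoc (xg y j).1, hg, Matrix.one_mul, conjTranspose_fromRows_eq_fromCols_conjTranspose,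
      fromCols_mul_fromRows]
    simp
  · have h2 := congrArg Subtype.val (mul_eq_one_comm.mp h1)
    change (φ j _).1 * ((xg y j).1ᴴ * fromBlocks (1 : Matrix D D ℂ) 0 0 (xv y j).1 * (xg y j).1) = 1 at h2
    have h3 : (xg y j).1ᴴ * fromBlocks (1 : Matrix D D ℂ) 0 0 (xv y j).1 * (xg y j).1 *
        ((xg y j).1ᴴ * fromRows (1 : Matrix D D ℂ) (0 : Matrix R D ℂ)) = (xg y j).1ᴴ * fromRows (1 : Matrix D D ℂ) (0 : Matrix R D ℂ) := by
      rw [Matrix.mul_assoc, ← Matrix.mul_assoc (xg y j).1, hg, Matrix.one_mul, Matrix.mul_assoc,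
        fromBlocks_mul_fromRows]
      simp
    nth_rewrite 1 [← h3]
    rw [← Matrix.mul_assoc, h2, Matrix.one_mul]

end Vale.Agent.P174
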