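import Vale.Agent.P174.Haar

/-! Invariant derivations in all complex directions. -/

namespace Vale.Agent.P174

open Matrix MeasureTheory

set_option linter.unusedSectionVars false

variable {B : Type} [Fintype B] [DecidableEq B] {n : B → Type} [∀ b, Fintype (n b)]
  [∀ b, DecidableEq (n b)]

/-- Coordinate matrix. -/
def XX (b : B) : Matrix (n b) (n b) (AA n) :=
  Matrix.of fun i j => ⟨fun ω => (ω.1 b).1 i j, Algebra.subset_adjoin (Or.inl ⟨b, i, j, rfl⟩)⟩

/-- Inverse coordinate matrix. -/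
def Xi (b : B) : Matrix (n b) (n b) (AA n) :=
  Matrix.of fun i j => ⟨fun ω => (star (ω.1 b).1) i j,
    Algebra.subset_adjoin (Or.inr (Or.inl ⟨b, i, j, rfl⟩))⟩

/-- Exponential in the time variable. -/
noncomputable def ex (c : ℂ) : AA n :=
  ⟨fun ω => Complex.exp (c * ω.2), Algebra.subset_adjoin (Or.inr (Or.inr ⟨c, rfl⟩))⟩

/-- Constant matrix. -/
noncomputable def cst {p q : Type} (M : Matrix p q ℂ) : Matrix p q (AA n) :=
  M.map (algebraMap ℂ (AA n))

theorem ev_XX (ω : KK n × ℝ) (b : B) : (XX b).map (ev ω) = (ω.1 b).1 := rfl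
theorem ev_Xi (ω : KK n × ℝ) (b : B) : (Xi b).map (ev ω) = star (ω.1 b).1 := rfl
theorem ev_ex (ω : KK n × ℝ) (c : ℂ) : ev ω (ex c) = Complex.exp (c * ω.2) := rfl
theorem ev_cst {p q : Type} (ω : KK n × ℝ) (M : Matrix p q ℂ) : (cst M).map (ev ω) = M := by
  ext i j; simp [cst]

theorem ev_mul {p q r : Type} [Fintype q] (ω : KK n × ℝ) (M : Matrix p q (AA n))
    (N : Matrix q r (AA n)) : (M * N).map (ev ω) = M.map (ev ω) * N.map (ev ω) :=
  Matrix.map_mul (f := (ev ω).toRingHom)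

theorem ev_one {p : Type} [DecidableEq p] (ω : KK n × ℝ) :
    (1 : Matrix p p (AA n)).map (ev ω) = 1 :=
  Matrix.map_one _ (map_zero _) (map_one _)

theorem cst_mul {p q r : Type} [Fintype q] (M : Matrix p q ℂ) (N : Matrix q r ℂ) :
    cst (n := n) (M * N) = cst (n := n) M * cst (n := n) N :=
  Matrix.map_mul (f := algebraMap ℂ (AA n))

theorem cst_add {p q : Type} (M N : Matrix p q ℂ) :
    (cst (M + N) : Matrix p q (AA n)) = cst M + cst N := by
  ext1 i j; simp [cst]

theorem cst_sub {p q : Type} (M N : Matrix p q ℂ) :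
    (cst (M - N) : Matrix p q (AA n)) = cst M - cst N := by
  ext1 i j; simp [cst]

theorem cst_smul {p q : Type} (c : ℂ) (M : Matrix p q ℂ) :
    (cst (c • M) : Matrix p q (AA n)) = c • cst M := by
  ext1 i j; simp [cst, Algebra.smul_def]

theorem cst_zero {p q : Type} : (cst (0 : Matrix p q ℂ) : Matrix p q (AA n)) = 0 := by
  ext1 i j; simp [cst]

theorem cst_one {p : Type} [DecidableEq p] : (cst (1 : Matrix p p ℂ) : Matrix p p (AA n)) = 1 :=
  Matrix.map_one _ (map_zero _) (map_one _)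

/-- Coordinate unit. -/
noncomputable def xU (b : B) : (Matrix (n b) (n b) (AA n))ˣ where
  val := XX b
  inv := Xi b
  val_inv := mat_ext fun ω => by
    rw [ev_mul, ev_XX, ev_Xi, ev_one]; exact (ω.1 b).2.2
  inv_val := mat_ext fun ω => by
    rw [ev_mul, ev_XX, ev_Xi, ev_one]; exact (ω.1 b).2.1

theorem dm_mul {A : Type*} [CommRing A] [Algebra ℂ A] {p q r : Type} [Fintype q]
    (d : Derivation ℂ A A) (M : Matrix p q A) (N : Matrix q r A) :
    (M * N).map d = M.map d * N + M * N.map d := by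
  ext i j
  simp only [map_apply, mul_apply, map_sum, Derivation.leibniz, smul_eq_mul, Matrix.add_apply,
    ← Finset.sum_add_distrib]
  exact Finset.sum_congr rfl fun k _ => by ring

theorem dm_cst {p q : Type} (d : Derivation ℂ (AA n) (AA n)) (M : Matrix p q ℂ) :
    (cst M).map d = 0 := by
  ext1 i j; simp [cst]

theorem dm_neg {A : Type*} [CommRing A] [Algebra ℂ A] {p q : Type}
    (d : Derivation ℂ A A) (M : Matrix p q A) : (-M).map d = - M.map d := by
  ext i j; simp

/-- `d` is the derivation in direction `ξ` of the group and `τ` of time. -/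
structure IsDir (d : Derivation ℂ (AA n) (AA n)) (ξ : ∀ b, Matrix (n b) (n b) ℂ) (τ : ℂ) :
    Prop where
  hX : ∀ b, (XX b).map d = cst (ξ b) * XX b
  hXi : ∀ b, (Xi b).map d = -(Xi b * cst (ξ b))
  hex : ∀ c, d (ex c) = (τ * c) • ex c

theorem IsDir.uniq {d d' : Derivation ℂ (AA n) (AA n)} {ξ τ} (h : IsDir d ξ τ)
    (h' : IsDir d' ξ τ) : d = d' := by
  refine Derivation.ext_of_adjoin_eq_top _ Algebra.adjoin_adjoin_coe_preimage ?_
  rintro ⟨f, hf'⟩ hf
  rcases hf with ⟨b, i, j, rfl⟩ | ⟨b, i, j, rfl⟩ | ⟨c, rfl⟩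
  · exact congrFun (congrFun ((h.hX b).trans (h'.hX b).symm) i) j
  · exact congrFun (congrFun ((h.hXi b).trans (h'.hXi b).symm) i) j
  · exact (h.hex c).trans (h'.hex c).symm

theorem IsDir.add {d d' : Derivation ℂ (AA n) (AA n)} {ξ τ ξ' τ'} (h : IsDir d ξ τ)
    (h' : IsDir d' ξ' τ') : IsDir (d + d') (ξ + ξ') (τ + τ') where
  hX b := by
    rw [Pi.add_apply, cst_add, Matrix.add_mul, ← h.hX, ← h'.hX]; rfl
  hXi b := by
    rw [Pi.add_apply, cst_add, Matrix.mul_add, neg_add, ← h.hXi, ← h'.hXi]; rfl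
  hex c := by rw [Derivation.add_apply, h.hex, h'.hex, add_mul, add_smul]

theorem IsDir.smul {d : Derivation ℂ (AA n) (AA n)} {ξ τ} (h : IsDir d ξ τ) (a : ℂ) :
    IsDir (a • d) (a • ξ) (a * τ) where
  hX b := by
    rw [Pi.smul_apply, cst_smul, Matrix.smul_mul, ← h.hX]; rfl
  hXi b := by
    rw [Pi.smul_apply, cst_smul, Matrix.mul_smul, ← smul_neg, ← h.hXi]; rfl
  hex c := by rw [Derivation.smul_apply, h.hex, smul_smul, mul_assoc]

theorem IsDir.zero : IsDir (0 : Derivation ℂ (AA n) (AA n)) 0 0 where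
  hX b := by rw [Pi.zero_apply, cst_zero, Matrix.zero_mul]; rfl
  hXi b := by rw [Pi.zero_apply, cst_zero, Matrix.mul_zero, neg_zero]; rfl
  hex c := by simp

theorem map_lie {p q : Type} (d d' : Derivation ℂ (AA n) (AA n)) (M : Matrix p q (AA n)) :
    M.map (⁅d, d'⁆ : Derivation ℂ (AA n) (AA n)) = (M.map d').map d - (M.map d).map d' := by
  ext1 i j; simp [Derivation.commutator_apply]

theorem cst_lie (ξ ξ' : ∀ b, Matrix (n b) (n b) ℂ) (b : B) :
    (cst ((ξ' * ξ - ξ * ξ') b) : Matrix _ _ (AA n)) =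
      cst (ξ' b) * cst (ξ b) - cst (ξ b) * cst (ξ' b) := by
  rw [← cst_mul, ← cst_mul, ← cst_sub]; rfl

theorem IsDir.lie {d d' : Derivation ℂ (AA n) (AA n)} {ξ τ ξ' τ'} (h : IsDir d ξ τ)
    (h' : IsDir d' ξ' τ') : IsDir ⁅d, d'⁆ (ξ' * ξ - ξ * ξ') 0 where
  hX b := by
    rw [map_lie, h.hX, h'.hX, dm_mul, dm_mul, dm_cst, dm_cst, h.hX, h'.hX, cst_lie]
    simp only [Matrix.mul_assoc, Matrix.sub_mul, Matrix.mul_sub, Matrix.neg_mul, Matrix.zero_mul,
      Matrix.mul_zero]
    abel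
  hXi b := by
    rw [map_lie, h.hXi, h'.hXi, dm_neg, dm_neg, dm_mul, dm_mul, dm_cst, dm_cst, h.hXi, h'.hXi,
      cst_lie]
    simp only [Matrix.mul_assoc, Matrix.sub_mul, Matrix.mul_sub, Matrix.neg_mul, Matrix.zero_mul,
      Matrix.mul_zero]
    abel
  hex c := by
    rw [Derivation.commutator_apply, h.hex, h'.hex, d.map_smul, d'.map_smul, h.hex, h'.hex, smul_smul,
      smul_smul, mul_comm, sub_self, zero_mul, zero_smul]

/-- Integral zero and locality in time. -/
structure Good (d : Derivation ℂ (AA n) (AA n)) : Prop where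
  int : ∀ φ t, ∫ x, ev (x, t) (d φ) ∂(mu n) = 0
  loc : ∀ φ t, (∀ x, ev (x, t) φ = 0) → ∀ x, ev (x, t) (d φ) = 0

theorem exists_herm (H : ∀ b, Matrix (n b) (n b) ℂ) (hH : ∀ b, (H b).IsHermitian) :
    ∃ d, IsDir d (Complex.I • H) 0 ∧ Good d := by
  choose U l hU using fun b => herm_path (hH b)
  let k : ℝ → KK n := fun s b => upath (U b) (l b) s
  let γ : ℝ → KK n × ℝ → KK n × ℝ := fun s ω => (k s * ω.1, ω.2)
  have k0 : k 0 = 1 := funext fun b => upath_zero _ _
  have kadd : ∀ s t, k (s + t) = k s * k t := fun s t => funext fun b => upath_add _ _ s t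
  have kc : Continuous k := continuous_pi fun b => upath_cont _ _
  have h0 : ∀ ω, γ 0 ω = ω := fun ω => by simp [γ, k0]
  have hd : ∀ b i j, HasDerivAt (fun s => (k s b).1 i j) ((Complex.I • H b) i j) 0 := by
    intro b i j
    rw [hU b]; exact upath_deriv _ _ i j
  have hX : ∀ b i j ω, HasDerivAt (fun s => ev (γ s ω) (XX b i j))
      (ev ω ((cst (n := n) ((Complex.I • H) b) * XX (n := n) b : Matrix _ _ _) i j)) 0 := by
    intro b i j ω
    have e : ev ω ((cst (n := n) ((Complex.I • H) b) * XX (n := n) b : Matrix _ _ _) i j) =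
        ∑ r, (Complex.I • H b) i r * (ω.1 b).1 r j := by
      have := congrFun (congrFun (ev_mul ω (cst ((Complex.I • H) b)) (XX b)) i) j
      rw [ev_cst, ev_XX] at this
      exact this
    rw [e]
    exact HasDerivAt.fun_sum fun r _ => (hd b i r).mul_const _
  have hXi : ∀ b i j ω, HasDerivAt (fun s => ev (γ s ω) (Xi b i j))
      (ev ω ((-(Xi (n := n) b * cst (n := n) ((Complex.I • H) b)) : Matrix _ _ _) i j)) 0 := by
    intro b i j ω
    have e : ev ω ((-(Xi (n := n) b * cst (n := n) ((Complex.I • H) b)) : Matrix _ _ _) i j) =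
        star (∑ r, (Complex.I • H b) j r * (ω.1 b).1 r i) := by
      have := congrFun (congrFun (ev_mul ω (Xi b) (cst ((Complex.I • H) b))) i) j
      rw [ev_cst, ev_Xi] at this
      rw [Matrix.neg_apply, map_neg]
      refine (congrArg Neg.neg this).trans ?_
      rw [mul_apply, star_sum, ← Finset.sum_neg_distrib]
      refine Finset.sum_congr rfl fun r _ => ?_
      have h := congrFun (congrFun (hH b) r) j
      simp only [conjTranspose_apply] at h
      simp only [Pi.smul_apply, Matrix.smul_apply, smul_eq_mul, star_mul', star_apply, h,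
        RCLike.star_def, Complex.conj_I]
      ring
    rw [e]
    exact (HasDerivAt.fun_sum fun r _ => (hd b j r).mul_const _).star
  obtain ⟨d, hdd⟩ := exists_flowDer γ h0 (by
    rintro f (⟨b, i, j, rfl⟩ | ⟨b, i, j, rfl⟩ | ⟨c, rfl⟩)
    · exact ⟨_, hX b i j⟩
    · exact ⟨_, hXi b i j⟩
    · exact ⟨0, fun ω => by
        rw [map_zero]; exact hasDerivAt_const (0 : ℝ) (Complex.exp (c * ω.2))⟩)
  refine ⟨d, ⟨fun b => ?_, fun b => ?_, fun c => ?_⟩, ⟨fun φ t => ?_, fun φ t h x => ?_⟩⟩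
  · ext1 i j
    exact AA_ext fun ω => (hdd _ ω).unique (hX b i j ω)
  · ext1 i j
    exact AA_ext fun ω => (hdd _ ω).unique (hXi b i j ω)
  · refine AA_ext fun ω => (hdd _ ω).unique ?_
    rw [zero_mul, zero_smul, map_zero]
    exact hasDerivAt_const (0 : ℝ) (Complex.exp (c * ω.2))
  · have h1 := deriv_integral γ h0 (fun s t ω => by simp [γ, kadd, mul_assoc])
      (by simp only [γ]; fun_prop) φ (d φ) (hdd φ) t
    have h2 : (fun s => ∫ x, ev (γ s (x, t)) φ ∂(mu n)) = fun _ => ∫ x, ev (x, t) φ ∂(mu n) :=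
      funext fun s => integral_mul_left_eq_self (fun x => ev (x, t) φ) (k s)
    rw [h2] at h1
    exact h1.unique (hasDerivAt_const _ _)
  · have h1 := hdd φ (x, t)
    simp only [γ, h] at h1
    exact h1.unique (hasDerivAt_const _ _)

theorem exists_dir (ξ : ∀ b, Matrix (n b) (n b) ℂ) : ∃ d, IsDir d ξ 0 ∧ Good d := by
  obtain ⟨d, hd, gd⟩ := exists_herm (fun b => (-Complex.I / 2) • (ξ b - (ξ b)ᴴ)) (fun b => by
    rw [IsHermitian, conjTranspose_smul, conjTranspose_sub, conjTranspose_conjTranspose,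
      ← neg_sub (ξ b), smul_neg, ← neg_smul]
    congr 1; simp; ring)
  obtain ⟨d', hd', gd'⟩ := exists_herm (fun b => (-1 / 2 : ℂ) • (ξ b + (ξ b)ᴴ)) (fun b => by
    rw [IsHermitian, conjTranspose_smul, conjTranspose_add, conjTranspose_conjTranspose,
      add_comm]
    congr 1; simp)
  refine ⟨d + Complex.I • d', ?_, ⟨fun φ t => ?_, fun φ t h x => ?_⟩⟩
  · convert hd.add (hd'.smul Complex.I) using 1
    · funext b
      ext i j
      simp only [Pi.add_apply, Pi.smul_apply, Matrix.add_apply, Matrix.smul_apply, Matrix.sub_apply,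
        smul_eq_mul]
      linear_combination (ξ b i j) * Complex.I_mul_I
    · simp
  · simp only [Derivation.add_apply, Derivation.smul_apply, map_add, map_smul, smul_eq_mul]
    rw [integral_add (int_AA _ _) ((int_AA _ _).const_mul _), integral_const_mul, gd.int, gd'.int]
    simp
  · simp only [Derivation.add_apply, Derivation.smul_apply, map_add, map_smul, gd.loc φ t h,
      gd'.loc φ t h]
    simp

/-- The derivation in direction `ξ`. -/
noncomputable def dd (ξ : ∀ b, Matrix (n b) (n b) ℂ) : Derivation ℂ (AA n) (AA n) :=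
  (exists_dir ξ).choose

theorem dd_dir (ξ : ∀ b, Matrix (n b) (n b) ℂ) : IsDir (dd ξ) ξ 0 := (exists_dir ξ).choose_spec.1
theorem dd_good (ξ : ∀ b, Matrix (n b) (n b) ℂ) : Good (dd ξ) := (exists_dir ξ).choose_spec.2

theorem dd_add (ξ η : ∀ b, Matrix (n b) (n b) ℂ) : dd (ξ + η) = dd ξ + dd η :=
  (dd_dir _).uniq (by simpa using (dd_dir ξ).add (dd_dir η))

theorem dd_smul (c : ℂ) (ξ : ∀ b, Matrix (n b) (n b) ℂ) : dd (c • ξ) = c • dd ξ :=
  (dd_dir _).uniq (by simpa using (dd_dir ξ).smul c)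

theorem dd_zero : dd (0 : ∀ b, Matrix (n b) (n b) ℂ) = 0 := (dd_dir _).uniq IsDir.zero

theorem exists_time : ∃ d : Derivation ℂ (AA n) (AA n), IsDir d 0 1 ∧ ∀ φ,
    (∀ t, ∫ x, ev (x, t) (d φ) ∂(mu n) = 0) →
      ∫ x, ev (x, 0) φ ∂(mu n) = ∫ x, ev (x, 1) φ ∂(mu n) := by
  let γ : ℝ → KK n × ℝ → KK n × ℝ := fun s ω => (ω.1, s + ω.2)
  have h0 : ∀ ω, γ 0 ω = ω := fun ω => by simp [γ]
  have hex : ∀ (c : ℂ) ω, HasDerivAt (fun s => ev (γ s ω) (ex c)) (ev ω ((1 * c) • ex c)) 0 := by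
    intro c ω
    have h1 : HasDerivAt (fun s : ℝ => c * ((s + ω.2 : ℝ) : ℂ)) (c * 1) 0 := by
      refine HasDerivAt.const_mul c ?_
      simp only [Complex.ofReal_add]
      exact (Complex.ofRealCLM.hasDerivAt (x := 0)).add_const _
    have := h1.cexp
    have e : ev ω ((1 * c) • ex c) = Complex.exp (c * ((0 + ω.2 : ℝ) : ℂ)) * (c * 1) := by
      simp [ev_ex]; ring
    rw [e]
    exact this
  obtain ⟨d, hdd⟩ := exists_flowDer γ h0 (by
    rintro f (⟨b, i, j, rfl⟩ | ⟨b, i, j, rfl⟩ | ⟨c, rfl⟩)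
    · exact ⟨0, fun ω => by rw [map_zero]; exact hasDerivAt_const (0 : ℝ) ((ω.1 b).1 i j)⟩
    · exact ⟨0, fun ω => by
        rw [map_zero]; exact hasDerivAt_const (0 : ℝ) ((star (ω.1 b).1) i j)⟩
    · exact ⟨_, hex c⟩)
  refine ⟨d, ⟨fun b => ?_, fun b => ?_, fun c => ?_⟩, fun φ h => ?_⟩
  · rw [Pi.zero_apply, cst_zero, Matrix.zero_mul]
    ext1 i j
    refine AA_ext fun ω => (hdd _ ω).unique ?_
    rw [Matrix.zero_apply, map_zero]; exact hasDerivAt_const (0 : ℝ) ((ω.1 b).1 i j)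
  · rw [Pi.zero_apply, cst_zero, Matrix.mul_zero, neg_zero]
    ext1 i j
    refine AA_ext fun ω => (hdd _ ω).unique ?_
    rw [Matrix.zero_apply, map_zero]; exact hasDerivAt_const (0 : ℝ) ((star (ω.1 b).1) i j)
  · exact AA_ext fun ω => (hdd _ ω).unique (hex c ω)
  · have h1 : ∀ t, HasDerivAt (fun s : ℝ => ∫ x, ev (x, s) φ ∂(mu n)) 0 t := by
      intro t
      have h2 := deriv_integral γ h0 (fun s t ω => by simp [γ, add_assoc])
        (by simp only [γ]; fun_prop) φ (d φ) (hdd φ) t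
      rw [h t] at h2
      have h3 : HasDerivAt (fun s => ∫ x, ev (γ s (x, t)) φ ∂(mu n)) 0 (t - t) := by
        rw [sub_self]; exact h2
      have h4 := h3.comp_sub_const t t
      simpa [γ] using h4
    exact is_const_of_deriv_eq_zero (fun t => (h1 t).differentiableAt)
      (fun t => (h1 t).deriv) 0 1

/-- The time derivation. -/
noncomputable def dT : Derivation ℂ (AA n) (AA n) := exists_time.choose

theorem dT_dir : IsDir (dT : Derivation ℂ (AA n) (AA n)) 0 1 := exists_time.choose_spec.1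

theorem const_integral {κ : Type} [Fintype κ] (dir : κ → ∀ b, Matrix (n b) (n b) ℂ)
    (φ : Option κ → AA n) (h : dT (φ none) + ∑ a, dd (dir a) (φ (some a)) = 0) :
    ∫ x, ev (x, 0) (φ none) ∂(mu n) = ∫ x, ev (x, 1) (φ none) ∂(mu n) := by
  refine exists_time.choose_spec.2 _ fun t => ?_
  have : (exists_time.choose : Derivation ℂ (AA n) (AA n)) (φ none) =
      - ∑ a, dd (dir a) (φ (some a)) := eq_neg_of_add_eq_zero_left h
  simp only [this, map_neg, map_sum]
  rw [integral_neg, integral_finset_sum _ fun a _ => int_AA _ _]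
  simp [(dd_good _).int]

end Vale.Agent.P174
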