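import Vale.Agent.P174.Phase

/-! The group algebra with its involution and trace; the final numerical contradiction. -/

namespace Vale.Agent.P174

open Matrix

set_option linter.unusedSectionVars false

/-- The complex group algebra. -/
def GA (G : Type*) : Type _ := MonoidAlgebra ℂ G

variable {G : Type*} [Group G]

noncomputable instance : Ring (GA G) := inferInstanceAs (Ring (MonoidAlgebra ℂ G))
noncomputable instance : Algebra ℂ (GA G) := inferInstanceAs (Algebra ℂ (MonoidAlgebra ℂ G))

/-- Coefficient. -/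
def co (x : GA G) (g : G) : ℂ := MonoidAlgebra.coeff x g

/-- Basis elements. -/
noncomputable def gs (g : G) (c : ℂ) : GA G := MonoidAlgebra.single g c

theorem GA_ext {x y : GA G} (h : ∀ g, co x g = co y g) : x = y :=
  MonoidAlgebra.ext (Finsupp.ext h)

theorem co_add (x y : GA G) (g : G) : co (x + y) g = co x g + co y g := rfl
theorem co_smul (c : ℂ) (x : GA G) (g : G) : co (c • x) g = c * co x g := rfl
open Classical in
theorem co_gs (g h : G) (c : ℂ) : co (gs g c) h = if g = h then c else 0 :=
  Finsupp.single_apply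

theorem gs_mul (g h : G) (c d : ℂ) : gs g c * gs h d = gs (g * h) (c * d) :=
  MonoidAlgebra.single_mul_single _ _ _ _

theorem gs_one : gs (1 : G) 1 = 1 := rfl

theorem smul_gs (a : ℂ) (g : G) (c : ℂ) : a • gs g c = gs g (a * c) :=
  MonoidAlgebra.smul_single _ _ _

theorem GA_ind {P : GA G → Prop} (x : GA G) (h0 : P 0) (ha : ∀ x y, P x → P y → P (x + y))
    (hs : ∀ g c, P (gs g c)) : P x :=
  MonoidAlgebra.induction_linear (motive := P) x h0 ha hs

noncomputable instance : Star (GA G) := ⟨fun x => MonoidAlgebra.ofCoeff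
  (Finsupp.equivMapDomain (Equiv.inv G) ((MonoidAlgebra.coeff x).mapRange star (star_zero ℂ)))⟩

theorem co_star (x : GA G) (g : G) : co (star x) g = star (co x g⁻¹) := rfl

theorem star_gs (g : G) (c : ℂ) : star (gs g c) = gs g⁻¹ (star c) := by
  refine GA_ext fun h => ?_
  rw [co_star, co_gs, co_gs]
  by_cases e : g = h⁻¹
  · simp [e]
  · have : g⁻¹ ≠ h := fun h' => e (by rw [← h', inv_inv])
    simp [e, this]

theorem GA_star_add (x y : GA G) : star (x + y) = star x + star y :=
  GA_ext fun g => by simp [co_star, co_add]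

theorem GA_star_zero : star (0 : GA G) = 0 := GA_ext fun g => by
  rw [co_star]; exact star_zero ℂ

noncomputable instance : StarRing (GA G) where
  star_involutive x := GA_ext fun g => by simp [co_star]
  star_add := GA_star_add
  star_mul x y := by
    induction x using GA_ind with
    | h0 => simp [GA_star_zero]
    | ha x x' h h' => rw [add_mul, GA_star_add, GA_star_add, h, h', mul_add]
    | hs g c =>
      induction y using GA_ind with
      | h0 => simp [GA_star_zero]
      | ha y y' h h' => rw [mul_add, GA_star_add, GA_star_add, h, h', add_mul]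
      | hs g' c' => simp [gs_mul, star_gs, mul_comm]

instance : StarModule ℂ (GA G) := ⟨fun c x => GA_ext fun g => by simp [co_star, co_smul]⟩

/-- The canonical trace. -/
def t0 : GA G →ₗ[ℂ] ℂ where
  toFun x := co x 1
  map_add' _ _ := rfl
  map_smul' _ _ := rfl

open Classical in
theorem t0_gs (g : G) (c : ℂ) : t0 (gs g c) = if g = 1 then c else 0 := co_gs _ _ _

theorem t0_one : t0 (1 : GA G) = 1 := by rw [← gs_one, t0_gs, if_pos rfl]

theorem t0_tr : IsTr (t0 (G := G)) where
  comm x y := by
    induction x using GA_ind with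
    | h0 => simp
    | ha x x' h h' => rw [add_mul, mul_add, map_add, map_add, h, h']
    | hs g c =>
      induction y using GA_ind with
      | h0 => simp
      | ha y y' h h' => rw [add_mul, mul_add, map_add, map_add, h, h']
      | hs g' c' =>
        have : g * g' = 1 ↔ g' * g = 1 := by
          rw [mul_eq_one_iff_eq_inv, mul_eq_one_iff_inv_eq, eq_comm]
        rw [gs_mul, gs_mul, t0_gs, t0_gs, mul_comm c]
        by_cases e : g' * g = 1
        · rw [if_pos e, if_pos (this.mpr e)]
        · rw [if_neg e, if_neg (mt this.mp e)]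
  star x := by change co (star x) 1 = star (co x 1); rw [co_star, inv_one]
  pos x := by
    have := MonoidAlgebra.coeff_mul_apply_right (R := ℂ) (star x : GA G) x 1
    have e : t0 (star x * x) = _ := this
    rw [e, Finsupp.sum, Complex.re_sum]
    refine Finset.sum_nonneg fun g _ => ?_
    change 0 ≤ (co (star x) _ * co x g).re
    rw [co_star, one_mul, inv_inv, RCLike.star_def, mul_comm, Complex.mul_conj]
    exact Complex.normSq_nonneg _

variable {I : Type} [Fintype I] [DecidableEq I]

/-- The trace on matrices over the group algebra. -/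
noncomputable def tM : Matrix I I (GA G) →ₗ[ℂ] ℂ := t0 ∘ₗ traceLinearMap I ℂ (GA G)

theorem tM_apply (M : Matrix I I (GA G)) : tM M = ∑ i, t0 (M i i) := by
  simp [tM, trace]

theorem tM_tr : IsTr (tM (G := G) (I := I)) where
  comm x y := by
    simp only [tM_apply, mul_apply, map_sum]
    rw [Finset.sum_comm]
    exact Finset.sum_congr rfl fun _ _ => Finset.sum_congr rfl fun _ _ => t0_tr.comm _ _
  star x := by simp only [tM_apply, star_apply, t0_tr.star, star_sum]
  pos x := by
    simp only [tM_apply, mul_apply, map_sum, star_apply, Complex.re_sum]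
    exact Finset.sum_nonneg fun _ _ => Finset.sum_nonneg fun _ _ => t0_tr.pos _

theorem tM_one : tM (1 : Matrix I I (GA G)) = Fintype.card I := by
  simp [tM_apply, t0_one]

/-- Diagonal matrix with one nontrivial entry. -/
noncomputable def dg (z : I) (y : GA G) : Matrix I I (GA G) :=
  diagonal fun i => if i = z then y else 1

theorem gs_pow (g : G) (c : ℂ) (m : ℕ) : gs g c ^ m = gs (g ^ m) (c ^ m) := by
  induction m with
  | zero => simp [gs_one]
  | succ m ih => rw [pow_succ, ih, gs_mul, pow_succ, pow_succ]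

theorem gs_unitary (g : G) {c : ℂ} (hc : ‖c‖ = 1) : gs g c ∈ unitary (GA G) := by
  have h : c * star c = 1 := by
    rw [RCLike.star_def, Complex.mul_conj, Complex.normSq_eq_norm_sq, hc]; simp
  constructor
  · rw [star_gs, gs_mul, mul_comm (star c), h, inv_mul_cancel, gs_one]
  · rw [star_gs, gs_mul, h, mul_inv_cancel, gs_one]

theorem diag_unitary (f : I → GA G) (h : ∀ i, f i ∈ unitary (GA G)) :
    diagonal f ∈ unitary (Matrix I I (GA G)) := by
  constructor
  · rw [star_eq_conjTranspose, diagonal_conjTranspose, diagonal_mul_diagonal, ← diagonal_one]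
    congr 1; funext i; exact (h i).1
  · rw [star_eq_conjTranspose, diagonal_conjTranspose, diagonal_mul_diagonal, ← diagonal_one]
    congr 1; funext i; exact (h i).2

open Classical in
theorem torsion_sum {g : G} (hg : g ≠ 1) {u : ℂ} (hu : ‖u‖ < 1) :
    ∃ s : ℂ, HasSum (fun m : ℕ => if g ^ m = 1 then u ^ m / m else 0) s ∧
      -s.im ≤ Real.pi / 4 := by
  rcases Nat.eq_zero_or_pos (orderOf g) with h0 | h0
  · refine ⟨0, ?_, by simp; positivity⟩
    convert hasSum_zero using 2 with m
    split_ifs with h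
    · rw [← orderOf_dvd_iff_pow_eq_one, h0, zero_dvd_iff] at h
      simp [h]
    · rfl
  · have h2 : 2 ≤ orderOf g := by
      have : orderOf g ≠ 1 := fun h => hg (orderOf_eq_one_iff.mp h)
      omega
    have hv : ‖u ^ orderOf g‖ < 1 := by
      rw [norm_pow]; exact pow_lt_one₀ (norm_nonneg _) hu h0.ne'
    have h3 := (Complex.hasSum_taylorSeries_neg_log hv).div_const (orderOf g : ℂ)
    refine ⟨-Complex.log (1 - u ^ orderOf g) / orderOf g, (Function.Injective.hasSum_iff (g := fun k => orderOf g * k)
      (mul_right_injective₀ h0.ne') fun m hm => ?_).mp ?_, ?_⟩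
    rotate_left 2
    · have h4 : |(1 - u ^ orderOf g).arg| ≤ Real.pi / 2 := by
        rw [Complex.abs_arg_le_pi_div_two_iff]
        have := (Complex.re_le_norm _).trans hv.le
        simpa using this
      have h5 : (2 : ℝ) ≤ orderOf g := by exact_mod_cast h2
      rw [Complex.div_natCast_im, Complex.neg_im, Complex.log_im, neg_div, neg_neg,
        div_le_iff₀ (by linarith)]
      nlinarith [(abs_le.mp h4).2, Real.pi_pos]
    · rw [if_neg]
      rw [← orderOf_dvd_iff_pow_eq_one]
      rintro ⟨k, rfl⟩
      exact hm ⟨k, rfl⟩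
    · refine HasSum.congr_fun h3 fun k => ?_
      simp only [Function.comp, pow_mul, pow_orderOf_eq_one, one_pow, if_true]
      push_cast
      rw [div_div, mul_comm]

theorem contra (z : I) {g : G} (hg : g ≠ 1) : ∃ ζ : ℂ, ‖ζ‖ = 1 ∧
    ∀ (X T : Matrix I I (GA G)) (c : ℂ) (n1 n2 : ℝ), ‖c‖ = 1 → Cost tM X n1 → Cost tM T n2 →
      n1 + n2 ≤ 2 * (Fintype.card I - 1) → X ≠ (ζ * ζ) • (T * dg z (gs g c)) := by
  classical
  set N : ℝ := (Fintype.card I : ℝ) with hN
  have hN1 : 1 ≤ N := by
    rw [hN]; exact_mod_cast Fintype.card_pos_iff.mpr ⟨z⟩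
  set ε : ℝ := Real.pi / (16 * N) with hε
  have hpi := Real.pi_pos
  have hε0 : 0 < ε := by positivity
  have hεN : ε * N = Real.pi / 16 := by rw [hε]; field_simp
  have hε1 : ε ≤ Real.pi / 16 := by nlinarith
  set θ : ℝ := Real.pi / 2 - ε with hθ
  have hc : 0 < Real.cos θ := Real.cos_pos_of_mem_Ioo ⟨by linarith, by linarith⟩
  have hs : 0 ≤ Real.sin θ := Real.sin_nonneg_of_nonneg_of_le_pi (by linarith) (by linarith)
  have hs1 : Real.sin θ < 1 := by nlinarith [Real.sin_sq_add_cos_sq θ]
  set ζ : ℂ := Real.sin θ + Real.cos θ * Complex.I with hζ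
  have hζ1 : ‖ζ‖ = 1 := by
    rw [hζ, Complex.norm_add_mul_I, Real.sin_sq_add_cos_sq, Real.sqrt_one]
  have hζ2 : star ζ * ζ = 1 := by
    rw [RCLike.star_def, mul_comm, Complex.mul_conj, Complex.normSq_eq_norm_sq, hζ1]; simp
  have harg : (1 - Real.sin θ * ζ).arg = -θ := by
    rw [← Complex.arg_mul_cos_add_sin_mul_I hc (θ := -θ) ⟨by linarith, by linarith⟩]
    congr 1
    have := Complex.sin_sq_add_cos_sq θ
    simp only [hζ, Complex.ofReal_neg, Complex.cos_neg, Complex.sin_neg, Complex.ofReal_sin,
      Complex.ofReal_cos]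
    linear_combination -this
  have hn : ∀ c : ℂ, ‖c‖ = 1 → ‖Real.sin θ * c‖ < 1 := fun c h => by
    rwa [norm_mul, h, mul_one, Complex.norm_real, Real.norm_of_nonneg hs]
  have hlog := Complex.hasSum_taylorSeries_neg_log (hn ζ hζ1)
  refine ⟨ζ, hζ1, fun X T c n1 n2 hc1 hX hT hn12 h => ?_⟩
  have u1 : ζ • (1 : Matrix I I (GA G)) ∈ unitary _ := by
    constructor
    · rw [star_smul, star_one, smul_mul_smul_comm, hζ2, one_mul, one_smul]
    · rw [star_smul, star_one, smul_mul_smul_comm, mul_comm ζ, hζ2, one_mul, one_smul]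
  have u2 : ζ • dg z (gs g c) ∈ unitary _ := by
    have : ζ • dg z (gs g c) = ζ • (1 : Matrix I I (GA G)) * dg z (gs g c) := by simp
    rw [this]
    refine mul_mem u1 (diag_unitary _ fun i => ?_)
    split_ifs
    · exact gs_unitary g hc1
    · exact one_mem _
  have a1 := hX.le' _ u1 _ hs hs1
  have a2 := hT.le _ u2 _ hs hs1
  have a3 : T * ζ • dg z (gs g c) = star (star X * ζ • (1 : Matrix I I (GA G))) := by
    rw [star_mul, star_star, star_smul, star_one, smul_mul_assoc, one_mul, h, smul_smul,
      ← mul_assoc, hζ2, one_mul, mul_smul_comm]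
  rw [a3, tM_tr.LL_star] at a2
  have b1 : (LL tM (Real.sin θ) (ζ • (1 : Matrix I I (GA G)))).im = N * -θ := by
    have : HasSum (fun m : ℕ => (Real.sin θ : ℂ) ^ m / m * tM ((ζ • (1 : Matrix I I (GA G))) ^ m))
        (N * -Complex.log (1 - Real.sin θ * ζ)) := by
      refine HasSum.congr_fun (hlog.mul_left (N : ℂ)) fun m => ?_
      rw [smul_pow, one_pow, map_smul, tM_one, mul_pow, hN]; simp; ring
    rw [LL, this.tsum_eq, ← harg, ← Complex.log_im]; simp
  obtain ⟨s, hs', hs''⟩ := torsion_sum hg (hn (ζ * c) (by rw [norm_mul, hζ1, hc1, one_mul]))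
  have b2 : (LL tM (Real.sin θ) (ζ • dg z (gs g c))).im = (N - 1) * -θ - s.im := by
    have : HasSum (fun m : ℕ => (Real.sin θ : ℂ) ^ m / m * tM ((ζ • dg z (gs g c)) ^ m))
        ((N - 1 : ℝ) * -Complex.log (1 - Real.sin θ * ζ) + s) := by
      refine HasSum.congr_fun ((hlog.mul_left ((N - 1 : ℝ) : ℂ)).add hs') fun m => ?_
      rw [smul_pow, dg, diagonal_pow, map_smul, tM_apply,
        ← Finset.sum_erase_add _ _ (Finset.mem_univ z),
        Finset.sum_congr rfl (g := fun _ => (1 : ℂ)) (fun i hi => by
          simp [Finset.ne_of_mem_erase hi, t0_one])]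
      simp only [diagonal_apply_eq, Pi.pow_apply, if_true, gs_pow, t0_gs, Finset.sum_const,
        Finset.card_erase_of_mem (Finset.mem_univ z), Finset.card_univ, hN]
      rw [nsmul_eq_mul, Nat.cast_sub (Fintype.card_pos_iff.mpr ⟨z⟩)]
      split_ifs <;> simp [mul_pow] <;> ring
    rw [LL, this.tsum_eq, ← harg, ← Complex.log_im]
    simp only [Complex.neg_im, Complex.add_im, Complex.im_ofReal_mul]; ring
  rw [b1] at a1
  rw [b2] at a2
  nlinarith

end Vale.Agent.P174
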