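import Vale.Agent.P174.Closed

/-! Polynomial functions on a product of unitary groups, invariant derivations, Haar integral. -/

namespace Vale.Agent.P174

open Matrix MeasureTheory

set_option linter.unusedSectionVars false

section path
variable {m : Type} [Fintype m] [DecidableEq m]

instance unitaryCompact : CompactSpace (unitaryGroup m ℂ) := by
  refine isCompact_iff_compactSpace.mp (?_ : IsCompact (unitaryGroup m ℂ : Set (Matrix m m ℂ)))
  have h1 : IsCompact (Set.pi Set.univ fun _ : m => Set.pi Set.univ fun _ : m =>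
      Metric.closedBall (0 : ℂ) 1) :=
    isCompact_univ_pi fun _ => isCompact_univ_pi fun _ => isCompact_closedBall _ _
  refine h1.of_isClosed_subset (isClosed_unitary (R := Matrix m m ℂ)) ?_
  intro U hU i _ j _
  simpa using entry_norm_bound_of_unitary hU i j

/-- Diagonal unitary with given phases. -/
noncomputable def diagU (θ : m → ℝ) : unitaryGroup m ℂ :=
  ⟨diagonal fun i => Complex.exp (Complex.I * θ i), by
    rw [mem_unitaryGroup_iff, star_eq_conjTranspose, diagonal_conjTranspose, diagonal_mul_diagonal,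
      ← diagonal_one]
    congr 1
    funext i
    simp only [Pi.star_apply, RCLike.star_def, ← Complex.exp_conj, ← Complex.exp_add]
    simp⟩

/-- One-parameter subgroup. -/
noncomputable def upath (U : unitaryGroup m ℂ) (l : m → ℝ) (s : ℝ) : unitaryGroup m ℂ :=
  U * diagU (fun i => s * l i) * U⁻¹

theorem upath_apply (U : unitaryGroup m ℂ) (l : m → ℝ) (s : ℝ) (i j : m) :
    (upath U l s : Matrix m m ℂ) i j =
      ∑ r, U.1 i r * Complex.exp (Complex.I * l r * s) * star (U.1 j r) := by
  simp only [upath, diagU, Submonoid.coe_mul, UnitaryGroup.inv_val, mul_apply, star_apply,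
    diagonal_apply, mul_ite, mul_zero, Finset.sum_ite_eq', Finset.mem_univ, if_true]
  refine Finset.sum_congr rfl fun r _ => ?_
  congr 3
  push_cast; ring

theorem upath_zero (U : unitaryGroup m ℂ) (l : m → ℝ) : upath U l 0 = 1 := by
  have : (diagU fun i => 0 * l i) = 1 := by
    ext i j; simp [diagU, diagonal_apply, one_apply]
  rw [upath, this]; simp

theorem upath_add (U : unitaryGroup m ℂ) (l : m → ℝ) (s t : ℝ) :
    upath U l (s + t) = upath U l s * upath U l t := by
  have : (diagU fun i => (s + t) * l i) = diagU (fun i => s * l i) * diagU (fun i => t * l i) := by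
    ext i j
    simp only [diagU, Submonoid.coe_mul, diagonal_mul_diagonal, ← Complex.exp_add]
    congr 2
    funext i; push_cast; ring_nf
  simp only [upath, this]; group

theorem upath_cont (U : unitaryGroup m ℂ) (l : m → ℝ) : Continuous (upath U l) := by
  refine Continuous.subtype_mk (f := fun s => (upath U l s : Matrix m m ℂ)) ?_ _
  refine continuous_matrix fun i j => ?_
  simp only [upath_apply]
  fun_prop

theorem upath_deriv (U : unitaryGroup m ℂ) (l : m → ℝ) (i j : m) :
    HasDerivAt (fun s => (upath U l s : Matrix m m ℂ) i j)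
      ((Complex.I • (U.1 * diagonal (fun r => (l r : ℂ)) * star U.1)) i j) 0 := by
  simp only [upath_apply]
  have : (Complex.I • (U.1 * diagonal (fun r => (l r : ℂ)) * star U.1)) i j =
      ∑ r, U.1 i r * (Complex.exp (Complex.I * l r * (0 : ℝ)) * (Complex.I * l r * 1)) *
        star (U.1 j r) := by
    simp only [Matrix.smul_apply, mul_apply, star_apply, diagonal_apply, mul_ite, mul_zero,
      Finset.sum_ite_eq', Finset.mem_univ, if_true, smul_eq_mul, Finset.mul_sum]
    refine Finset.sum_congr rfl fun r _ => ?_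
    simp; ring
  rw [this]
  refine HasDerivAt.fun_sum fun r _ => ?_
  refine HasDerivAt.mul_const (HasDerivAt.const_mul _ ?_) _
  exact HasDerivAt.cexp (HasDerivAt.const_mul _ (Complex.ofRealCLM.hasDerivAt (x := 0)))

theorem herm_path {H : Matrix m m ℂ} (hH : H.IsHermitian) :
    ∃ (U : unitaryGroup m ℂ) (l : m → ℝ), H = U.1 * diagonal (fun r => (l r : ℂ)) * star U.1 :=
  ⟨hH.eigenvectorUnitary, hH.eigenvalues, by
    conv_lhs => rw [hH.spectral_theorem]
    rfl⟩

end path

variable {B : Type} [Fintype B] [DecidableEq B] (n : B → Type) [∀ b, Fintype (n b)]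
  [∀ b, DecidableEq (n b)]

/-- The product of unitary groups. -/
def KK : Type := ∀ b, unitaryGroup (n b) ℂ

noncomputable instance : Group (KK n) := inferInstanceAs (Group (∀ b, unitaryGroup (n b) ℂ))
noncomputable instance : TopologicalSpace (KK n) :=
  inferInstanceAs (TopologicalSpace (∀ b, unitaryGroup (n b) ℂ))
instance : IsTopologicalGroup (KK n) :=
  inferInstanceAs (IsTopologicalGroup (∀ b, unitaryGroup (n b) ℂ))
instance : CompactSpace (KK n) := inferInstanceAs (CompactSpace (∀ b, unitaryGroup (n b) ℂ))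
instance : T2Space (KK n) := inferInstanceAs (T2Space (∀ b, unitaryGroup (n b) ℂ))
noncomputable instance : MeasurableSpace (KK n) := borel _
instance : BorelSpace (KK n) := ⟨rfl⟩

/-- Haar measure. -/
noncomputable def mu : Measure (KK n) := Measure.haar

instance : (mu n).IsHaarMeasure := inferInstanceAs (Measure.haar (G := KK n)).IsHaarMeasure
instance : IsFiniteMeasure (mu n) := CompactSpace.isFiniteMeasure

/-- Generators of the function algebra. -/
def gens : Set (KK n × ℝ → ℂ) :=
  {f | (∃ b i j, f = fun ω => (ω.1 b).1 i j) ∨ (∃ b i j, f = fun ω => (star (ω.1 b).1) i j) ∨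
    ∃ c : ℂ, f = fun ω => Complex.exp (c * ω.2)}

/-- The function algebra. -/
def AA : Type := Algebra.adjoin ℂ (gens n)

noncomputable instance : CommRing (AA n) := inferInstanceAs (CommRing (Algebra.adjoin ℂ (gens n)))
noncomputable instance : Algebra ℂ (AA n) :=
  inferInstanceAs (Algebra ℂ (Algebra.adjoin ℂ (gens n)))

variable {n}

theorem cont_coord (b : B) : Continuous fun x : KK n => (x b).1 :=
  continuous_subtype_val.comp (continuous_apply b)

theorem cont_AA (φ : AA n) : Continuous φ.1 := by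
  obtain ⟨φ, h⟩ := φ
  induction h using Algebra.adjoin_induction with
  | mem f hf =>
    rcases hf with ⟨b, i, j, rfl⟩ | ⟨b, i, j, rfl⟩ | ⟨c, rfl⟩
    · exact ((cont_coord b).comp continuous_fst).matrix_elem i j
    · exact (((cont_coord b).comp continuous_fst).star).matrix_elem i j
    · change Continuous fun ω : KK n × ℝ => Complex.exp (c * ω.2)
      fun_prop
  | algebraMap r => exact continuous_const
  | add f g _ _ hf hg => exact hf.add hg
  | mul f g _ _ hf hg => exact hf.mul hg

/-- Evaluation at a point. -/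
noncomputable def ev (ω : KK n × ℝ) : AA n →ₐ[ℂ] ℂ :=
  (Pi.evalAlgHom ℂ (fun _ => ℂ) ω).comp (Algebra.adjoin ℂ (gens n)).val

theorem ev_apply (ω : KK n × ℝ) (φ : AA n) : ev ω φ = φ.1 ω := rfl

theorem AA_ext {φ ψ : AA n} (h : ∀ ω, ev ω φ = ev ω ψ) : φ = ψ := Subtype.ext (funext h)

theorem mat_ext {p q : Type} {M N : Matrix p q (AA n)} (h : ∀ ω, M.map (ev ω) = N.map (ev ω)) :
    M = N := by
  ext1 i j
  exact AA_ext fun ω => congrFun (congrFun (h ω) i) j

theorem exists_flowDer (γ : ℝ → KK n × ℝ → KK n × ℝ) (h0 : ∀ ω, γ 0 ω = ω)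
    (hg : ∀ f ∈ gens n, ∃ f' : AA n, ∀ ω, HasDerivAt (fun s => f (γ s ω)) (ev ω f') 0) :
    ∃ d : Derivation ℂ (AA n) (AA n), ∀ φ ω,
      HasDerivAt (fun s => ev (γ s ω) φ) (ev ω (d φ)) 0 := by
  have key : ∀ φ : AA n, ∃ f' : AA n, ∀ ω, HasDerivAt (fun s => ev (γ s ω) φ) (ev ω f') 0 := by
    rintro ⟨φ, h⟩
    induction h using Algebra.adjoin_induction with
    | mem f hf => exact hg f hf
    | algebraMap r => exact ⟨0, fun ω => by
        rw [map_zero]; exact hasDerivAt_const (0 : ℝ) r⟩
    | add f g hf' hg' hf hg =>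
      obtain ⟨a, ha⟩ := hf
      obtain ⟨b, hb⟩ := hg
      exact ⟨a + b, fun ω => by rw [map_add]; exact (ha ω).add (hb ω)⟩
    | mul f g hf' hg' hf hg =>
      obtain ⟨a, ha⟩ := hf
      obtain ⟨b, hb⟩ := hg
      refine ⟨a * ⟨g, hg'⟩ + ⟨f, hf'⟩ * b, fun ω => ?_⟩
      have := (ha ω).mul (hb ω)
      simp only [h0] at this
      exact this
  choose d hd using key
  refine ⟨Derivation.mk' ⟨⟨d, fun a b => AA_ext fun ω => ?_⟩, fun c a => AA_ext fun ω => ?_⟩
    fun a b => AA_ext fun ω => ?_, hd⟩
  · refine (hd (a + b) ω).unique ?_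
    simp only [map_add]
    exact (hd a ω).add (hd b ω)
  · refine (hd (c • a) ω).unique ?_
    simp only [map_smul, RingHom.id_apply]
    exact (hd a ω).const_smul c
  · refine (hd (a * b) ω).unique ?_
    have := (hd a ω).mul (hd b ω)
    simp only [h0] at this
    simp only [map_mul, map_add, smul_eq_mul, LinearMap.coe_mk, AddHom.coe_mk]
    rw [add_comm, mul_comm (ev ω b)]
    exact this

theorem int_AA (φ : AA n) (t : ℝ) : Integrable (fun x => ev (x, t) φ) (mu n) := by
  have : Continuous fun x : KK n => ev (x, t) φ := (cont_AA φ).comp (by fun_prop)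
  exact this.integrable_of_hasCompactSupport (HasCompactSupport.of_compactSpace _)

theorem deriv_integral (γ : ℝ → KK n × ℝ → KK n × ℝ) (h0 : ∀ ω, γ 0 ω = ω)
    (hadd : ∀ s t ω, γ (s + t) ω = γ s (γ t ω))
    (hc : Continuous fun p : ℝ × (KK n × ℝ) => γ p.1 p.2) (φ φ' : AA n)
    (hd : ∀ ω, HasDerivAt (fun s => ev (γ s ω) φ) (ev ω φ') 0) (t : ℝ) :
    HasDerivAt (fun s => ∫ x, ev (γ s (x, t)) φ ∂(mu n)) (∫ x, ev (x, t) φ' ∂(mu n)) 0 := by
  have hc' : ∀ ψ : AA n, Continuous fun p : ℝ × KK n => ev (γ p.1 (p.2, t)) ψ := fun ψ =>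
    (cont_AA ψ).comp (hc.comp (f := fun p : ℝ × KK n => (p.1, (p.2, t))) (by fun_prop))
  have hc'' : ∀ (ψ : AA n) (s : ℝ), Continuous fun x : KK n => ev (γ s (x, t)) ψ := fun ψ s =>
    (hc' ψ).comp (f := fun x : KK n => (s, x)) (by fun_prop)
  obtain ⟨C, hC⟩ := ((isCompact_Icc (a := (-1 : ℝ)) (b := 1)).prod
    (isCompact_univ (X := KK n))).exists_bound_of_continuousOn (hc' φ').continuousOn
  have := (hasDerivAt_integral_of_dominated_loc_of_deriv_le (μ := mu n)
    (F := fun s x => ev (γ s (x, t)) φ) (F' := fun s x => ev (γ s (x, t)) φ') (x₀ := (0 : ℝ))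
    (s := Set.Icc (-1) 1) (bound := fun _ => C) (Icc_mem_nhds (by norm_num) (by norm_num))
    (Filter.Eventually.of_forall fun s => (hc'' φ s).aestronglyMeasurable)
    ((hc'' φ 0).integrable_of_hasCompactSupport (HasCompactSupport.of_compactSpace _))
    (hc'' φ' 0).aestronglyMeasurable
    (Filter.Eventually.of_forall fun x s hs => hC (s, x) ⟨hs, trivial⟩)
    (integrable_const C)
    (Filter.Eventually.of_forall fun x s _ => ?_)).2
  · simpa only [h0] using this
  · have h1 := hd (γ s (x, t))
    simp only [← hadd] at h1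
    have h2 : HasDerivAt (fun u => ev (γ (u + s) (x, t)) φ) (ev (γ s (x, t)) φ') (s - s) := by
      rw [sub_self]; exact h1
    have h3 := h2.comp_sub_const s s
    simpa using h3

end Vale.Agent.P174
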