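import Vale.Agent.P174.Th

/-! Homotopy invariance of the degree integral, and the sign of the model Jacobian. -/

namespace Vale.Agent.P174

open Matrix MeasureTheory Kronecker
open scoped ComplexOrder

set_option linter.unusedSectionVars false
set_option linter.unusedSimpArgs false

variable {J D R : Type} [Fintype J] [DecidableEq J] [Fintype D] [DecidableEq D] [Fintype R]
  [DecidableEq R]

/-- All derivations. -/
noncomputable def del : Option (Ix J D R) → Derivation ℂ (Al J D R) (Al J D R)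
  | none => dT
  | some a => DD (dir a)

/-- The components of the pulled back Maurer-Cartan form. -/
noncomputable def tht (f : J → (Matrix (D ⊕ R) (D ⊕ R) (Al J D R))ˣ) (a : Option (Ix J D R))
    (k : Ix J D R) : Al J D R := th (del a) (f k.2) k.1.1 k.1.2

/-- Jacobian. -/
noncomputable def Jac (f : J → (Matrix (D ⊕ R) (D ⊕ R) (Al J D R))ˣ) : Al J D R :=
  (Matrix.of fun a k => tht f (some a) k).det

/-- Test function. -/
noncomputable def bs (c : ℂ) (f : J → (Matrix (D ⊕ R) (D ⊕ R) (Al J D R))ˣ) : Al J D R :=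
  algebraMap ℂ _ c + ∑ j, ((f j).1.trace + (f j)⁻¹.1.trace)

theorem dir_off (a : Ix J D R) (j : J) : ∃ Z, (dir a).2.1 j = off Z := by
  by_cases h : j = a.2
  · subst h; exact ⟨single a.1.1 a.1.2 1, by simp [dir, hor]⟩
  · refine ⟨0, ?_⟩
    simp only [dir, hor, Pi.single_eq_of_ne h]
    ext (a | a) (b | b) <;> simp [off, toBlocks₁₂, toBlocks₂₁]

theorem br_blocks (a b : Ix J D R) (j : J) :
    ((dir b * dir a - dir a * dir b).2.1 j).toBlocks₁₂ = 0 ∧
      ((dir b * dir a - dir a * dir b).2.1 j).toBlocks₂₁ = 0 := by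
  obtain ⟨Z, hZ⟩ := dir_off a j
  obtain ⟨Z', hZ'⟩ := dir_off b j
  have : (dir b * dir a - dir a * dir b).2.1 j = off Z' * off Z - off Z * off Z' := by
    rw [← hZ, ← hZ']; rfl
  rw [this, sub_eq_add_neg]
  simp [off, fromBlocks_multiply, fromBlocks_neg, fromBlocks_add]

theorem coef_neg (ξ : Tr J D R) (e : Ix J D R) : coef (-ξ) e = - coef ξ e := by
  rcases e with ⟨⟨a | a, b | b⟩, j⟩
  · simp [coef]
  · simp [coef]
  · simp [coef]
  · have : cst (n := nn J D R) ((-ξ).2.1 j).toBlocks₂₂ =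
        - cst (n := nn J D R) (ξ.2.1 j).toBlocks₂₂ := by
      ext1 x y; simp [cst, toBlocks₂₂]
    simp only [coef, Wv, this]
    simp [Matrix.sub_apply]
    ring

theorem coef_tr (ξ : Tr J D R) : ∑ b, coef (dir b * ξ - ξ * dir b) b = 0 := by
  have hW : ∀ r r' j, Wv (dir ((.inr r, .inr r'), j) * ξ - ξ * dir ((.inr r, .inr r'), j)) j
      = 0 := by
    intro r r' j
    have : ((dir ((.inr r, .inr r'), j) * ξ - ξ * dir ((.inr r, .inr r'), j)).2.1 j).toBlocks₂₂
        = 0 := by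
      rw [dir_rr]; simp; rfl
    rw [Wv, this, cst_zero]; simp
  simp only [Fintype.sum_prod_type, Fintype.sum_sum_type, coef, Finset.sum_const_zero,
    add_zero, zero_add, hW, Matrix.zero_apply, ← map_sum, ← map_add]
  simp only [dir_ll, dir_rr, Prod.fst_sub, Prod.fst_mul, Prod.snd_sub, Prod.snd_mul, Pi.sub_apply,
    Pi.mul_apply, Pi.single_eq_same]
  have h1 : ∀ {p : Type} [Fintype p] [DecidableEq p] (u : J → Matrix p p ℂ),
      ∑ a, ∑ b, ∑ j, (single a b (1 : ℂ) * u j - u j * single a b (1 : ℂ) : Matrix p p ℂ) a b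
        = 0 := by
    intro p _ _ u
    calc _ = ∑ j, ∑ a, ∑ b,
          (single a b (1 : ℂ) * u j - u j * single a b (1 : ℂ) : Matrix p p ℂ) a b := by
          rw [eq_comm, Finset.sum_comm]
          exact Finset.sum_congr rfl fun a _ => Finset.sum_comm
      _ = 0 := by simp only [tr_ad, Finset.sum_const_zero]
  rw [h1, h1, add_zero, map_zero]

/-- Structure constants. -/
noncomputable def cc : Option (Ix J D R) → Option (Ix J D R) → Option (Ix J D R) → Al J D R
  | some a, some b, some e => coef (dir b * dir a - dir a * dir b) e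
  | _, _, _ => 0

theorem invariance (φ : J → (Matrix (D ⊕ R) (D ⊕ R) (Al J D R))ˣ) (hφ : ∀ j, φ j ∈ PP J D R _)
    (c : ℂ) (p : ℕ) :
    ∫ x, ev (x, 0) (bs c (fun j => aU j * φ j) ^ p * Jac fun j => aU j * φ j) ∂(mu _) =
    ∫ x, ev (x, 1) (bs c (fun j => aU j * φ j) ^ p * Jac fun j => aU j * φ j) ∂(mu _) := by
  set f := fun j => aU j * φ j with hf
  have key := closed (S := (D ⊕ R) ⊕ (D ⊕ R)) del (tht f) (bs c f ^ p)
    (fun k => p • bs c f ^ (p - 1) * ((f k.2).1 k.1.2 k.1.1 - (f k.2)⁻¹.1 k.1.2 k.1.1))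
    (fun a => ?_) (fun _ => Sum.elim (fun _ => 1) (fun _ => -1))
    (fun k => Sum.elim (fun r => ((k.1.1, r), k.2)) (fun r => ((r, k.1.2), k.2)))
    (fun k => Sum.elim (fun r => ((r, k.1.2), k.2)) (fun r => ((k.1.1, r), k.2))) cc
    (fun a b k => ?_) (fun a => ?_) (fun b => ?_)
  · rw [Fintype.sum_option] at key
    have := const_integral (fun a => toDir (dir a)) (fun a => bs c f ^ p * (bord (tht f) a).det) key
    simpa only [bord_none, Jac] using this
  · rw [Derivation.leibniz_pow]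
    simp only [mul_assoc, ← Finset.mul_sum, smul_eq_mul, smul_mul_assoc, ← Finset.smul_sum]
    congr 2
    simp only [bs, map_add, Derivation.map_algebraMap, zero_add, map_sum, der_trace, map_inv_eq]
    simp only [map_eq_th, trace_neg, Fintype.sum_prod_type_right, tht]
    refine Finset.sum_congr rfl fun j _ => ?_
    rw [trace_mul_comm (f j)⁻¹.1, ← sub_eq_add_neg, ← trace_sub, ← mul_sub]
    simp only [trace, diag, mul_apply, Matrix.sub_apply]
    rw [Finset.sum_comm]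
    exact Finset.sum_congr rfl fun _ _ => Finset.sum_congr rfl fun _ _ => mul_comm _ _
  · have h1 := congrFun (congrFun (th_MC (del a) (del b) (f k.2)) k.1.1) k.1.2
    have h2 : th ⁅del a, del b⁆ (f k.2) k.1.1 k.1.2 = ∑ e, cc a b e * tht f e k := by
      have z : th (0 : Derivation ℂ (Al J D R) _) (f k.2) = 0 := map_zero (thl (f k.2))
      rcases a with _ | a <;> rcases b with _ | b
      · simp [cc, z]
      · rw [← lie_skew]; simp [cc, del, DD_lie_T, z]
      · simp [cc, del, DD_lie_T, z]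
      · rw [Fintype.sum_option]
        simp only [del, DD_lie, hf]
        rw [th_expand _ (hφ _) _ _ (fun j => (br_blocks a b j).1) (fun j => (br_blocks a b j).2)]
        simp [cc, Matrix.sum_apply, tht, del]
    simp only [Matrix.sub_apply, Matrix.add_apply, map_apply, h2, mul_apply] at h1
    rw [add_comm] at h1
    refine h1.trans ?_
    congr 1
    simp only [Fintype.sum_sum_type (α₁ := D ⊕ R), Sum.elim_inl, Sum.elim_inr, tht, one_mul,
      neg_mul, Finset.sum_neg_distrib, sub_eq_add_neg, mul_comm]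
  · rcases a with _ | a
    · simp [cc]
    · rw [Fintype.sum_option]; simp only [cc, zero_add]; exact coef_tr _
  · rcases b with _ | b
    · refine Finset.sum_eq_zero fun a _ => ?_
      cases a <;> rfl
    · rw [Fintype.sum_option]; simp only [cc, zero_add]
      simp only [← neg_sub (dir _ * dir b), coef_neg, Finset.sum_neg_distrib, coef_tr, neg_zero]

/-- The numeric model Jacobian map. -/
def Tm (g : Matrix (D ⊕ R) (D ⊕ R) ℂ) (V : Matrix R R ℂ) (L : Matrix D D ℂ → Matrix D D ℂ)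
    (X : Matrix (D ⊕ R) (D ⊕ R) ℂ) : Matrix (D ⊕ R) (D ⊕ R) ℂ :=
  -off X + fromBlocks 0 0 0 X.toBlocks₂₂ + fromBlocks 1 0 0 V * off X * fromBlocks 1 0 0 Vᴴ +
    fromBlocks 1 0 0 V * g * fromBlocks (L X.toBlocks₁₁) 0 0 0 * gᴴ * fromBlocks 1 0 0 Vᴴ

/-- Reindexing. -/
def eI : (D × D) ⊕ (D × R) ⊕ (R × D) ⊕ (R × R) ≃ (D ⊕ R) × (D ⊕ R) where
  toFun
    | .inl (a, b) => (.inl a, .inl b)
    | .inr (.inl (a, b)) => (.inl a, .inr b)
    | .inr (.inr (.inl (a, b))) => (.inr a, .inl b)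
    | .inr (.inr (.inr (a, b))) => (.inr a, .inr b)
  invFun
    | (.inl a, .inl b) => .inl (a, b)
    | (.inl a, .inr b) => .inr (.inl (a, b))
    | (.inr a, .inl b) => .inr (.inr (.inl (a, b)))
    | (.inr a, .inr b) => .inr (.inr (.inr (a, b)))
  left_inv := by rintro (⟨a, b⟩ | ⟨a, b⟩ | ⟨a, b⟩ | ⟨a, b⟩) <;> rfl
  right_inv := by rintro ⟨a | a, b | b⟩ <;> rfl

theorem det_Tm (g : Matrix (D ⊕ R) (D ⊕ R) ℂ) (V : Matrix R R ℂ)
    (L : Matrix D D ℂ → Matrix D D ℂ) (hL : L 0 = 0) :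
    (mat (Tm g V L)).det = (mat L).det * (g.toBlocks₁₁.det * star g.toBlocks₁₁.det) ^
      Fintype.card D * ((V - 1).det * star (V - 1).det) ^ Fintype.card D := by
  have hT : ∀ X, Tm g V L X = fromBlocks (g.toBlocks₁₁ * L X.toBlocks₁₁ * g.toBlocks₁₁ᴴ)
      (X.toBlocks₁₂ * (V - 1)ᴴ + g.toBlocks₁₁ * L X.toBlocks₁₁ * g.toBlocks₂₁ᴴ * Vᴴ)
      ((V - 1) * X.toBlocks₂₁ + V * g.toBlocks₂₁ * L X.toBlocks₁₁ * g.toBlocks₁₁ᴴ)
      (X.toBlocks₂₂ + V * g.toBlocks₂₁ * L X.toBlocks₁₁ * g.toBlocks₂₁ᴴ * Vᴴ) := by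
    intro X
    rw [Tm]
    conv_lhs => rw [← fromBlocks_toBlocks g]
    simp [off, fromBlocks_multiply, fromBlocks_neg, fromBlocks_add, fromBlocks_conjTranspose,
      Matrix.mul_sub, Matrix.sub_mul, sub_eq_neg_add, Matrix.mul_add, Matrix.add_mul]
  obtain ⟨B, hB⟩ : ∃ B, (mat (Tm g V L)).submatrix eI eI =
      fromBlocks (mat fun u => g.toBlocks₁₁ * L u * g.toBlocks₁₁ᴴ) B 0
        (fromBlocks ((1 : Matrix D D ℂ) ⊗ₖ (V - 1)ᴴ) 0 0
          (fromBlocks ((V - 1)ᵀ ⊗ₖ (1 : Matrix D D ℂ)) 0 0 1)) := by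
    refine ⟨((mat (Tm g V L)).submatrix eI eI).toBlocks₁₂, ?_⟩
    have t1 : ∀ a b, (single (.inl a) (.inl b) (1 : ℂ) : Matrix (D ⊕ R) (D ⊕ R) ℂ) =
      fromBlocks (single a b 1) 0 0 0 := by
      intro a b; ext (x | x) (y | y) <;> simp [single]
    have t2 : ∀ a b, (single (.inl a) (.inr b) (1 : ℂ) : Matrix (D ⊕ R) (D ⊕ R) ℂ) =
      fromBlocks 0 (single a b 1) 0 0 := by
      intro a b; ext (x | x) (y | y) <;> simp [single]
    have t3 : ∀ a b, (single (.inr a) (.inl b) (1 : ℂ) : Matrix (D ⊕ R) (D ⊕ R) ℂ) =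
      fromBlocks 0 0 (single a b 1) 0 := by
      intro a b; ext (x | x) (y | y) <;> simp [single]
    have t4 : ∀ a b, (single (.inr a) (.inr b) (1 : ℂ) : Matrix (D ⊕ R) (D ⊕ R) ℂ) =
      fromBlocks 0 0 0 (single a b 1) := by
      intro a b; ext (x | x) (y | y) <;> simp [single]
    ext (⟨a, b⟩ | ⟨a, b⟩ | ⟨a, b⟩ | ⟨a, b⟩) (⟨x, y⟩ | ⟨x, y⟩ | ⟨x, y⟩ | ⟨x, y⟩) <;>
      first | rfl | skip
    all_goals
      simp only [mat, eI, hT, t1, t2, t3, t4, hL, submatrix_apply, Equiv.coe_fn_mk, of_apply,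
        toBlocks_fromBlocks₁₁, toBlocks_fromBlocks₁₂, toBlocks_fromBlocks₂₁, toBlocks_fromBlocks₂₂,
        Matrix.mul_zero, Matrix.zero_mul, add_zero]
      simp [mul_apply, single, one_apply, ite_and, eq_comm]
  rw [← det_submatrix_equiv_self eI, hB, det_fromBlocks_zero₂₁, det_fromBlocks_zero₂₁,
    det_fromBlocks_zero₂₁, mat_conj, det_mul, det_kronecker, det_kronecker, det_kronecker]
  simp only [det_one, det_transpose, det_conjTranspose, one_pow, mul_pow]
  ring

end Vale.Agent.P174
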