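import Vale.Agent.P174.Pic

/-! The group theoretic reduction. -/

namespace Vale.Agent.P174

open Monoid

set_option linter.unusedSectionVars false
set_option linter.unusedSimpArgs false

theorem closure_list {H J : Type*} [Group H] (w : J → H) {y : H}
    (h : y ∈ Subgroup.normalClosure (Set.range w)) : ∃ fs : List (H × (J × Bool)),
      (fs.map fun f => f.1 * w f.2.1 ^ sgZ f.2.2 * f.1⁻¹).prod = y := by
  induction h using Subgroup.closure_induction with
  | mem y hy =>
    obtain ⟨_, ⟨i, rfl⟩, hc⟩ := Group.mem_conjugatesOfSet_iff.mp hy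
    obtain ⟨c, rfl⟩ := isConj_iff.mp hc
    exact ⟨[(c, i, true)], by simp [sgZ]⟩
  | one => exact ⟨[], rfl⟩
  | mul x y _ _ hx hy =>
    obtain ⟨l, rfl⟩ := hx
    obtain ⟨l', rfl⟩ := hy
    exact ⟨l ++ l', by simp⟩
  | inv x _ hx =>
    obtain ⟨l, rfl⟩ := hx
    refine ⟨(l.map fun f => (f.1, f.2.1, !f.2.2)).reverse, ?_⟩
    rw [List.prod_inv_reverse, List.map_reverse, List.map_map, List.map_map]
    congr 3
    funext ⟨c, i, b⟩
    cases b <;> simp [sgZ, mul_assoc]

/-- Number of occurrences of a relator with a sign. -/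
def cnt {H J : Type*} [DecidableEq J] (k : J × Bool) (fs : List (H × (J × Bool))) : ℕ :=
  (fs.map fun f => if f.2 = k then 1 else 0).sum

theorem pad {H J : Type*} [Group H] [DecidableEq J] (w : J → H) (fs : List (H × (J × Bool)))
    (n : J → ℕ) (s : Finset J) : ∃ fs' : List (H × (J × Bool)),
      (fs'.map fun f => f.1 * w f.2.1 ^ sgZ f.2.2 * f.1⁻¹).prod =
        (fs.map fun f => f.1 * w f.2.1 ^ sgZ f.2.2 * f.1⁻¹).prod ∧
      ∀ k, cnt k fs' = cnt k fs + if k.1 ∈ s then n k.1 else 0 := by
  induction s using Finset.induction_on with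
  | empty => exact ⟨fs, rfl, by simp⟩
  | insert i s hi ih =>
    obtain ⟨fs', h1, h2⟩ := ih
    refine ⟨fs' ++ (List.replicate (n i) (1, i, true) ++ List.replicate (n i) (1, i, false)),
      by rw [List.map_append, List.prod_append, h1]; simp [sgZ], ?_⟩
    rintro ⟨j, b⟩
    have := h2 (j, b)
    simp only [cnt] at this
    simp only [cnt, List.map_append, List.sum_append, this]
    by_cases e : j = i
    · subst e; cases b <;> simp [hi]
    · simp [e, Ne.symm e]

variable {G : Type*} [Group G] {ι : Type} [DecidableEq ι]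

theorem howie_minor {J : Type} [Fintype J] [DecidableEq J]
    (φ : Coprod G (FreeGroup ι) →* Multiplicative (ι → ℤ)) (hφ1 : ∀ g, φ (Coprod.inl g) = 1)
    (hφ2 : ∀ j, φ (Coprod.inr (FreeGroup.of j)) = Multiplicative.ofAdd (Pi.single j 1))
    (w : J → Coprod G (FreeGroup ι)) (σ : J → ι) (hσ : Function.Injective σ)
    (hdet : (Matrix.of fun i j => (φ (w i)).toAdd (σ j)).det ≠ 0) (g : G)
    (hg : Coprod.inl g ∈ Subgroup.normalClosure (Set.range w)) : g = 1 := by
  obtain ⟨fs, hfs⟩ := closure_list w hg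
  rcases isEmpty_or_nonempty J with hJ | hJ
  · rcases fs with _ | ⟨f, fs⟩
    · exact Coprod.inl_injective (hfs.symm.trans (map_one _).symm)
    · exact isEmptyElim f.2.1
  have hc : ∀ (fs : List (Coprod G (FreeGroup ι) × (J × Bool))) (t : ι),
      (φ (fs.map fun f => f.1 * w f.2.1 ^ sgZ f.2.2 * f.1⁻¹).prod).toAdd t =
      ∑ i, ((cnt (i, true) fs : ℤ) - cnt (i, false) fs) * (φ (w i)).toAdd t := by
    intro fs t
    induction fs with
    | nil => simp [cnt]
    | cons f fs ih =>
      obtain ⟨c, i, b⟩ := f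
      have : ∀ k, cnt k ((c, i, b) :: fs) = (if (i, b) = k then 1 else 0) + cnt k fs :=
        fun k => rfl
      rw [List.map_cons, List.prod_cons, map_mul, toAdd_mul, Pi.add_apply, ih]
      simp only [this, Nat.cast_add, add_sub_add_comm, add_mul, Finset.sum_add_distrib]
      congr 1
      rw [Finset.sum_eq_single i (fun j _ h => by simp [Ne.symm h]) (by simp)]
      cases b <;> simp [sgZ]
  have h0 : ∀ i, cnt (i, true) fs = cnt (i, false) fs := by
    have := Matrix.eq_zero_of_vecMul_eq_zero hdet
      (v := fun i => (cnt (i, true) fs : ℤ) - cnt (i, false) fs) (funext fun j => by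
        have := hc fs (σ j)
        rw [hfs, hφ1] at this
        exact this.symm)
    intro i
    have := congrFun this i
    simp only [Pi.zero_apply] at this
    omega
  set D := ∑ i, cnt (i, true) fs with hD
  obtain ⟨fs', h1, h2⟩ := pad w fs (fun i => D - cnt (i, true) fs) Finset.univ
  have h3 : ∀ k, cnt k fs' = D := by
    rintro ⟨i, b⟩
    have : cnt (i, true) fs ≤ D :=
      Finset.single_le_sum (f := fun i => cnt (i, true) fs) (fun _ _ => Nat.zero_le _)
        (Finset.mem_univ i)
    have h4 := h0 i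
    rw [h2, if_pos (Finset.mem_univ _)]
    cases b <;> simp only <;> omega
  have h4 : ∀ k : J × Bool, Nonempty ({x : Fin fs'.length // (fs'.get x).2 = k} ≃
      {y : (J × Bool) × Fin D // y.1 = k}) := fun k => by
    rw [← Fintype.card_eq, Fintype.card_subtype, Fintype.card_subtype, Finset.card_filter,
      Finset.card_filter, Fintype.sum_prod_type, Finset.sum_eq_single k (fun j _ h => by simp [h])
        (by simp)]
    simp only [if_true, Finset.sum_const, Finset.card_univ, Fintype.card_fin, smul_eq_mul, mul_one]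
    rw [← h3 k, cnt, ← Fin.sum_univ_fun_getElem]; rfl
  let e := Equiv.ofFiberEquiv fun k => (h4 k).some
  have he : ∀ x, (e x).1 = (fs'.get x).2 := Equiv.ofFiberEquiv_map _
  choose wd hwd using exists_word (G := G) (ι := ι)
  have hwd' : ∀ x : Coprod G (FreeGroup ι), evW (.inl 1 :: wd x) = x := fun x => by
    simp [evW, hwd, evL]
  refine picture φ hφ1 hφ2 (fun i => .inl 1 :: wd (w i)) (by simp) σ hσ (by simpa only [hwd'])
    ((List.finRange _).map e) ((List.nodup_finRange _).map e.injective)
    (fun k => List.mem_map.mpr ⟨e.symm k, by simp, by simp⟩)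
    (fun k => .inl 1 :: wd (fs'.get (e.symm k)).1) (by simp) g ?_
  rw [← hfs, ← h1]
  conv_rhs => rw [← List.map_get_finRange fs']
  simp only [hwd', List.map_map, Function.comp_def, he, Equiv.symm_apply_apply]

theorem exists_minor {m n : ℕ} (A : Matrix (Fin m) (Fin n) ℤ)
    (h : (A.map (Int.cast : ℤ → ℚ)).rank = m) :
    ∃ σ : Fin m → Fin n, Function.Injective σ ∧ (Matrix.of fun i j => A i (σ j)).det ≠ 0 := by
  obtain ⟨κ, a, ha, h1, h2⟩ := exists_linearIndependent' ℚ (A.map (Int.cast : ℤ → ℚ)).col
  have : Finite κ := Finite.of_injective a ha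
  have := Fintype.ofFinite κ
  have h3 : Fintype.card κ = m := by
    rw [← finrank_span_eq_card h2, h1, ← Matrix.rank_eq_finrank_span_cols, h]
  let e := (Fintype.equivFinOfCardEq h3).symm
  refine ⟨a ∘ e, ha.comp e.injective, fun h0 => ?_⟩
  have h4 : LinearIndependent ℚ ((Matrix.of fun i j => A i (a (e j))).map
      (Int.cast : ℤ → ℚ)).col := h2.comp e e.injective
  rw [Matrix.linearIndependent_cols_iff_isUnit, Matrix.isUnit_iff_isUnit_det, ← Int.cast_det,
    isUnit_iff_ne_zero] at h4
  exact h4 (by exact_mod_cast h0)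

end Vale.Agent.P174
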