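import Vale.Agent.P174.Inv

/-! The model map and the concentration argument. -/

namespace Vale.Agent.P174

open Matrix MeasureTheory Kronecker
open scoped ComplexOrder

set_option linter.unusedSectionVars false
set_option linter.unusedSimpArgs false

theorem concentrate {X : Type} [TopologicalSpace X] [CompactSpace X] [MeasurableSpace X]
    [BorelSpace X] (μ : Measure X) [IsFiniteMeasure μ] [μ.IsOpenPosMeasure]
    (b0 b1 : X → ℝ) (J0 J1 : X → ℂ) (c0 : Continuous b0) (c1 : Continuous b1)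
    (d0 : Continuous J0) (d1 : Continuous J1) (M : ℝ) (x0 : X) (h0 : ∀ x, 0 ≤ b0 x)
    (h1 : ∀ x, 0 ≤ b1 x) (hM : ∀ x, b1 x < M) (hx : b0 x0 = M) (hJ : ∀ x, 0 ≤ J0 x)
    (hJ0 : J0 x0 ≠ 0)
    (h : ∀ p : ℕ, ∫ x, (b0 x : ℂ) ^ p * J0 x ∂μ = ∫ x, (b1 x : ℂ) ^ p * J1 x ∂μ) : False := by
  obtain ⟨y, -, hy⟩ := isCompact_univ.exists_isMaxOn ⟨x0, trivial⟩ c1.continuousOn
  obtain ⟨C, hC⟩ := isCompact_univ.exists_bound_of_continuousOn d1.continuousOn
  set β := b1 y
  set β' := (β + M) / 2 with hβ'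
  have hβ : β < M := hM y
  have hβ0 : 0 ≤ β := h1 y
  have hpos : 0 < (J0 x0).re := by
    obtain ⟨a, b⟩ := Complex.nonneg_iff.mp (hJ x0)
    refine lt_of_le_of_ne a fun e => hJ0 (Complex.ext e.symm b.symm)
  set δ := (J0 x0).re / 2 with hδ
  set O : Set X := {x | β' < b0 x} ∩ {x | δ < (J0 x).re} with hO
  have hOo : IsOpen O := (isOpen_lt continuous_const c0).inter
    (isOpen_lt continuous_const (Complex.continuous_re.comp d0))
  have hO0 : x0 ∈ O := ⟨by simp only [Set.mem_setOf_eq]; linarith,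
    by simp only [Set.mem_setOf_eq]; linarith⟩
  have hμ : 0 < μ.real O := ENNReal.toReal_pos (hOo.measure_pos μ ⟨x0, hO0⟩).ne'
    (measure_ne_top _ _)
  have hint : ∀ {f : X → ℂ}, Continuous f → Integrable f μ := fun hf =>
    hf.integrable_of_hasCompactSupport (HasCompactSupport.of_compactSpace _)
  have key : ∀ p : ℕ, μ.real O * (β' ^ p * δ) ≤ β ^ p * C * μ.real Set.univ := by
    intro p
    have i0 : Integrable (fun x => (b0 x : ℂ) ^ p * J0 x) μ := hint (by fun_prop)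
    calc μ.real O * (β' ^ p * δ) = ∫ x, O.indicator (fun _ => β' ^ p * δ) x ∂μ := by
          rw [integral_indicator_const _ hOo.measurableSet, smul_eq_mul]
      _ ≤ ∫ x, ((b0 x : ℂ) ^ p * J0 x).re ∂μ := by
          refine integral_mono ((integrable_const _).indicator hOo.measurableSet) i0.re
            fun x => ?_
          have e : ((b0 x : ℂ) ^ p * J0 x).re = b0 x ^ p * (J0 x).re := by
            rw [← Complex.ofReal_pow, Complex.re_ofReal_mul]
          simp only [e]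
          by_cases hx : x ∈ O
          · rw [Set.indicator_of_mem hx]
            exact mul_le_mul (pow_le_pow_left₀ (by linarith) hx.1.le p) hx.2.le (by linarith)
              (pow_nonneg (h0 x) p)
          · rw [Set.indicator_of_notMem hx]
            exact mul_nonneg (pow_nonneg (h0 x) p) (Complex.nonneg_iff.mp (hJ x)).1
      _ = (∫ x, (b0 x : ℂ) ^ p * J0 x ∂μ).re := by
          have := integral_re i0
          exact this
      _ ≤ ‖∫ x, (b1 x : ℂ) ^ p * J1 x ∂μ‖ := by rw [h p]; exact Complex.re_le_norm _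
      _ ≤ β ^ p * C * μ.real Set.univ := by
          refine norm_integral_le_of_norm_le_const (Filter.Eventually.of_forall fun x => ?_)
          rw [norm_mul, norm_pow, Complex.norm_real, Real.norm_of_nonneg (h1 x)]
          exact mul_le_mul (pow_le_pow_left₀ (h1 x) (hy (Set.mem_univ x)) p) (hC x trivial)
            (norm_nonneg _) (pow_nonneg hβ0 p)
  have hβ'0 : 0 < β' := by linarith
  have hlim := (tendsto_pow_atTop_nhds_zero_of_lt_one (r := β / β') (div_nonneg hβ0 hβ'0.le)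
    ((div_lt_one hβ'0).mpr (by linarith))).mul_const (C * μ.real Set.univ)
  rw [zero_mul] at hlim
  obtain ⟨p, hp⟩ := (hlim.eventually (gt_mem_nhds (mul_pos hμ (half_pos hpos)))).exists
  have := key p
  rw [div_pow, div_mul_eq_mul_div, div_lt_iff₀ (pow_pos hβ'0 p), ← hδ] at hp
  linarith

theorem tr_bound {p : Type} [Fintype p] [DecidableEq p] (F : unitaryGroup p ℂ) :
    |(F.1.trace).re| ≤ Fintype.card p := by
  rw [trace, Complex.re_sum]
  refine (Finset.abs_sum_le_sum_abs _ _).trans ?_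
  calc _ ≤ ∑ _i : p, (1 : ℝ) := Finset.sum_le_sum fun i _ =>
        (Complex.abs_re_le_norm _).trans (entry_norm_bound_of_unitary F.2 i i)
    _ = _ := by simp

theorem tr_eq {p : Type} [Fintype p] [DecidableEq p] (F : unitaryGroup p ℂ)
    (h : (F.1.trace).re = Fintype.card p) : F = 1 := by
  have h1 : F.1ᴴ * F.1 = 1 := F.2.1
  have : ((1 - F.1)ᴴ * (1 - F.1)).trace = 0 := by
    rw [conjTranspose_sub, conjTranspose_one, sub_mul, mul_sub, mul_sub, h1]
    simp only [one_mul, mul_one, trace_sub, trace_one, trace_conjTranspose]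
    apply Complex.ext <;> simp [h]
  rw [trace_conjTranspose_mul_self_eq_zero_iff, sub_eq_zero] at this
  exact Subtype.ext this.symm

variable {J D R : Type} [Fintype J] [DecidableEq J] [Fintype D] [DecidableEq D] [Fintype R]
  [DecidableEq R]

/-- Constant unit. -/
noncomputable def cU {p : Type} [Fintype p] [DecidableEq p] (c : unitaryGroup p ℂ) :
    (Matrix p p (Al J D R))ˣ where
  val := cst c.1
  inv := cst (star c.1)
  val_inv := by rw [← cst_mul, c.2.2, cst_one]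
  inv_val := by rw [← cst_mul, c.2.1, cst_one]

theorem th_cU {p : Type} [Fintype p] [DecidableEq p] (c : unitaryGroup p ℂ)
    (d : Derivation ℂ (Al J D R) (Al J D R)) : th d (cU c) = 0 := by
  rw [th]; change (cst c.1).map d * _ = 0; rw [dm_cst, zero_mul]

theorem cU_mem {p : Type} [Fintype p] [DecidableEq p] (c : unitaryGroup p ℂ) :
    cU c ∈ PP J D R p :=
  ⟨fun ω => by
    change (cst _).map _ = star ((cst _).map _)
    rw [ev_cst, ev_cst], fun ξ _ => th_cU _ _⟩

theorem uU_mem (j : J) : uU j ∈ PP J D R D :=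
  ⟨fun ω => rfl, fun ξ h => by rw [th_uU, h]; exact cst_zero⟩

theorem blk1_mem {f : (Matrix D D (Al J D R))ˣ} (hf : f ∈ PP J D R D) :
    Units.map (blk1 R) f ∈ PP J D R (D ⊕ R) :=
  ⟨fun ω => by
    change (fromBlocks f⁻¹.1 0 0 1).map _ = star ((fromBlocks f.1 0 0 1).map _)
    simp only [fromBlocks_map, hf.1, ev_one, star_eq_conjTranspose, fromBlocks_conjTranspose]
    simp, fun ξ h => by rw [th_blk1, hf.2 ξ h, fromBlocks_zero]⟩

variable (D R) in
/-- The matrix `1 ⊕ (-1)`. -/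
def Y0 : unitaryGroup (D ⊕ R) ℂ := ⟨fromBlocks 1 0 0 (-1), by
  rw [mem_unitaryGroup_iff, star_eq_conjTranspose]
  simp [fromBlocks_conjTranspose, fromBlocks_multiply]⟩

/-- The model map. -/
noncomputable def mdl (κ : ℕ) (j : J) : (Matrix (D ⊕ R) (D ⊕ R) (Al J D R))ˣ :=
  Units.map (blk1 R) (uU j ^ κ) * cU (Y0 D R)

/-- Numeric coordinates. -/
def xu (x : KK (nn J D R)) (j : J) : unitaryGroup D ℂ := x (.inl j)
/-- Numeric coordinates. -/
def xg (x : KK (nn J D R)) (j : J) : unitaryGroup (D ⊕ R) ℂ := x (.inr (.inl j))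
/-- Numeric coordinates. -/
def xv (x : KK (nn J D R)) (j : J) : unitaryGroup R ℂ := x (.inr (.inr j))

/-- Evaluation of matrices as a ring homomorphism. -/
noncomputable abbrev evM {p : Type} [Fintype p] [DecidableEq p] (ω : KK (nn J D R) × ℝ) :
    Matrix p p (Al J D R) →+* Matrix p p ℂ := (ev ω).toRingHom.mapMatrix

theorem evM_u (ω : KK (nn J D R) × ℝ) (j : J) : evM ω (uU j).1 = (xu ω.1 j).1 := rfl
theorem evM_ui (ω : KK (nn J D R) × ℝ) (j : J) : evM ω (uU j)⁻¹.1 = star (xu ω.1 j).1 := rfl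
theorem evM_g (ω : KK (nn J D R) × ℝ) (j : J) : evM ω (gU j).1 = (xg ω.1 j).1 := rfl
theorem evM_gi (ω : KK (nn J D R) × ℝ) (j : J) : evM ω (gU j)⁻¹.1 = (xg ω.1 j).1ᴴ := rfl
theorem evM_cst {p : Type} [Fintype p] [DecidableEq p] (ω : KK (nn J D R) × ℝ)
    (M : Matrix p p ℂ) : evM ω (cst M) = M := ev_cst ω M
theorem evM_blocks (ω : KK (nn J D R) × ℝ) (M : Matrix D D (Al J D R)) (N : Matrix R R (Al J D R)) :
    evM ω (fromBlocks M 0 0 N) = fromBlocks (evM ω M) 0 0 (evM ω N) := by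
  ext (a | a) (b | b) <;> simp
theorem evM_y (ω : KK (nn J D R) × ℝ) (j : J) :
    evM ω (yU j).1 = fromBlocks 1 0 0 (xv ω.1 j).1 := by
  change evM ω (fromBlocks 1 0 0 _) = _
  rw [evM_blocks, map_one]; rfl
theorem evM_yi (ω : KK (nn J D R) × ℝ) (j : J) :
    evM ω (yU j)⁻¹.1 = fromBlocks 1 0 0 (xv ω.1 j).1ᴴ := by
  change evM ω (fromBlocks 1 0 0 _) = _
  rw [evM_blocks, map_one]; rfl

theorem th_model (κ : ℕ) (ω : KK (nn J D R) × ℝ) (j j' : J) (X : Matrix (D ⊕ R) (D ⊕ R) ℂ) :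
    evM ω (th (DD (hor j' X)) (aU j * mdl κ j)) = if j' = j then
      (xg ω.1 j).1ᴴ * Tm (xg ω.1 j).1 (xv ω.1 j).1 (Lm (xu ω.1 j).1 (star (xu ω.1 j).1) κ) X *
        (xg ω.1 j).1 else 0 := by
  have hg : (xg ω.1 j).1 * (xg ω.1 j).1ᴴ = 1 := (xg ω.1 j).2.2
  rw [th_mul, th_aU, mdl, th_mul, th_cU, th_blk1, th_pow, th_uU, aU]
  simp only [mul_zero, zero_mul, add_zero, _root_.mul_inv_rev, inv_inv, Units.val_mul, map_add,
    map_mul, map_neg, evM_blocks, map_zero, map_sum, map_pow, evM_cst, evM_u, evM_ui, evM_g,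
    evM_gi, evM_y, evM_yi, hor]
  split_ifs with h
  · subst h
    simp only [Pi.single_eq_same, Tm, Lm, mul_add, add_mul, mul_assoc]
  · simp [Pi.single_eq_of_ne' h]

theorem th_loc (φ ψ : (Matrix (D ⊕ R) (D ⊕ R) (Al J D R))ˣ) (t : ℝ)
    (h : ∀ x, evM (x, t) φ.1 = evM (x, t) ψ.1) (ξ : Tr J D R) (x : KK (nn J D R)) :
    evM (x, t) (th (DD ξ) φ) = evM (x, t) (th (DD ξ) ψ) := by
  have h1 : evM (x, t) φ⁻¹.1 = evM (x, t) ψ⁻¹.1 := by
    have a1 : evM (x, t) φ⁻¹.1 * evM (x, t) φ.1 = 1 := by rw [← map_mul, φ.inv_mul, map_one]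
    have a2 : evM (x, t) ψ.1 * evM (x, t) ψ⁻¹.1 = 1 := by rw [← map_mul, ψ.mul_inv, map_one]
    rw [h x] at a1
    exact left_inv_eq_right_inv a1 a2
  rw [th, th, map_mul, map_mul, h1]
  congr 1
  ext a b
  have := (dd_good (toDir ξ)).loc (φ.1 a b - ψ.1 a b) t (fun y => by
    rw [map_sub, sub_eq_zero]; exact congrFun (congrFun (h y) a) b) x
  rw [map_sub, map_sub, sub_eq_zero] at this
  exact this

theorem ev_Jac (κ : ℕ) (φ : J → (Matrix (D ⊕ R) (D ⊕ R) (Al J D R))ˣ)
    (h : ∀ j x, evM (x, 0) (φ j).1 = evM (x, 0) (mdl κ j).1) (x : KK (nn J D R)) :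
    ev (x, 0) (Jac fun j => aU j * φ j) = ∏ j, (mat (Tm (xg x j).1 (xv x j).1
      (Lm (xu x j).1 (star (xu x j).1) κ))).det := by
  have e : (ev (x, 0)).toRingHom.mapMatrix (Matrix.of fun a k =>
      tht (fun j => aU j * φ j) (some a) k) = blockDiagonal fun j => mat fun X =>
        (xg x j).1ᴴ * Tm (xg x j).1 (xv x j).1 (Lm (xu x j).1 (star (xu x j).1) κ) X *
          (xg x j).1 := by
    ext ⟨a, j'⟩ ⟨k, j⟩
    have h1 := th_loc (aU j * φ j) (aU j * mdl κ j) 0 (fun y => by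
      rw [Units.val_mul, Units.val_mul, map_mul, map_mul, h]) (dir (a, j')) x
    rw [dir, th_model] at h1
    refine (congrFun (congrFun h1 k.1) k.2).trans ?_
    rw [blockDiagonal_apply]
    split_ifs with hj
    · subst hj; rfl
    · rfl
  have := (ev (x, 0)).toRingHom.map_det (Matrix.of fun a k =>
      tht (fun j => aU j * φ j) (some a) k)
  rw [e, det_blockDiagonal] at this
  refine this.trans (Finset.prod_congr rfl fun j _ => ?_)
  rw [mat_conj, det_mul, det_conj _ (xg x j).1ᴴ (xg x j).2.1, mul_one]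

/-- Evaluation of a pointwise unitary matrix. -/
noncomputable def evU {p : Type} [Fintype p] [DecidableEq p] (ω : KK (nn J D R) × ℝ) :
    PP J D R p →* unitaryGroup p ℂ where
  toFun f := ⟨evM ω f.1.1, by
    rw [mem_unitaryGroup_iff]
    have : star (evM ω f.1.1) = evM ω f.1⁻¹.1 := (f.2.1 ω).symm
    rw [this, ← map_mul, Units.mul_inv, map_one]⟩
  map_one' := Subtype.ext (map_one (evM ω))
  map_mul' f g := Subtype.ext (map_mul (evM ω) _ _)

/-- Numeric `1 ⊕ V`. -/
def blkV (V : unitaryGroup R ℂ) : unitaryGroup (D ⊕ R) ℂ := ⟨fromBlocks 1 0 0 V.1, by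
  have : V.1 * V.1ᴴ = 1 := V.2.2
  rw [mem_unitaryGroup_iff, star_eq_conjTranspose]
  simp [fromBlocks_conjTranspose, fromBlocks_multiply, this]⟩

theorem hit (κ : ℕ) (hκ : κ ≠ 0) (φ : J → PP J D R (D ⊕ R))
    (h : ∀ j x, evM (x, 0) (φ j).1.1 = evM (x, 0) (mdl κ j).1) :
    ∃ x, ∀ j, (xg x j)⁻¹ * blkV (xv x j) * xg x j * evU (x, 1) (φ j) = 1 := by
  by_contra hne
  push Not at hne
  set F : KK (nn J D R) × ℝ → J → unitaryGroup (D ⊕ R) ℂ := fun ω j =>
    (xg ω.1 j)⁻¹ * blkV (xv ω.1 j) * xg ω.1 j * evU ω (φ j) with hF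
  have hF1 : ∀ ω j, evM ω (aU j * (φ j).1).1 = (F ω j).1 := by
    intro ω j
    simp only [aU, Units.val_mul, map_mul, evM_g, evM_gi, evM_y]
    rfl
  have hF2 : ∀ ω j, evM ω (aU j * (φ j).1)⁻¹.1 = (F ω j).1ᴴ := by
    intro ω j
    have a1 : evM ω (aU j * (φ j).1)⁻¹.1 * evM ω (aU j * (φ j).1).1 = 1 := by
      rw [← map_mul, Units.inv_mul, map_one]
    rw [hF1] at a1
    exact left_inv_eq_right_inv a1 (F ω j).2.2
  set N : ℝ := (Fintype.card (D ⊕ R) : ℝ) with hN
  set c : ℝ := ∑ _j : J, 2 * N with hc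
  set b : KK (nn J D R) × ℝ → ℝ := fun ω => c + ∑ j, 2 * ((F ω j).1.trace).re with hb
  have hb1 : ∀ ω, ev ω (bs c fun j => aU j * (φ j).1) = b ω := by
    intro ω
    have t : ∀ M : Matrix (D ⊕ R) (D ⊕ R) (Al J D R), ev ω M.trace = (evM ω M).trace :=
      fun M => by simp [trace]
    simp only [bs, map_add, map_sum, t, hF1, hF2, trace_conjTranspose, AlgHom.commutes, hb]
    push_cast
    congr 1
    refine Finset.sum_congr rfl fun j _ => ?_
    rw [RCLike.star_def, Complex.add_conj]; simp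
  have hbc : Continuous b := by
    have : b = fun ω => (ev ω (bs c fun j => aU j * (φ j).1)).re := by
      funext ω; rw [hb1]; simp
    rw [this]
    exact Complex.continuous_re.comp (cont_AA (bs c fun j => aU j * (φ j).1))
  have hb0 : ∀ ω, 0 ≤ b ω := fun ω => by
    simp only [hb, hc, ← Finset.sum_add_distrib]
    exact Finset.sum_nonneg fun j _ => by linarith [(abs_le.mp (tr_bound (F ω j))).1]
  let x0 : KK (nn J D R) := fun b => match b with
    | .inl _ => 1
    | .inr (.inl _) => 1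
    | .inr (.inr _) => ⟨-1, by rw [mem_unitaryGroup_iff]; simp⟩
  have hL : ∀ (U : Matrix D D ℂ), Lm U (star U) κ 0 = 0 := fun U => by simp [Lm]
  refine concentrate (mu (nn J D R)) (fun x => b (x, 0)) (fun x => b (x, 1))
    (fun x => ev (x, 0) (Jac fun j => aU j * (φ j).1))
    (fun x => ev (x, 1) (Jac fun j => aU j * (φ j).1)) (by fun_prop) (by fun_prop)
    ((cont_AA _).comp (by fun_prop)) ((cont_AA _).comp (by fun_prop)) (c + c) x0
    (fun x => hb0 _) (fun x => hb0 _) (fun x => ?_) ?_ (fun x => ?_) ?_ (fun p => ?_)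
  · obtain ⟨j, hj⟩ := hne x
    simp only [hb, hc]
    refine (add_lt_add_iff_left _).mpr ?_
    refine Finset.sum_lt_sum (fun j _ => by linarith [(abs_le.mp (tr_bound (F (x, 1) j))).2])
      ⟨j, Finset.mem_univ _, ?_⟩
    have := lt_of_le_of_ne (abs_le.mp (tr_bound (F (x, 1) j))).2 fun e => hj (tr_eq _ e)
    linarith
  · simp only [hb, hc]
    congr 1
    refine Finset.sum_congr rfl fun j _ => ?_
    have : (F (x0, 0) j).1 = 1 := by
      rw [← hF1, Units.val_mul, map_mul, h, aU, mdl]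
      simp only [Units.val_mul, map_mul, evM_g, evM_gi, evM_y]
      have g1 : (xg x0 j).1 = 1 := rfl
      have v1 : (xv x0 j).1 = -1 := rfl
      have u1 : (xu x0 j).1 = 1 := rfl
      have m1 : evM (x0, 0) (Units.map (blk1 R) (uU j ^ κ)).1 = 1 := by
        change evM _ (fromBlocks (uU j ^ κ).1 0 0 1) = 1
        rw [evM_blocks, Units.val_pow_eq_pow_val, map_pow, evM_u, map_one, u1, one_pow,
          fromBlocks_one]
      have m2 : evM (x0, 0) (cU (Y0 D R)).1 = fromBlocks 1 0 0 (-1) := evM_cst _ _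
      rw [g1, v1, m1, m2]
      simp [fromBlocks_multiply]
    rw [this, trace_one, hN]; simp
  · rw [ev_Jac κ (fun j => (φ j).1) h]
    refine Finset.prod_nonneg fun j _ => ?_
    rw [det_Tm _ _ _ (hL _)]
    exact mul_nonneg (mul_nonneg (det_Lm _ _) (pow_nonneg (mul_star_self_nonneg _) _))
      (pow_nonneg (mul_star_self_nonneg _) _)
  · rw [ev_Jac κ (fun j => (φ j).1) h]
    refine Finset.prod_ne_zero_iff.mpr fun j _ => ?_
    rw [det_Tm _ _ _ (hL _)]
    change (mat (Lm (1 : Matrix D D ℂ) (star 1) κ)).det *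
      ((1 : Matrix (D ⊕ R) (D ⊕ R) ℂ).toBlocks₁₁.det *
        star (1 : Matrix (D ⊕ R) (D ⊕ R) ℂ).toBlocks₁₁.det) ^ _ *
      ((-1 - 1 : Matrix R R ℂ).det * star (-1 - 1 : Matrix R R ℂ).det) ^ _ ≠ 0
    have e1 : mat (Lm (1 : Matrix D D ℂ) (star 1) κ) = (κ : ℂ) • 1 := by
      rw [← mat_id]; ext a k; simp [mat, Lm]
    have e2 : (-1 - 1 : Matrix R R ℂ) = (-2 : ℂ) • 1 := by
      ext a k; simp [one_apply]; split_ifs <;> norm_num
    rw [e1, e2, ← fromBlocks_one, toBlocks_fromBlocks₁₁, det_smul, det_smul]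
    simp [hκ]
  · have := invariance (fun j => (φ j).1) (fun j => (φ j).2) c p
    simpa only [map_mul, map_pow, hb1] using this

end Vale.Agent.P174
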