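import Mathlib

/-! The trace logarithm of `1 - r W` and its monotonicity along involutions. -/

namespace Vale.Agent.P174

open Filter Topology

set_option linter.unusedSectionVars false

variable {A : Type*} [Ring A] [Algebra ℂ A] [StarRing A] [StarModule ℂ A]

/-- A positive trace. -/
structure IsTr (τ : A →ₗ[ℂ] ℂ) : Prop where
  comm : ∀ x y, τ (x * y) = τ (y * x)
  star : ∀ x, τ (star x) = star (τ x)
  pos : ∀ x, 0 ≤ (τ (Star.star x * x)).re

/-- The trace of the logarithm of `1 - r W`. -/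
noncomputable def LL (τ : A →ₗ[ℂ] ℂ) (r : ℝ) (W : A) : ℂ :=
  - ∑' m : ℕ, (r : ℂ) ^ m / m * τ (W ^ m)

variable {τ : A →ₗ[ℂ] ℂ}

theorem IsTr.cs (h : IsTr τ) (x y : A) :
    ‖τ (Star.star x * y)‖ ≤ ((τ (Star.star x * x)).re + (τ (Star.star y * y)).re) / 2 := by
  obtain ⟨u, hu, hu'⟩ := Complex.exists_norm_eq_mul_self (τ (Star.star x * y))
  have h1 := h.pos (x - u • y)
  have h2 : τ (Star.star y * x) = Star.star (τ (Star.star x * y)) := by
    rw [← h.star, star_mul, star_star]
  have h3 : u * Star.star u = 1 := by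
    rw [RCLike.star_def, Complex.mul_conj, Complex.normSq_eq_norm_sq, hu]; simp
  simp only [star_sub, star_smul, sub_mul, mul_sub, map_sub, smul_mul_assoc, mul_smul_comm,
    map_smul, smul_eq_mul, h2, ← star_mul', ← hu', ← mul_assoc, h3, one_mul] at h1
  simp only [Complex.sub_re, RCLike.star_def, Complex.conj_re, Complex.ofReal_re] at h1
  linarith

theorem IsTr.bound (h : IsTr τ) {P V : A} (hP : Star.star P = P) (hP2 : P * P = P)
    (hV : V ∈ unitary A) : ‖τ (P * V)‖ ≤ (τ P).re := by
  have h1 := h.cs P (V * P)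
  rw [star_mul, hP, hP2, mul_assoc P, ← mul_assoc (Star.star V), hV.1, one_mul, hP2,
    ← mul_assoc, h.comm, ← mul_assoc, hP2] at h1
  linarith

theorem IsTr.summable (h : IsTr τ) {P V : A} (hP : Star.star P = P) (hP2 : P * P = P)
    (hV : V ∈ unitary A) {r : ℝ} (h0 : 0 ≤ r) (h1 : r < 1) :
    Summable fun m : ℕ => (r : ℂ) ^ m * τ (P * V ^ m) := by
  refine Summable.of_norm_bounded ((summable_geometric_of_lt_one h0 h1).mul_right (τ P).re)
    fun m => ?_
  rw [norm_mul, norm_pow, Complex.norm_real, Real.norm_of_nonneg h0]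
  exact mul_le_mul_of_nonneg_left (h.bound hP hP2 (pow_mem hV m)) (pow_nonneg h0 m)

theorem IsTr.poisson (h : IsTr τ) {P V : A} (hP : Star.star P = P) (hP2 : P * P = P)
    (hV : V ∈ unitary A) {r : ℝ} (h0 : 0 ≤ r) (h1 : r < 1) :
    (τ P).re ≤ 2 * (∑' m : ℕ, (r : ℂ) ^ m * τ (P * V ^ m)).re := by
  set x : ℕ → A := fun n => ∑ m ∈ Finset.range n, (r : ℂ) ^ m • (V ^ m * P) with hx
  have hrec : ∀ n, x (n + 1) - P = (r : ℂ) • (V * x n) := by
    intro n
    simp only [hx, Finset.sum_range_succ', pow_zero, one_mul, one_smul, add_sub_cancel_right,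
      Finset.mul_sum, Finset.smul_sum, mul_smul_comm, smul_smul, pow_succ', mul_assoc]
  set a : ℕ → ℝ := fun n => (τ (Star.star (x n) * x n)).re with ha
  set b : ℕ → ℝ := fun n => 2 * (∑ m ∈ Finset.range n, (r : ℂ) ^ m * τ (P * V ^ m)).re - (τ P).re
    with hb
  have hPx : ∀ n, τ (P * x n) = ∑ m ∈ Finset.range n, (r : ℂ) ^ m * τ (P * V ^ m) := by
    intro n
    simp only [hx, Finset.mul_sum, map_sum, mul_smul_comm, map_smul, smul_eq_mul]
    refine Finset.sum_congr rfl fun m _ => ?_
    rw [← mul_assoc P, h.comm, ← mul_assoc P, hP2]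
  have hab : ∀ n, a (n + 1) = r ^ 2 * a n + b (n + 1) := by
    intro n
    have e := congrArg (fun y => (τ (Star.star y * y)).re) (hrec n)
    have e2 : τ (Star.star (x (n + 1)) * P) = Star.star (τ (P * x (n + 1))) := by
      rw [← h.star, star_mul, hP]
    simp only [star_sub, hP, sub_mul, mul_sub, map_sub, hP2, star_smul, star_mul, smul_mul_assoc,
      mul_smul_comm, map_smul, e2, hPx] at e
    rw [mul_assoc, ← mul_assoc (Star.star V), hV.1, one_mul] at e
    simp only [Complex.sub_re, RCLike.star_def, Complex.conj_re, Complex.conj_ofReal, smul_eq_mul,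
      Complex.re_ofReal_mul] at e
    simp only [ha, hb]
    linarith
  have hlim : Tendsto b atTop (𝓝 (2 * (∑' m : ℕ, (r : ℂ) ^ m * τ (P * V ^ m)).re - (τ P).re)) :=
    (((Complex.continuous_re.tendsto _).comp
      (h.summable hP hP2 hV h0 h1).hasSum.tendsto_sum_nat).const_mul 2).sub_const _
  by_contra hneg
  set β := 2 * (∑' m : ℕ, (r : ℂ) ^ m * τ (P * V ^ m)).re - (τ P).re with hβ
  have hβ0 : β < 0 := by linarith
  obtain ⟨N, hN⟩ := eventually_atTop.mp (hlim.eventually (gt_mem_nhds (by linarith : β < β / 2)))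
  have ha0 : ∀ n, 0 ≤ a n := fun n => h.pos _
  have hk : ∀ k : ℕ, a (N + k) ≤ a N + k * (β / 2) := by
    intro k
    induction k with
    | zero => simp
    | succ k ih =>
      have := hN (N + k + 1) (by omega)
      have h2 : r ^ 2 * a (N + k) ≤ a (N + k) :=
        mul_le_of_le_one_left (ha0 _) (pow_le_one₀ h0 h1.le)
      rw [← add_assoc, hab]; push_cast; linarith
  obtain ⟨k, hk'⟩ := exists_nat_gt (a N / (-(β / 2)))
  rw [div_lt_iff₀ (by linarith)] at hk'
  linarith [hk k, ha0 (N + k)]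

/-- Formal derivative of powers. -/
def dPow (W B : A) : ℕ → A
  | 0 => 0
  | m + 1 => dPow W B m * W + W ^ m * B

theorem IsTr.dPow_tr (h : IsTr τ) (W B : A) (m : ℕ) :
    τ (dPow W B (m + 1)) = (m + 1 : ℕ) * τ (B * W ^ m) := by
  have : ∀ m k, τ (dPow W B m * W ^ (k + 1)) = m * τ (B * W ^ (m + k)) := by
    intro m
    induction m with
    | zero => simp [dPow]
    | succ m ih =>
      intro k
      rw [dPow, add_mul, map_add, mul_assoc, ← pow_succ', ih, mul_assoc (W ^ m), h.comm (W ^ m),
        mul_assoc B, ← pow_add]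
      rw [show k + 1 + m = m + (k + 1) by ring, show m + 1 + k = m + (k + 1) by ring]
      push_cast; ring
  have h1 := this m 0
  rw [zero_add, pow_one, add_zero] at h1
  rw [dPow, map_add, h1, h.comm (W ^ m)]; push_cast; ring

omit [StarRing A] [StarModule ℂ A] in
theorem hasDeriv_pow (τ : A →ₗ[ℂ] ℂ) (X B : A) (z : ℝ → ℂ) (z' : ℂ) (s : ℝ)
    (hz : HasDerivAt z z' s) (m : ℕ) (C : A) :
    HasDerivAt (fun s => τ ((X + z s • B) ^ m * C)) (z' * τ (dPow (X + z s • B) B m * C)) s := by
  induction m generalizing C with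
  | zero => simpa [dPow] using hasDerivAt_const s (τ C)
  | succ m ih =>
    have e : (fun s => τ ((X + z s • B) ^ (m + 1) * C)) = fun s =>
        τ ((X + z s • B) ^ m * (X * C)) + z s * τ ((X + z s • B) ^ m * (B * C)) := by
      funext s
      rw [pow_succ, mul_assoc, add_mul, mul_add, map_add, smul_mul_assoc, mul_smul_comm, map_smul,
        smul_eq_mul]
    rw [e]
    refine ((ih (X * C)).add (hz.mul (ih (B * C)))).congr_deriv ?_
    simp only [dPow, add_mul, mul_add, map_add, mul_assoc, smul_mul_assoc, mul_smul_comm, map_smul,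
      smul_eq_mul]
    ring

theorem IsTr.step (h : IsTr τ) {T W : A} (hT : Star.star T = T) (hT2 : T * T = 1)
    (hW : W ∈ unitary A) {r : ℝ} (h0 : 0 ≤ r) (h1 : r < 1) :
    (LL τ r (T * W)).im ≤ (LL τ r W).im + Real.pi / 2 * ((τ 1 - τ T).re / 2) := by
  set P : A := (1 / 2 : ℂ) • (1 - T) with hPd
  have hP : Star.star P = P := by simp [hPd, hT]
  have hP2 : P * P = P := by
    rw [hPd, smul_mul_smul_comm, sub_mul, mul_sub, mul_sub, hT2]
    simp only [mul_one, one_mul]
    module
  have hτP : (τ P).re = (τ 1 - τ T).re / 2 := by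
    rw [hPd, map_smul, map_sub]; simp; ring
  set z : ℝ → ℂ := fun s => Complex.exp (Real.pi * Complex.I * s) with hz
  have hz' : ∀ s, HasDerivAt z (z s * (Real.pi * Complex.I * 1)) s := fun s =>
    HasDerivAt.cexp (HasDerivAt.const_mul _ (Complex.ofRealCLM.hasDerivAt (x := s)))
  have hzz : ∀ s, Star.star (z s) * z s = 1 := fun s => by
    simp only [hz, RCLike.star_def, ← Complex.exp_conj, ← Complex.exp_add]; simp
  set V : ℝ → A := fun s => (W - P * W) + z s • (P * W) with hV
  have hVu : ∀ s, V s ∈ unitary A := by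
    intro s
    have : V s = (1 - P + z s • P) * W := by simp only [hV, add_mul, sub_mul, one_mul, smul_mul_assoc]
    rw [this]
    refine mul_mem ?_ hW
    constructor
    · simp only [star_add, star_sub, star_one, star_smul, hP, add_mul, mul_add, sub_mul, mul_sub,
        smul_mul_assoc, mul_smul_comm, hP2, mul_one, one_mul, smul_sub, smul_add, smul_smul]
      rw [mul_comm (z s), hzz]; module
    · simp only [star_add, star_sub, star_one, star_smul, hP, add_mul, mul_add, sub_mul, mul_sub,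
        smul_mul_assoc, mul_smul_comm, hP2, mul_one, one_mul, smul_sub, smul_add, smul_smul]
      rw [hzz]; module
  have hPV : ∀ s, P * V s = z s • (P * W) := by
    intro s; simp only [hV, mul_add, mul_sub, mul_smul_comm, ← mul_assoc, hP2, sub_self, zero_add]
  set g' : ℕ → ℝ → ℂ := fun m s =>
    if m = 0 then 0 else Real.pi * Complex.I * ((r : ℂ) ^ m * τ (P * V s ^ m)) with hg'
  have hg : ∀ (m : ℕ) s, HasDerivAt (fun s => (r : ℂ) ^ m / m * τ (V s ^ m)) (g' m s) s := by
    intro m s
    have := (hasDeriv_pow τ (W - P * W) (P * W) z _ s (hz' s) m 1).const_mul ((r : ℂ) ^ m / m)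
    simp only [mul_one] at this
    refine this.congr_deriv ?_
    cases m with
    | zero => simp [hg']
    | succ m =>
      have hm : ((m + 1 : ℕ) : ℂ) ≠ 0 := by exact_mod_cast Nat.succ_ne_zero m
      rw [h.dPow_tr]
      simp only [hg', Nat.succ_ne_zero, if_false]
      rw [pow_succ' (V s), ← mul_assoc P, hPV, smul_mul_assoc (z s), map_smul, smul_eq_mul]
      change _ * (_ * (_ * τ (P * W * V s ^ m))) = _
      field_simp
  have hb : ∀ m s, ‖g' m s‖ ≤ Real.pi * (r ^ m * (τ P).re) := by
    intro m s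
    have := h.bound hP hP2 (pow_mem (hVu s) m)
    simp only [hg']
    split_ifs
    · rw [norm_zero]
      exact mul_nonneg Real.pi_pos.le (mul_nonneg (pow_nonneg h0 m) ((norm_nonneg _).trans this))
    · simp only [norm_mul, norm_pow, Complex.norm_real, Complex.norm_I, mul_one,
        Real.norm_of_nonneg h0, Real.norm_of_nonneg Real.pi_pos.le]
      gcongr
  have hs0 : Summable fun m : ℕ => (r : ℂ) ^ m / m * τ (V 0 ^ m) := by
    refine Summable.of_norm_bounded ((summable_geometric_of_lt_one h0 h1).mul_right (τ 1).re)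
      fun m => ?_
    have := h.bound (star_one A) (one_mul 1) (pow_mem (hVu 0) m)
    rw [one_mul] at this
    rw [norm_mul, norm_div, norm_pow, Complex.norm_real, Real.norm_of_nonneg h0, Complex.norm_natCast]
    refine mul_le_mul ?_ this (norm_nonneg _) (pow_nonneg h0 m)
    rcases Nat.eq_zero_or_pos m with rfl | hm
    · simp
    · exact div_le_self (pow_nonneg h0 m) (by exact_mod_cast hm)
  have hd := hasDerivAt_tsum (((summable_geometric_of_lt_one h0 h1).mul_right
    (τ P).re).mul_left Real.pi) hg hb hs0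
  have hsum : ∀ s, ∑' m, g' m s =
      Real.pi * Complex.I * (∑' m : ℕ, (r : ℂ) ^ m * τ (P * V s ^ m) - τ P) := by
    intro s
    have hs := h.summable hP hP2 (hVu s) h0 h1
    have hs' : Summable fun m => g' m s := Summable.of_norm_bounded
      (((summable_geometric_of_lt_one h0 h1).mul_right (τ P).re).mul_left Real.pi) fun m => hb m s
    rw [hs.tsum_eq_zero_add, hs'.tsum_eq_zero_add]
    simp only [hg', Nat.succ_ne_zero, if_false, if_true, tsum_mul_left]
    simp
  have hf : ∀ s, HasDerivAt (fun s => (LL τ r (V s)).im - Real.pi / 2 * (τ P).re * s)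
      ((-∑' m, g' m s).im - Real.pi / 2 * (τ P).re * 1) s := fun s =>
    (Complex.imCLM.hasFDerivAt.comp_hasDerivAt s (hd s).neg).sub
      ((hasDerivAt_id s).const_mul _)
  have hanti := antitone_of_hasDerivAt_nonpos hf (fun s => by
    have := h.poisson hP hP2 (hVu s) h0 h1
    simp only [hsum, Pi.zero_apply, Complex.neg_im, mul_assoc, Complex.im_ofReal_mul,
      Complex.I_mul_im, Complex.sub_re]
    nlinarith [Real.pi_pos])
  have := hanti (zero_le_one' ℝ)
  have v0 : V 0 = W := by simp [hV, hz]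
  have v1 : V 1 = T * W := by
    simp only [hV, hz, Complex.ofReal_one, mul_one, Complex.exp_pi_mul_I, hPd, smul_mul_assoc,
      sub_mul, one_mul]
    module
  simp only [v0, v1] at this
  rw [← hτP]; linarith

theorem IsTr.LL_conj (h : IsTr τ) (r : ℝ) {u : A} (hu : u ∈ unitary A) (W : A) :
    LL τ r (u * W * Star.star u) = LL τ r W := by
  have : ∀ m : ℕ, (u * W * Star.star u) ^ m = u * W ^ m * Star.star u := by
    intro m
    induction m with
    | zero => simp [hu.2]
    | succ m ih =>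
      rw [pow_succ, ih, pow_succ]
      simp only [mul_assoc]
      rw [← mul_assoc (Star.star u), hu.1, one_mul]
  simp only [LL, this, h.comm (u * _), ← mul_assoc, hu.1, one_mul]

theorem IsTr.LL_star (h : IsTr τ) (r : ℝ) (W : A) :
    (LL τ r (Star.star W)).im = - (LL τ r W).im := by
  have : LL τ r (Star.star W) = Star.star (LL τ r W) := by
    simp only [LL, star_neg, tsum_star, ← star_pow, h.star]
    simp
  rw [this]; simp

/-- The cost of a unitary. -/
structure Cost (τ : A →ₗ[ℂ] ℂ) (x : A) (c : ℝ) : Prop where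
  mem : x ∈ unitary A
  le : ∀ W ∈ unitary A, ∀ r : ℝ, 0 ≤ r → r < 1 →
    (LL τ r (x * W)).im ≤ (LL τ r W).im + Real.pi / 2 * c
  le' : ∀ W ∈ unitary A, ∀ r : ℝ, 0 ≤ r → r < 1 →
    (LL τ r (star x * W)).im ≤ (LL τ r W).im + Real.pi / 2 * c

theorem Cost.one : Cost τ 1 0 := ⟨one_mem _, by simp, by simp⟩

theorem Cost.mul {x y : A} {c d : ℝ} (hx : Cost τ x c) (hy : Cost τ y d) :
    Cost τ (x * y) (c + d) where
  mem := mul_mem hx.mem hy.mem
  le W hW r h0 h1 := by
    have := hx.le _ (mul_mem hy.mem hW) r h0 h1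
    have := hy.le _ hW r h0 h1
    rw [mul_assoc]; linarith
  le' W hW r h0 h1 := by
    have := hy.le' _ (mul_mem (Unitary.star_mem hx.mem) hW) r h0 h1
    have := hx.le' _ hW r h0 h1
    rw [star_mul, mul_assoc]; linarith

theorem Cost.mono {x : A} {c d : ℝ} (hx : Cost τ x c) (h : c ≤ d) : Cost τ x d where
  mem := hx.mem
  le W hW r h0 h1 := by nlinarith [hx.le W hW r h0 h1, Real.pi_pos]
  le' W hW r h0 h1 := by nlinarith [hx.le' W hW r h0 h1, Real.pi_pos]

theorem IsTr.cost (h : IsTr τ) {T : A} (hT : Star.star T = T) (hT2 : T * T = 1) :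
    Cost τ T ((τ 1 - τ T).re / 2) :=
  ⟨⟨by rw [hT, hT2], by rw [hT, hT2]⟩, fun _ hW _ h0 h1 => h.step hT hT2 hW h0 h1,
    fun _ hW _ h0 h1 => by rw [hT]; exact h.step hT hT2 hW h0 h1⟩

theorem Cost.conj (h : IsTr τ) {x u : A} {c : ℝ} (hx : Cost τ x c) (hu : u ∈ unitary A) :
    Cost τ (u * x * star u) c := by
  have hu' := Unitary.star_mem hu
  have key : ∀ y W, u * y * star u * W = u * (y * (star u * W * star (star u))) * star u := by
    intro y W
    simp only [star_star, mul_assoc, hu.2, mul_one]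
  refine ⟨mul_mem (mul_mem hu hx.mem) hu', fun W hW r h0 h1 => ?_, fun W hW r h0 h1 => ?_⟩
  · rw [key, h.LL_conj r hu, ← h.LL_conj r hu' W]
    exact hx.le _ (mul_mem (mul_mem hu' hW) (Unitary.star_mem hu')) r h0 h1
  · rw [star_mul, star_mul, star_star, ← mul_assoc u, key, h.LL_conj r hu, ← h.LL_conj r hu' W]
    exact hx.le' _ (mul_mem (mul_mem hu' hW) (Unitary.star_mem hu')) r h0 h1

end Vale.Agent.P174
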