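import Vale.Agent.P174.Core

/-! The picture attached to a product of conjugates of relators. -/

namespace Vale.Agent.P174

open Equiv Monoid

set_option linter.unusedSectionVars false
set_option linter.unusedSimpArgs false

variable {G : Type*} [Group G] {ι : Type}

theorem cy_map {I K : Type} [Fintype I] [DecidableEq I] [Fintype K] [DecidableEq K] {f : K → I}
    (hf : Function.Injective f) (l : List K) (x : K) : cy (l.map f) (f x) = f (cy l x) := by
  have h : ∀ (l : List K) (x : K), (l.map f).formPerm (f x) = f (l.formPerm x) := by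
    intro l
    induction l with
    | nil => simp
    | cons a l ih =>
      intro x
      rcases l with _ | ⟨b, l⟩
      · simp
      · rw [List.map_cons] at ih
        rw [List.map_cons, List.map_cons, List.formPerm_cons_cons, List.formPerm_cons_cons,
          Perm.mul_apply, Perm.mul_apply, ih, hf.map_swap]
  rw [cy, Perm.inv_eq_iff_eq, h, cy]; simp

theorem Low.nest {I α : Type} [Fintype I] [DecidableEq I] {s0 Φ0 : Perm I} (t f : α → I)
    (h1 : ∀ a, s0 (t a) = f a) (h2 : ∀ a, s0 (f a) = t a) (h3 : ∀ a, Φ0 (t a) = t a)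
    (h4 : ∀ a, Φ0 (f a) = f a) {l' : List I} {n' : ℕ} (h : Low s0 Φ0 l' n') (ps : List α) :
    Low s0 Φ0 (ps.map t ++ l' ++ ps.reverse.map f) (n' + ps.length) := by
  induction ps with
  | nil => simpa using h
  | cons a ps ih =>
    have := Low.arc (h1 a) (h2 a) (h3 a) (h4 a) ih Low.nil
    simpa [add_assoc] using this

theorem Low.nest' {I α : Type} [Fintype I] [DecidableEq I] {s0 Φ0 : Perm I} (t f : α → I)
    (h1 : ∀ a, s0 (t a) = f a) (h2 : ∀ a, s0 (f a) = t a) (h3 : ∀ a, Φ0 (t a) = t a)
    (h4 : ∀ a, Φ0 (f a) = f a) {l' l : List I} {n' n : ℕ} (h : Low s0 Φ0 l' n')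
    (h' : Low s0 Φ0 l n) (ps : List α) (hps : ps ≠ []) :
    Low s0 Φ0 (ps.map t ++ l' ++ ps.reverse.map f ++ l) (n' + ps.length + n) := by
  obtain ⟨a, ps, rfl⟩ := List.exists_cons_of_ne_nil hps
  have := Low.arc (h1 a) (h2 a) (h3 a) (h4 a) (h.nest t f h1 h2 h3 h4 ps) h'
  convert this using 1
  · simp
  · simp only [List.length_cons]; ring

/-- Value of a word. -/
def evW (l : List (Lt G ι)) : Coprod G (FreeGroup ι) := (l.map evL).prod

/-- Letter or its inverse. -/
def sgL (b : Bool) (x : Lt G ι) : Lt G ι := if b then x else invL x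

/-- Sign. -/
def sgZ (b : Bool) : ℤ := if b then 1 else -1

/-- Oriented enumeration. -/
def orn (b : Bool) (n : ℕ) : List (Fin n) := if b then List.finRange n else (List.finRange n).reverse

theorem mem_orn (b : Bool) {n : ℕ} (p : Fin n) : p ∈ orn b n := by cases b <;> simp [orn]

theorem nodup_orn (b : Bool) (n : ℕ) : (orn b n).Nodup := by
  cases b <;> simp [orn, List.nodup_finRange]

theorem prod_orn (b : Bool) (w : List (Lt G ι)) :
    ((orn b w.length).map fun p => evL (sgL b (w.get p))).prod = evW w ^ sgZ b := by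
  have : evW w = ((List.finRange w.length).map fun p => evL (w.get p)).prod := by
    conv_lhs => rw [evW, ← List.map_get_finRange w, List.map_map]
    rfl
  cases b
  · simp only [orn, sgL, sgZ, Bool.false_eq_true, if_false, zpow_neg, zpow_one, this,
      List.prod_inv_reverse, evL_invL, List.map_reverse, List.map_map]
    rfl
  · simp [orn, sgL, sgZ, this]

/-- Flip of the orientation. -/
def flp (α : Type) : Perm (α × Bool) := Equiv.prodCongr (Equiv.refl α) ⟨not, not, Bool.not_not,
  Bool.not_not⟩

@[simp] theorem flp_apply {α : Type} (a : α) (b : Bool) : flp α (a, b) = (a, !b) := rfl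

/-- Positions in a family of words. -/
abbrev Ps {J : Type} (w : J → List (Lt G ι)) : Type := Σ i : J, Fin (w i).length

set_option synthInstance.maxSize 1024 in
theorem picture [DecidableEq ι] {J D : Type} [Fintype J] [DecidableEq J] [Fintype D] [DecidableEq D] [Nonempty J]
    (φ : Coprod G (FreeGroup ι) →* Multiplicative (ι → ℤ)) (hφ1 : ∀ g, φ (Coprod.inl g) = 1)
    (hφ2 : ∀ j, φ (Coprod.inr (FreeGroup.of j)) = Multiplicative.ofAdd (Pi.single j 1))
    (w : J → List (Lt G ι)) (hw : ∀ i, w i ≠ []) (σ : J → ι) (hσ : Function.Injective σ)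
    (hdet : (Matrix.of fun i j => (φ (evW (w i))).toAdd (σ j)).det ≠ 0)
    (ks : List ((J × Bool) × D)) (hks : ks.Nodup) (hks' : ∀ k, k ∈ ks)
    (u : (J × Bool) × D → List (Lt G ι)) (hu : ∀ k, u k ≠ []) (g : G)
    (hg : (ks.map fun k => evW (u k) * evW (w k.1.1) ^ sgZ k.1.2 * (evW (u k))⁻¹).prod =
      Coprod.inl g) : g = 1 := by
  let r : Perm (Ps w) := Equiv.sigmaCongrRight fun i => cy (List.finRange (w i).length)
  let rot : Perm ((Ps w) × Bool) := Equiv.prodCongrLeft fun s => if s then r else r⁻¹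
  let fc : ∀ k : (J × Bool) × D, Fin (w k.1.1).length →
      (D × (Ps w × Bool)) ⊕ Option (Ps u × Bool) := fun k p =>
    .inl (k.2, ⟨k.1.1, p⟩, k.1.2)
  let st : ∀ (k : (J × Bool) × D) (b : Bool), Fin (u k).length →
      (D × (Ps w × Bool)) ⊕ Option (Ps u × Bool) := fun k b q =>
    .inr (some (⟨k, q⟩, b))
  let blk : (J × Bool) × D → List ((D × (Ps w × Bool)) ⊕ Option (Ps u × Bool)) := fun k =>
    (List.finRange _).map (st k true) ++
    (orn k.1.2 _).map (fc k) ++ (List.finRange _).reverse.map (st k false)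
  have fci : ∀ k, Function.Injective (fc k) := fun k p q h => by simpa [fc] using h
  have sti : ∀ k b, Function.Injective (st k b) := fun k b p q h => by simpa [st] using h
  obtain ⟨i0⟩ := ‹Nonempty J›
  refine core (D := D) (fun β : (Ps w) × Bool => β.1.1) Prod.snd (flp _) rot
    (Equiv.optionCongr (flp (Ps u))) none (fun β => sgL β.2 ((w β.1.1).get β.1.2))
    (fun s => s.elim (.inl 1) fun s => sgL s.2 ((u s.1.1).get s.1.2)) σ hσ ?_ (fun _ => rfl)
    (fun _ => rfl) ?_ ?_ ?_ (fun _ => rfl) ?_ ?_ ?_ rfl rfl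
    (⟨i0, ⟨0, List.length_pos_iff.mpr (hw i0)⟩⟩, true) ?_ (ks.flatMap blk) ?_ ?_
    (ks.map fun k => 1 + (u k).length).sum ?_ ?_ g ?_
  · ext1 ⟨x, b⟩; simp
  · rintro ⟨x, _ | _⟩ <;> simp [sgL, invL_invL]
  · ext1 ⟨x, _ | _⟩ <;> simp [rot]
  · rintro ⟨⟨i, p⟩, _ | _⟩ <;> rfl
  · ext1 (_ | ⟨x, b⟩) <;> simp
  · rintro (_ | ⟨x, _ | _⟩)
    · simp [invL]
    all_goals simp [sgL, invL_invL]
  · rintro (_ | ⟨x, b⟩) <;> simp
  · classical
    convert hdet using 5 with i j
    have e1 : ∀ (x : Lt G ι) (t : ι), (φ (evL x)).toAdd t = (if x = .inr (t, true) then 1 else 0) +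
        if invL x = .inr (t, true) then -1 else 0 := by
      rintro (k | ⟨j, _ | _⟩) t
      · simp [evL, hφ1, invL]
      · simp [evL, hφ2, invL, Pi.single_apply, eq_comm]; split_ifs <;> simp
      · simp [evL, hφ2, invL, Pi.single_apply, eq_comm]
    have e2 := prod_orn true (w i)
    rw [sgZ, if_pos rfl, zpow_one] at e2
    rw [← e2, Fintype.sum_prod_type, Fintype.sum_sigma, Finset.sum_eq_single i
      (fun i' _ h => by simp [h]) (by simp), map_list_prod, toAdd_list_sum, List.map_map,
      List.map_map, orn, if_pos rfl, ← Fin.sum_univ_def, Finset.sum_apply]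
    refine Finset.sum_congr rfl fun p _ => ?_
    simp [e1, sgL]
  · rw [List.nodup_cons, List.nodup_flatMap]
    refine ⟨by simp [blk, st, fc], fun k _ => ?_, hks.imp fun {k k'} hk x h1 h2 => hk ?_⟩
    · simp only [blk, List.nodup_append, List.nodup_map_iff (fci _), List.nodup_map_iff (sti _ _),
        nodup_orn, List.nodup_reverse, List.nodup_finRange]
      simp [st, fc]
    · simp only [blk, List.mem_append, List.mem_map] at h1 h2
      rcases h1 with (⟨p, _, rfl⟩ | ⟨p, _, rfl⟩) | ⟨p, _, rfl⟩ <;>
        rcases h2 with (⟨q, _, h⟩ | ⟨q, _, h⟩) | ⟨q, _, h⟩ <;>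
        simp [st, fc, Prod.ext_iff, Sigma.ext_iff] at h ⊢ <;> tauto
  · rintro (⟨d, ⟨i, p⟩, b⟩ | _ | ⟨⟨k, q⟩, b⟩)
    · refine List.mem_cons_of_mem _ (List.mem_flatMap.mpr ⟨((i, b), d), hks' _, ?_⟩)
      exact List.mem_append_left _ (List.mem_append_right _ (List.mem_map_of_mem (mem_orn _ p)))
    · exact List.mem_cons_self
    · refine List.mem_cons_of_mem _ (List.mem_flatMap.mpr ⟨k, hks' _, ?_⟩)
      cases b
      · exact List.mem_append_right _ (List.mem_map_of_mem (by simp))
      · exact List.mem_append_left _ (List.mem_append_left _ (List.mem_map_of_mem (by simp)))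
  · generalize ks = ks'
    induction ks' with
    | nil => exact Low.nil
    | cons k ks' ih =>
      have hf : Low (lf D 1 (Equiv.optionCongr (flp (Ps u)))) (lf D rot 1)
          ((orn k.1.2 _).map (fc k)) 1 := by
        obtain ⟨f, fs, e⟩ := List.exists_cons_of_ne_nil (l := (orn k.1.2 _).map (fc k))
          (List.ne_nil_of_mem (List.mem_map_of_mem
            (mem_orn _ ⟨0, List.length_pos_iff.mpr (hw _)⟩)))
        rw [e]
        refine Low.face fun x hx => ?_
        rw [← e] at hx ⊢
        obtain ⟨p, _, rfl⟩ := List.mem_map.mp hx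
        refine ⟨rfl, ?_⟩
        rw [cy_map (fci k)]
        obtain ⟨⟨i, _ | _⟩, d⟩ := k
        · simp only [orn, Bool.false_eq_true, if_false, cy, List.formPerm_reverse]; rfl
        · rfl
      have := hf.nest' (st k true) (st k false) (fun _ => rfl) (fun _ => rfl) (fun _ => rfl)
        (fun _ => rfl) ih (List.finRange _) (by simpa using hu k)
      simpa [blk] using this
  · have : ks.toFinset = Finset.univ :=
      Finset.eq_univ_of_forall fun i => List.mem_toFinset.mpr (hks' i)
    rw [← List.sum_toFinset _ hks, this, Finset.sum_add_distrib]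
    simp; ring_nf; omega
  · rw [← hg]
    generalize ks = ks'
    induction ks' with
    | nil => rfl
    | cons k ks' ih =>
      rw [List.flatMap_cons, List.map_append, List.prod_append, ih, List.map_cons, List.prod_cons]
      congr 1
      have e1 := prod_orn true (u k)
      have e2 := prod_orn false (u k)
      simp only [sgZ, if_true, zpow_one, Bool.false_eq_true, if_false, zpow_neg] at e1 e2
      rw [← e2, ← prod_orn, ← e1]
      simp only [blk, List.map_append, List.prod_append, List.map_map]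
      rfl

end Vale.Agent.P174
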