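import Vale.Agent.P174.Haar

/-! Spectral decomposition of unitary matrices and the sign of the model Jacobian. -/

namespace Vale.Agent.P174

open Matrix Kronecker
open scoped ComplexOrder

set_option linter.unusedSectionVars false

variable {m : Type} [Fintype m] [DecidableEq m]

theorem exists_circle_notMem (s : Set ℂ) (hs : s.Finite) : ∃ z : ℂ, ‖z‖ = 1 ∧ z ∉ s := by
  have hinf : ((fun t : ℝ => Complex.exp (t * Complex.I)) '' Set.Ioo 0 1).Infinite := by
    refine (Set.Ioo_infinite (zero_lt_one' ℝ)).image fun a ha b hb h => ?_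
    have h1 := congrArg Complex.arg h
    have hpi := Real.pi_gt_three
    simp only [Complex.arg_exp_mul_I] at h1
    rwa [(toIocMod_eq_self _).mpr ⟨by linarith [ha.1], by linarith [ha.2]⟩,
      (toIocMod_eq_self _).mpr ⟨by linarith [hb.1], by linarith [hb.2]⟩] at h1
  obtain ⟨z, ⟨w, -, rfl⟩, hz⟩ := hinf.exists_notMem_finite hs
  exact ⟨_, Complex.norm_exp_ofReal_mul_I w, hz⟩

theorem unitary_diag (c : unitaryGroup m ℂ) : ∃ (U : unitaryGroup m ℂ) (z : m → ℂ),
    (∀ i, ‖z i‖ = 1) ∧ c.1 = U.1 * diagonal z * star U.1 := by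
  obtain ⟨ζ, hζ, hs⟩ := exists_circle_notMem _ (Matrix.finite_spectrum c.1)
  have hζ2 : star ζ * ζ = 1 := by
    rw [RCLike.star_def, mul_comm, Complex.mul_conj, Complex.normSq_eq_norm_sq, hζ]; simp
  set W : Matrix m m ℂ := star ζ • c.1 with hW
  have hWu : star W * W = 1 := by
    rw [hW, star_smul, star_star, smul_mul_smul_comm, mul_comm ζ, hζ2, one_smul]; exact c.2.1
  have hu : IsUnit (1 - W) := by
    rw [spectrum.notMem_iff, Algebra.algebraMap_eq_smul_one] at hs
    have : 1 - W = star ζ • (ζ • (1 : Matrix m m ℂ) - c.1) := by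
      rw [smul_sub, smul_smul, hζ2, one_smul]
    rw [this]
    exact hs.smul (Units.mk0 (star ζ) (left_ne_zero_of_mul_eq_one hζ2))
  obtain ⟨u, hu⟩ := hu
  set H : Matrix m m ℂ := Complex.I • ((1 + W) * u⁻¹.1) with hH
  have h1 : H * (1 - W) = Complex.I • (1 + W) := by
    rw [hH, smul_mul_assoc, mul_assoc, ← hu, u.inv_mul, mul_one]
  have h2 : star (1 - W) * star H = -Complex.I • star (1 + W) := by
    rw [← star_mul, h1, star_smul]; simp
  have hherm : H.IsHermitian := by
    have e : star (1 - W) * (star H * (1 - W)) = star (1 - W) * (H * (1 - W)) := by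
      rw [← mul_assoc, h2, h1, star_sub, star_add, star_one, smul_mul_assoc, mul_smul_comm,
        neg_smul, ← smul_neg]
      congr 1
      simp only [add_mul, mul_sub, sub_mul, mul_add, hWu, mul_one, one_mul]
      abel
    rw [← hu] at e
    exact u.mul_left_inj.mp ((u.isUnit.star).mul_left_cancel e)
  obtain ⟨U, l, hU⟩ := herm_path hherm
  have hU1 : star U.1 * U.1 = 1 := U.2.1
  have hU2 : U.1 * star U.1 = 1 := U.2.2
  have h3 : (H + Complex.I • 1) * W = H - Complex.I • 1 := by
    rw [mul_sub, mul_one, smul_add] at h1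
    rw [add_mul, smul_mul_assoc Complex.I 1, one_mul, ← sub_eq_zero, ← neg_eq_zero, ← sub_eq_zero.mpr h1]
    abel
  have h4 : (diagonal (fun r => (l r : ℂ)) + Complex.I • 1) * (star U.1 * W * U.1) =
      diagonal (fun r => (l r : ℂ)) - Complex.I • 1 := by
    have e : ∀ a : ℂ, diagonal (fun r => (l r : ℂ)) + a • 1 = star U.1 * (H + a • 1) * U.1 := by
      intro a
      rw [hU, mul_add, add_mul, mul_smul_comm, mul_one, smul_mul_assoc, hU1]
      simp only [← mul_assoc, hU1, one_mul]
      rw [mul_assoc, hU1, mul_one]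
    rw [sub_eq_add_neg, ← neg_smul, e, e, neg_smul, ← sub_eq_add_neg, ← h3]
    simp only [mul_assoc]
    rw [← mul_assoc U.1, hU2, one_mul]
  have hne : ∀ i, (l i : ℂ) + Complex.I ≠ 0 := fun i h => by
    simpa using congrArg Complex.im h
  have h5 : star U.1 * W * U.1 = diagonal fun i => (l i - Complex.I) / (l i + Complex.I) := by
    ext i j
    have := congrFun (congrFun h4 i) j
    rw [smul_one_eq_diagonal, diagonal_add, diagonal_sub, diagonal_mul] at this
    rw [diagonal_apply] at this ⊢
    split_ifs at this ⊢ with h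
    · rw [eq_div_iff (hne i), mul_comm, this]
    · exact (mul_eq_zero.mp this).resolve_left (hne i)
  refine ⟨U, fun i => ζ * ((l i - Complex.I) / (l i + Complex.I)), fun i => ?_, ?_⟩
  · have : (l i : ℂ) - Complex.I = (starRingEnd ℂ) (l i + Complex.I) := by
      simp [sub_eq_add_neg]
    rw [norm_mul, hζ, norm_div, this, Complex.norm_conj, div_self (norm_ne_zero_iff.mpr (hne i)),
      one_mul]
  · have : (diagonal fun i => ζ * ((l i - Complex.I) / (l i + Complex.I))) =
        ζ • (star U.1 * W * U.1) := by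
      rw [h5, ← diagonal_smul]; rfl
    rw [this, mul_smul_comm, smul_mul_assoc]
    simp only [← mul_assoc, hU2, one_mul]
    rw [mul_assoc, hU2, mul_one, hW, smul_smul, mul_comm, hζ2, one_smul]

theorem unitary_path (c : unitaryGroup m ℂ) :
    ∃ (U : unitaryGroup m ℂ) (l : m → ℝ), c = upath U l 1 := by
  obtain ⟨U, z, hz, h⟩ := unitary_diag c
  refine ⟨U, fun i => (z i).arg, Subtype.ext ?_⟩
  rw [h]
  change _ = U.1 * diagonal _ * star U.1
  congr 3
  funext i
  have := Complex.norm_mul_exp_arg_mul_I (z i)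
  rw [hz i] at this
  rw [← this]
  simp [mul_comm]

theorem prod_pairs_nonneg (f : m × m → ℂ) (h1 : ∀ p q, f (q, p) = star (f (p, q)))
    (h2 : ∀ p, 0 ≤ f (p, p)) : 0 ≤ ∏ a, f a := by
  let : LinearOrder m := LinearOrder.lift' (Fintype.equivFin m) (Fintype.equivFin m).injective
  rw [← Finset.prod_filter_mul_prod_filter_not Finset.univ (fun a : m × m => a.1 = a.2),
    ← Finset.prod_filter_mul_prod_filter_not (Finset.univ.filter fun a : m × m => ¬ a.1 = a.2)
      (fun a : m × m => a.1 < a.2)]
  refine mul_nonneg (Finset.prod_nonneg fun a ha => ?_) ?_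
  · obtain ⟨p, q⟩ := a
    have : p = q := by simpa using ha
    subst this; exact h2 p
  · have : ∏ a ∈ (Finset.univ.filter fun a : m × m => ¬ a.1 = a.2).filter
        (fun a => ¬ a.1 < a.2), f a = star (∏ a ∈ (Finset.univ.filter
          fun a : m × m => ¬ a.1 = a.2).filter (fun a => a.1 < a.2), f a) := by
      rw [star_prod]
      refine Finset.prod_equiv (Equiv.prodComm m m) (fun a => ?_) (fun a _ => ?_)
      · simp only [Finset.mem_filter, Finset.mem_univ, true_and, Equiv.prodComm_apply,
          Prod.fst_swap, Prod.snd_swap, not_lt]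
        exact ⟨fun h => ⟨fun e => h.1 e.symm, lt_of_le_of_ne h.2 fun e => h.1 e.symm⟩,
          fun h => ⟨fun e => h.1 e.symm, h.2.le⟩⟩
      · exact h1 a.2 a.1
    rw [this]
    exact mul_star_self_nonneg _

/-- The matrix of a map of matrices (rows are inputs). -/
def mat {p q : Type} [DecidableEq p] [DecidableEq q] (F : Matrix p q ℂ → Matrix p q ℂ) :
    Matrix (p × q) (p × q) ℂ :=
  Matrix.of fun a k => F (single a.1 a.2 1) k.1 k.2

theorem mat_conj {p q : Type} [Fintype p] [Fintype q] [DecidableEq p] [DecidableEq q]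
    (F : Matrix p q ℂ → Matrix p q ℂ) (A : Matrix p p ℂ) (B : Matrix q q ℂ) :
    mat (fun X => A * F X * B) = mat F * (Aᵀ ⊗ₖ B) := by
  ext a k
  simp only [mat, of_apply, mul_apply, Fintype.sum_prod_type, kroneckerMap_apply, transpose_apply,
    Finset.sum_mul]
  rw [Finset.sum_comm]
  exact Finset.sum_congr rfl fun _ _ => Finset.sum_congr rfl fun _ _ => by ring

theorem mat_id {p q : Type} [DecidableEq p] [DecidableEq q] :
    mat (fun X : Matrix p q ℂ => X) = 1 := by
  ext a k
  simp [mat, single, one_apply, Prod.ext_iff]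

/-- Derivative of the power map. -/
def Lm (U Ui : Matrix m m ℂ) (κ : ℕ) (u : Matrix m m ℂ) : Matrix m m ℂ :=
  ∑ k ∈ Finset.range κ, U ^ k * u * Ui ^ k

theorem det_conj (g : Matrix m m ℂ) (gi : Matrix m m ℂ) (h : gi * g = 1) :
    (giᵀ ⊗ₖ g).det = 1 := by
  rw [det_kronecker, det_transpose, ← mul_pow, ← det_mul, h, det_one, one_pow]

theorem det_Lm (c : unitaryGroup m ℂ) (κ : ℕ) : 0 ≤ (mat (Lm c.1 (star c.1) κ)).det := by
  obtain ⟨U, z, hz, h⟩ := unitary_diag c
  have hU1 : star U.1 * U.1 = 1 := U.2.1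
  have hU2 : U.1 * star U.1 = 1 := U.2.2
  have hp : ∀ (w : m → ℂ) k, (U.1 * diagonal w * star U.1) ^ k =
      U.1 * diagonal (fun i => w i ^ k) * star U.1 := by
    intro w k
    induction k with
    | zero => simp [hU2]
    | succ k ih =>
      rw [pow_succ, ih]
      simp only [mul_assoc]
      rw [← mul_assoc (star U.1), hU1, one_mul, ← mul_assoc (diagonal _), diagonal_mul_diagonal]
      simp only [pow_succ]
  have hs : star c.1 = U.1 * diagonal (star z) * star U.1 := by
    rw [h, star_mul, star_mul, star_star, star_eq_conjTranspose (diagonal z),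
      diagonal_conjTranspose, mul_assoc]
  have e1 : mat (Lm c.1 (star c.1) κ) = ((star U.1)ᵀ ⊗ₖ U.1) *
      diagonal (fun a : m × m => ∑ k ∈ Finset.range κ, z a.1 ^ k * star (z a.2) ^ k) *
        (U.1ᵀ ⊗ₖ star U.1) := by
    have e2 : mat (Lm c.1 (star c.1) κ) =
        ∑ k ∈ Finset.range κ, mat (fun u => c.1 ^ k * u * star c.1 ^ k) := by
      ext a b; simp [mat, Lm, Matrix.sum_apply]
    have e3 : diagonal (fun a : m × m => ∑ k ∈ Finset.range κ, z a.1 ^ k * star (z a.2) ^ k) =
        ∑ k ∈ Finset.range κ, diagonal (fun i => z i ^ k) ⊗ₖ diagonal (fun i => star z i ^ k) := by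
      simp only [diagonal_kronecker_diagonal]
      ext a b
      simp only [diagonal_apply, Matrix.sum_apply, Pi.star_apply]
      split_ifs <;> simp
    rw [e2, e3, Finset.mul_sum, Finset.sum_mul]
    refine Finset.sum_congr rfl fun k _ => ?_
    rw [mat_conj (fun u => u), mat_id, one_mul, hs]
    nth_rewrite 1 [h]
    rw [hp, hp, ← mul_kronecker_mul, ← mul_kronecker_mul, transpose_mul, transpose_mul,
      diagonal_transpose]
    simp only [mul_assoc]
  rw [e1, det_mul, det_mul, det_conj _ _ hU1, det_conj _ _ hU2, one_mul, mul_one, det_diagonal]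
  refine prod_pairs_nonneg _ (fun p q => ?_) fun p => Finset.sum_nonneg fun k _ => ?_
  · simp [mul_comm]
  · rw [← mul_pow]; exact pow_nonneg (mul_star_self_nonneg _) _

end Vale.Agent.P174
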