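import Vale.Agent.P174.Dir
import Vale.Agent.P174.Spec

/-! Logarithmic derivatives of invertible matrices and the homotopy invariance of the degree. -/

namespace Vale.Agent.P174

open Matrix MeasureTheory

set_option linter.unusedSectionVars false

section th
variable {A : Type} [CommRing A] [Algebra ℂ A] {p q : Type} [Fintype p] [DecidableEq p]
  [Fintype q] [DecidableEq q]

/-- Right logarithmic derivative. -/
def th (d : Derivation ℂ A A) (f : (Matrix p p A)ˣ) : Matrix p p A := f.1.map d * f⁻¹.1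

theorem map_eq_th (d : Derivation ℂ A A) (f : (Matrix p p A)ˣ) : f.1.map d = th d f * f.1 := by
  rw [th, mul_assoc, f.inv_mul, mul_one]

theorem dm_one (d : Derivation ℂ A A) : (1 : Matrix p p A).map d = 0 := by
  ext i j; simp only [map_apply, one_apply]; split_ifs <;> simp

theorem th_one (d : Derivation ℂ A A) : th d (1 : (Matrix p p A)ˣ) = 0 := by
  simp [th, dm_one]

theorem th_mul (d : Derivation ℂ A A) (f g : (Matrix p p A)ˣ) :
    th d (f * g) = th d f + f.1 * th d g * f⁻¹.1 := by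
  simp only [th, Units.val_mul, dm_mul, _root_.mul_inv_rev, add_mul, mul_assoc,
    Units.mul_inv_cancel_left]

theorem th_inv (d : Derivation ℂ A A) (f : (Matrix p p A)ˣ) :
    th d f⁻¹ = -(f⁻¹.1 * th d f * f.1) := by
  have := th_mul d f⁻¹ f
  rw [inv_mul_cancel, th_one, inv_inv] at this
  exact eq_neg_of_add_eq_zero_left this.symm

theorem map_inv_eq (d : Derivation ℂ A A) (f : (Matrix p p A)ˣ) :
    f⁻¹.1.map d = -(f⁻¹.1 * th d f) := by
  rw [map_eq_th, th_inv, neg_mul, mul_assoc, f.mul_inv, mul_one]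

theorem th_pow (d : Derivation ℂ A A) (f : (Matrix p p A)ˣ) (k : ℕ) :
    th d (f ^ k) = ∑ i ∈ Finset.range k, f.1 ^ i * th d f * f⁻¹.1 ^ i := by
  induction k with
  | zero => simp [th_one]
  | succ k ih =>
    rw [pow_succ, th_mul, ih, Finset.sum_range_succ, ← inv_pow, Units.val_pow_eq_pow_val,
      Units.val_pow_eq_pow_val]

/-- `th` as a linear map of the derivation. -/
def thl (f : (Matrix p p A)ˣ) : Derivation ℂ A A →ₗ[ℂ] Matrix p p A where
  toFun d := th d f
  map_add' d d' := by rw [th, th, th, ← add_mul]; rfl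
  map_smul' c d := by rw [th, th, RingHom.id_apply, ← smul_mul_assoc]; rfl

theorem th_MC (d d' : Derivation ℂ A A) (f : (Matrix p p A)ˣ) :
    (th d' f).map d - (th d f).map d' = th ⁅d, d'⁆ f + (th d f * th d' f - th d' f * th d f) := by
  have e : f.1.map (⁅d, d'⁆ : Derivation ℂ A A) = (f.1.map d').map d - (f.1.map d).map d' := by
    ext1 i j; simp [Derivation.commutator_apply]
  have h1 : (th d' f).map d = (f.1.map d').map d * f⁻¹.1 - th d' f * th d f := by
    conv_lhs => rw [th, dm_mul, map_inv_eq]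
    rw [mul_neg, ← mul_assoc, ← sub_eq_add_neg]; rfl
  have h2 : (th d f).map d' = (f.1.map d).map d' * f⁻¹.1 - th d f * th d' f := by
    conv_lhs => rw [th, dm_mul, map_inv_eq]
    rw [mul_neg, ← mul_assoc, ← sub_eq_add_neg]; rfl
  rw [h1, h2, th.eq_1 ⁅d, d'⁆, e, sub_mul]; abel

/-- Upper left block embedding. -/
def blk1 (q : Type) [Fintype q] [DecidableEq q] : Matrix p p A →* Matrix (p ⊕ q) (p ⊕ q) A where
  toFun U := fromBlocks U 0 0 1
  map_one' := fromBlocks_one
  map_mul' U V := by simp [fromBlocks_multiply]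

/-- Lower right block embedding. -/
def blk2 (p : Type) [Fintype p] [DecidableEq p] : Matrix q q A →* Matrix (p ⊕ q) (p ⊕ q) A where
  toFun V := fromBlocks 1 0 0 V
  map_one' := fromBlocks_one
  map_mul' U V := by simp [fromBlocks_multiply]

theorem dm_zero {r s : Type} (d : Derivation ℂ A A) : (0 : Matrix r s A).map d = 0 := by
  ext i j; simp

theorem th_blk1 (d : Derivation ℂ A A) (U : (Matrix p p A)ˣ) :
    th d (Units.map (blk1 q) U) = fromBlocks (th d U) 0 0 0 := by
  change (fromBlocks U.1 0 0 1).map d * fromBlocks U⁻¹.1 0 0 1 = _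
  simp [fromBlocks_map, dm_zero, dm_one, fromBlocks_multiply, th]

theorem th_blk2 (d : Derivation ℂ A A) (V : (Matrix q q A)ˣ) :
    th d (Units.map (blk2 p) V) = fromBlocks 0 0 0 (th d V) := by
  change (fromBlocks 1 0 0 V.1).map d * fromBlocks 1 0 0 V⁻¹.1 = _
  simp [fromBlocks_map, dm_zero, dm_one, fromBlocks_multiply, th]

theorem der_trace (d : Derivation ℂ A A) (M : Matrix p p A) : d M.trace = (M.map d).trace := by
  simp [trace, map_sum]

theorem tr_ad (X : Matrix p p ℂ) :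
    ∑ a, ∑ b, (single a b (1 : ℂ) * X - X * single a b (1 : ℂ) : Matrix p p ℂ) a b = 0 := by
  simp only [Matrix.sub_apply, single_mul_apply_same, mul_single_apply_same, one_mul, mul_one,
    Finset.sum_sub_distrib]
  rw [Finset.sum_comm, sub_self]

end th

theorem th_xU {B : Type} [Fintype B] [DecidableEq B] {n : B → Type} [∀ b, Fintype (n b)]
    [∀ b, DecidableEq (n b)] {d : Derivation ℂ (AA n) (AA n)} {ξ τ} (h : IsDir d ξ τ) (b : B) :
    th d (xU b) = cst (ξ b) := by
  have : (xU (n := n) b).1.map d = cst (n := n) (ξ b) * (xU (n := n) b).1 := h.hX b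
  rw [th, this, mul_assoc, Units.mul_inv, mul_one]

/-- Sizes of the unitary factors. -/
def nn (J D R : Type) : J ⊕ J ⊕ J → Type
  | .inl _ => D
  | .inr (.inl _) => D ⊕ R
  | .inr (.inr _) => R

variable {J D R : Type} [Fintype J] [DecidableEq J] [Fintype D] [DecidableEq D] [Fintype R]
  [DecidableEq R]

instance : ∀ b, Fintype (nn J D R b)
  | .inl _ => inferInstanceAs (Fintype D)
  | .inr (.inl _) => inferInstanceAs (Fintype (D ⊕ R))
  | .inr (.inr _) => inferInstanceAs (Fintype R)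

instance : ∀ b, DecidableEq (nn J D R b)
  | .inl _ => inferInstanceAs (DecidableEq D)
  | .inr (.inl _) => inferInstanceAs (DecidableEq (D ⊕ R))
  | .inr (.inr _) => inferInstanceAs (DecidableEq R)

variable (J D R) in
/-- The function algebra. -/
abbrev Al : Type := AA (nn J D R)

variable (J D R) in
/-- Directions. -/
abbrev Tr : Type :=
  (J → Matrix D D ℂ) × (J → Matrix (D ⊕ R) (D ⊕ R) ℂ) × (J → Matrix R R ℂ)

/-- Direction as a family. -/
def toDir (ξ : Tr J D R) : ∀ b, Matrix (nn J D R b) (nn J D R b) ℂ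
  | .inl j => ξ.1 j
  | .inr (.inl j) => ξ.2.1 j
  | .inr (.inr j) => ξ.2.2 j

/-- Derivations. -/
noncomputable def DD : Tr J D R →ₗ[ℂ] Derivation ℂ (Al J D R) (Al J D R) where
  toFun ξ := dd (toDir ξ)
  map_add' ξ η := by
    rw [← dd_add]; congr 1; funext b; rcases b with j | j | j <;> rfl
  map_smul' c ξ := by
    rw [RingHom.id_apply, ← dd_smul]; congr 1; funext b; rcases b with j | j | j <;> rfl

theorem DD_lie (ξ η : Tr J D R) : ⁅DD ξ, DD η⁆ = DD (η * ξ - ξ * η) := by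
  refine ((dd_dir _).lie (dd_dir _)).uniq ?_
  have : toDir η * toDir ξ - toDir ξ * toDir η = toDir (η * ξ - ξ * η) := by
    funext b; rcases b with j | j | j <;> rfl
  rw [this]
  exact dd_dir _

theorem DD_lie_T (ξ : Tr J D R) : ⁅DD ξ, (dT : Derivation ℂ (Al J D R) _)⁆ = 0 := by
  refine ((dd_dir _).lie dT_dir).uniq ?_
  simpa using IsDir.zero

/-- Coordinates. -/
noncomputable def uU (j : J) : (Matrix D D (Al J D R))ˣ := xU (n := nn J D R) (.inl j)
/-- Coordinates. -/
noncomputable def gU (j : J) : (Matrix (D ⊕ R) (D ⊕ R) (Al J D R))ˣ :=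
  xU (n := nn J D R) (.inr (.inl j))
/-- Coordinates. -/
noncomputable def vU (j : J) : (Matrix R R (Al J D R))ˣ := xU (n := nn J D R) (.inr (.inr j))

theorem th_uU (ξ : Tr J D R) (j : J) : th (DD ξ) (uU j) = cst (ξ.1 j) :=
  th_xU (dd_dir (toDir ξ)) (.inl j)
theorem th_gU (ξ : Tr J D R) (j : J) : th (DD ξ) (gU j) = cst (ξ.2.1 j) :=
  th_xU (dd_dir (toDir ξ)) (.inr (.inl j))
theorem th_vU (ξ : Tr J D R) (j : J) : th (DD ξ) (vU j) = cst (ξ.2.2 j) :=
  th_xU (dd_dir (toDir ξ)) (.inr (.inr j))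

/-- The block matrix `1 ⊕ V`. -/
noncomputable def yU (j : J) : (Matrix (D ⊕ R) (D ⊕ R) (Al J D R))ˣ := Units.map (blk2 D) (vU j)

/-- The conjugate of `1 ⊕ V`. -/
noncomputable def aU (j : J) : (Matrix (D ⊕ R) (D ⊕ R) (Al J D R))ˣ :=
  (gU j)⁻¹ * yU j * gU j

theorem th_aU (ξ : Tr J D R) (j : J) : th (DD ξ) (aU j) = (gU j)⁻¹.1 *
    (-cst (ξ.2.1 j) + fromBlocks 0 0 0 (cst (ξ.2.2 j)) +
      (yU j).1 * cst (n := nn J D R) (ξ.2.1 j) * (yU j)⁻¹.1) * (gU j).1 := by
  rw [aU, th_mul, th_mul, th_inv, th_gU, yU, th_blk2, th_vU, inv_inv, _root_.mul_inv_rev, inv_inv]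
  simp only [mul_add, add_mul, Units.val_mul, mul_assoc, mul_neg, neg_mul]

variable (J D R) in
/-- Pointwise unitary matrices depending only on the `U` coordinates and time. -/
def PP (p : Type) [Fintype p] [DecidableEq p] : Subgroup (Matrix p p (Al J D R))ˣ where
  carrier := {f | (∀ ω, f⁻¹.1.map (ev ω) = star (f.1.map (ev ω))) ∧
    ∀ ξ : Tr J D R, ξ.1 = 0 → th (DD ξ) f = 0}
  one_mem' := ⟨fun ω => by simp [ev_one], fun ξ _ => th_one _⟩
  mul_mem' {f g} hf hg := ⟨fun ω => by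
      rw [_root_.mul_inv_rev, Units.val_mul, Units.val_mul, ev_mul, ev_mul, star_mul, hf.1, hg.1],
    fun ξ h => by rw [th_mul, hf.2 ξ h, hg.2 ξ h]; simp⟩
  inv_mem' {f} hf := ⟨fun ω => by rw [inv_inv, hf.1, star_star],
    fun ξ h => by rw [th_inv, hf.2 ξ h]; simp⟩

/-- Off-diagonal part. -/
def off (X : Matrix (D ⊕ R) (D ⊕ R) ℂ) : Matrix (D ⊕ R) (D ⊕ R) ℂ :=
  fromBlocks 0 X.toBlocks₁₂ X.toBlocks₂₁ 0

/-- Horizontal direction. -/
def hor (j : J) (X : Matrix (D ⊕ R) (D ⊕ R) ℂ) : Tr J D R :=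
  (Pi.single j X.toBlocks₁₁, Pi.single j (off X), Pi.single j X.toBlocks₂₂)

variable (J D R) in
/-- Index of directions. -/
abbrev Ix : Type := ((D ⊕ R) × (D ⊕ R)) × J

/-- Basic directions. -/
def dir (a : Ix J D R) : Tr J D R := hor a.2 (single a.1.1 a.1.2 1)

/-- Vertical correction. -/
noncomputable def Wv (ξ : Tr J D R) (j : J) : Matrix R R (Al J D R) :=
  (vU j).1 * cst (n := nn J D R) (ξ.2.1 j).toBlocks₂₂ * (vU j)⁻¹.1 -
    cst (n := nn J D R) (ξ.2.1 j).toBlocks₂₂

/-- Structure coefficients. -/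
noncomputable def coef (ξ : Tr J D R) : Ix J D R → Al J D R
  | ((.inl d, .inl d'), j) => algebraMap ℂ _ (ξ.1 j d d')
  | ((.inr r, .inr r'), j) => algebraMap ℂ _ (ξ.2.2 j r r') + Wv ξ j r r'
  | _ => 0

theorem dir_ll (d d' : D) (j : J) :
    dir ((.inl d, .inl d'), j) = ((Pi.single j (single d d' 1), 0, 0) : Tr J D R) := by
  simp only [dir, hor, Prod.mk.injEq]
  refine ⟨?_, ?_, ?_⟩
  · congr 1; ext a b; simp [toBlocks₁₁, single]
  · rw [← Pi.single_zero j]; congr 1
    ext (a | a) (b | b) <;> simp [off, toBlocks₁₂, toBlocks₂₁]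
  · rw [← Pi.single_zero j]; congr 1

theorem dir_rr (r r' : R) (j : J) :
    dir ((.inr r, .inr r'), j) = ((0, 0, Pi.single j (single r r' 1)) : Tr J D R) := by
  simp only [dir, hor, Prod.mk.injEq]
  refine ⟨?_, ?_, ?_⟩
  · rw [← Pi.single_zero j]; congr 1
  · rw [← Pi.single_zero j]; congr 1
    ext (a | a) (b | b) <;> simp [off, toBlocks₁₂, toBlocks₂₁]
  · congr 1; ext a b; simp [toBlocks₂₂, single]

theorem pi_expand {p : Type} [Fintype p] [DecidableEq p] (u : J → Matrix p p ℂ) :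
    u = ∑ a, ∑ b, ∑ j, u j a b • (Pi.single j (single a b 1) : J → Matrix p p ℂ) := by
  funext j
  simp only [Finset.sum_apply, Pi.smul_apply, Pi.single_apply, smul_ite, smul_zero,
    Finset.sum_ite_eq, Finset.mem_univ, if_true, smul_single, smul_eq_mul, mul_one]
  exact matrix_eq_sum_single _

theorem th_expand (φ : (Matrix (D ⊕ R) (D ⊕ R) (Al J D R))ˣ) (hφ : φ ∈ PP J D R _) (j0 : J)
    (ξ : Tr J D R) (h12 : ∀ j, (ξ.2.1 j).toBlocks₁₂ = 0) (h21 : ∀ j, (ξ.2.1 j).toBlocks₂₁ = 0) :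
    th (DD ξ) (aU j0 * φ) = ∑ e, coef ξ e • th (DD (dir e)) (aU j0 * φ) := by
  set f := aU j0 * φ with hf
  have e0 : ξ = (ξ.1, 0, 0) + (0, 0, ξ.2.2) + (0, ξ.2.1, 0) := by simp
  have e1 : ((ξ.1, 0, 0) : Tr J D R) = ∑ a, ∑ b, ∑ j, ξ.1 j a b • dir ((.inl a, .inl b), j) := by
    simp only [dir_ll, Prod.ext_iff, Prod.fst_sum, Prod.snd_sum, Prod.smul_fst, Prod.smul_snd,
      smul_zero, Finset.sum_const_zero, and_true]
    exact pi_expand _
  have e2 : ((0, 0, ξ.2.2) : Tr J D R) =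
      ∑ a, ∑ b, ∑ j, ξ.2.2 j a b • dir ((.inr a, .inr b), j) := by
    simp only [dir_rr, Prod.ext_iff, Prod.fst_sum, Prod.snd_sum, Prod.smul_fst, Prod.smul_snd,
      smul_zero, Finset.sum_const_zero, true_and]
    exact pi_expand _
  have e3 : th (DD ((0, ξ.2.1, 0) : Tr J D R)) f =
      ∑ a, ∑ b, ∑ j, Wv ξ j a b • th (DD (dir ((.inr a, .inr b), j))) f := by
    simp only [hf, th_mul, dir_rr, hφ.2 (0, _) rfl, mul_zero, zero_mul, add_zero, th_aU,
      Pi.zero_apply, cst_zero, neg_zero, zero_add, fromBlocks_zero]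
    have e4 : ∑ a, ∑ b, ∑ j, Wv ξ j a b • (fromBlocks 0 0 0 (cst (n := nn J D R)
        ((Pi.single j (single a b (1 : ℂ)) : J → Matrix R R ℂ) j0)) :
          Matrix (D ⊕ R) (D ⊕ R) (Al J D R)) = fromBlocks 0 0 0 (Wv ξ j0) := by
      ext1 a b
      have : ∀ j x c y z, algebraMap ℂ (Al J D R)
          ((Pi.single j (single x c (1 : ℂ)) : J → Matrix R R ℂ) j0 y z) =
            if j0 = j then if x = y then if c = z then 1 else 0 else 0 else 0 := by
        intro j x c y z
        simp only [Pi.single_apply, single]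
        split_ifs <;> simp [*]
      rcases a with a | a <;> rcases b with b | b <;> simp [Matrix.sum_apply, cst, this]
    have hX : cst (n := nn J D R) (ξ.2.1 j0) = fromBlocks (cst (ξ.2.1 j0).toBlocks₁₁) 0 0
        (cst (ξ.2.1 j0).toBlocks₂₂) := by
      conv_lhs => rw [← fromBlocks_toBlocks (ξ.2.1 j0), h12, h21, cst, fromBlocks_map]
      congr 1 <;> exact cst_zero
    have e5 : -cst (n := nn J D R) (ξ.2.1 j0) +
        (yU j0).1 * cst (n := nn J D R) (ξ.2.1 j0) * (yU j0)⁻¹.1 = fromBlocks 0 0 0 (Wv ξ j0) := by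
      rw [hX]
      change _ + fromBlocks (1 : Matrix D D (Al J D R)) 0 0 (vU j0).1 * _ *
        fromBlocks (1 : Matrix D D (Al J D R)) 0 0 (vU j0)⁻¹.1 = _
      simp [fromBlocks_multiply, fromBlocks_neg, fromBlocks_add, Wv, sub_eq_neg_add]
    rw [e5, ← e4]
    simp only [Finset.mul_sum, Finset.sum_mul, mul_smul_comm, smul_mul_assoc]
  have : th (DD ξ) f = thl f (DD ξ) := rfl
  rw [this]
  conv_lhs => rw [e0, map_add, map_add, map_add, map_add, e1, e2]
  simp only [map_sum, map_smul]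
  change _ + th _ f = _
  rw [e3]
  simp only [Fintype.sum_prod_type, Fintype.sum_sum_type, coef, zero_smul, Finset.sum_const_zero,
    add_zero, zero_add, add_smul, Finset.sum_add_distrib, algebraMap_smul]
  rw [add_assoc]
  rfl

end Vale.Agent.P174
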