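import Vale.Agent.P174.GA
import Vale.Agent.P174.Bal
import Vale.Agent.P174.Deg

/-! The vertex rotation and the face rotation as products of few involutions. -/

namespace Vale.Agent.P174

open Matrix Equiv

set_option linter.unusedSectionVars false
set_option linter.unusedSimpArgs false

variable {G : Type*} [Group G] {ι : Type} {I : Type} [Fintype I] [DecidableEq I]

/-- Backward cyclic permutation of a list. -/
def cy (l : List I) : Perm I := (List.formPerm l)⁻¹

theorem cy_cons (z c : I) (l : List I) : cy (z :: c :: l) = cy (c :: l) * swap c z := by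
  simp [cy, Equiv.swap_comm]

theorem cy_notMem {l : List I} {x : I} (h : x ∉ l) : cy l x = x := by
  rw [cy, Perm.inv_eq_iff_eq, List.formPerm_apply_of_notMem h]

theorem cy_split (w y : I) (l' l : List I) (h : (w :: (l' ++ y :: l)).Nodup) :
    cy (w :: (l' ++ y :: l)) = cy (y :: l) * cy (w :: l') * swap y w := by
  induction l' generalizing w with
  | nil => rw [List.nil_append, cy_cons]; simp [cy]
  | cons c l' ih =>
    rw [List.cons_append, cy_cons, cy_cons, ih c h.of_cons]
    simp only [List.cons_append, List.nodup_cons, List.mem_cons, List.mem_append, not_or] at h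
    have : swap y c * swap c w = swap c w * swap y w := by
      rw [swap_mul_eq_mul_swap (swap c w), swap_inv, swap_apply_left,
        swap_apply_of_ne_of_ne (Ne.symm h.2.1.2.1) (Ne.symm h.1.2.2.1)]
    simp only [mul_assoc, this]

theorem cy_arc (z c c' : I) (l' l : List I) (h : (z :: c :: (l' ++ c' :: l)).Nodup) :
    cy (z :: c :: (l' ++ c' :: l)) * swap c c' = cy (z :: c' :: l) * cy (c :: l') := by
  rw [cy_cons, cy_split _ _ _ _ h.of_cons, cy_cons]
  simp only [List.nodup_cons, List.mem_cons, List.mem_append, not_or, List.nodup_append] at h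
  have h1 : swap c' c * swap c z * swap c c' = swap c' z := by
    rw [mul_swap_eq_swap_mul (swap c' c), swap_apply_right,
      swap_apply_of_ne_of_ne h.1.2.2.1 h.1.1, Equiv.swap_comm c c', mul_assoc,
      Equiv.swap_mul_self, mul_one]
  have h2 : Commute (cy (c :: l')) (swap c' z) := by
    refine Perm.Disjoint.commute fun x => ?_
    by_cases hx : x ∈ c :: l'
    · refine Or.inr (swap_apply_of_ne_of_ne ?_ ?_)
      · rintro rfl
        rcases List.mem_cons.mp hx with e | e
        · exact h.2.1.2.1 e.symm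
        · exact h.2.2.2.2 x e x (Or.inl rfl) rfl
      · rintro rfl
        rcases List.mem_cons.mp hx with e | e
        · exact h.1.1 e
        · exact h.1.2.1 e
    · exact Or.inl (cy_notMem hx)
  rw [mul_assoc, mul_assoc, ← mul_assoc (swap c' c), h1, mul_assoc, h2.eq, mul_assoc]

/-- Monomial matrices. -/
noncomputable def mono (p : Perm I) (d : I → GA G) : Matrix I I (GA G) := pm _ p * diagonal d

theorem diag_mul_pm {A : Type*} [Ring A] (d : I → A) (q : Perm I) :
    diagonal d * pm A q = pm A q * diagonal fun i => d (q i) := by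
  ext i j
  rw [diagonal_mul, mul_diagonal]
  simp only [pm, of_apply]
  split_ifs with h
  · rw [h]; simp
  · simp

theorem mono_mul (p q : Perm I) (d e : I → GA G) :
    mono p d * mono q e = mono (p * q) fun i => d (q i) * e i := by
  rw [mono, mono, mono, mul_assoc, ← mul_assoc (diagonal d), diag_mul_pm, pm_mul, mul_assoc,
    diagonal_mul_diagonal, mul_assoc]

theorem dg_eq (z : I) (y : GA G) : dg z y = mono 1 fun i => if i = z then y else 1 := by
  rw [mono, pm_one, one_mul, dg]

theorem pm_eq (p : Perm I) : pm (GA G) p = mono p fun _ => 1 := by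
  rw [mono, diagonal_one, mul_one]

theorem pm_unitary (p : Perm I) : pm (GA G) p ∈ unitary (Matrix I I (GA G)) :=
  ⟨by rw [pm_star, ← pm_mul, inv_mul_cancel, pm_one],
    by rw [pm_star, ← pm_mul, mul_inv_cancel, pm_one]⟩

theorem dg_unitary (z : I) {y : GA G} (hy : y ∈ unitary (GA G)) :
    dg z y ∈ unitary (Matrix I I (GA G)) :=
  diag_unitary _ fun i => by
    split_ifs
    · exact hy
    · exact one_mem _

theorem cost_swap {c z : I} (h : c ≠ z) : Cost tM (pm (GA G) (swap c z)) 1 := by
  have := (tM_tr (G := G)).cost (T := pm (GA G) (swap c z)) (by rw [pm_star, swap_inv])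
    (by rw [← pm_mul, Equiv.swap_mul_self, pm_one])
  convert this using 1
  rw [← map_sub, tM_apply, Finset.sum_eq_add_of_mem c z (Finset.mem_univ _) (Finset.mem_univ _) h]
  · simp [pm, h, h.symm, t0_one]
  · intro x _ hx
    simp [pm, swap_apply_of_ne_of_ne hx.1 hx.2]

theorem supp_apply {α : Type*} {σ : Perm I} {d : I → α} {a : α} (h : ∀ i, σ i = i ∨ d i = a)
    (i : I) : d (σ i) = d i := by
  rcases h i with h1 | h1
  · rw [h1]
  · rcases h (σ i) with h2 | h2
    · rw [σ.injective h2]
    · rw [h1, h2]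

theorem step1 {c z : I} {l : List I} {p : Perm I} {d : I → GA G} {T : Matrix I I (GA G)}
    {δ β : GA G} (hcz : c ≠ z) (hc : p c = c) (hz : p z = z) (dc : d c = 1) (dz : d z = 1)
    (hβ : β ∈ unitary (GA G)) (h : mono (cy (c :: l) * p) d = T * dg c δ) :
    ∃ T', Cost tM T' 1 ∧
      mono (cy (z :: c :: l) * p) (Function.update d c β) = T * T' * dg z (β * δ) := by
  refine ⟨_, (cost_swap hcz).conj tM_tr (dg_unitary z hβ), ?_⟩
  have h1 : swap c z * p = p * swap c z := by
    rw [mul_swap_eq_swap_mul, hc, hz]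
  have h2 : mono (cy (z :: c :: l) * p) (Function.update d c β) =
      mono (cy (c :: l) * p) d * mono (swap c z) fun i => if i = c then β else 1 := by
    rw [mono_mul, cy_cons, mul_assoc, h1, mul_assoc]
    congr 1
    funext i
    by_cases e1 : i = c
    · subst e1; simp [dz]
    · by_cases e2 : i = z
      · subst e2; simp [e1, dc, dz]
      · simp [e1, swap_apply_of_ne_of_ne e1 e2]
  have h3 : star (dg z β) = dg z (star β) := by
    rw [dg, dg, star_eq_conjTranspose, diagonal_conjTranspose]
    congr 1; funext i; simp only [Pi.star_apply]; split_ifs <;> simp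
  rw [h2, h, h3, mul_assoc, mul_assoc]
  congr 1
  simp only [dg_eq, pm_eq, mono_mul, one_mul, mul_one]
  congr 1
  funext i
  by_cases e1 : i = c
  · subst e1; simp [hcz, hcz.symm]
  · by_cases e2 : i = z
    · subst e2; simp [e1, hcz, ← mul_assoc, hβ.1]
    · simp [e1, e2, swap_apply_of_ne_of_ne e1 e2]

/-- Group part of a letter. -/
def gp : Lt G ι → G
  | .inl g => g
  | .inr _ => 1

/-- The data of an upper pairing. -/
structure Pairing (lab : I → Lt G ι) (l : List I) (p : Perm I) (κ : I → ℂ) : Prop where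
  inv : ∀ i, p (p i) = i
  fix : ∀ i, (i ∉ l ∨ (lab i).isLeft) → p i = i ∧ κ i = 1
  lab : ∀ i ∈ l, (lab i).isRight → lab (p i) = invL (lab i)
  norm : ∀ i, ‖κ i‖ = 1
  star : ∀ i, κ (p i) = star (κ i)

theorem upper (lab : I → Lt G ι) (ω : ℂ) (hω : ‖ω‖ = 1) {l : List I} {g : G} (h : Bal lab l g)
    (hl : l.Nodup) : ∃ p κ, Pairing lab l p κ ∧ ∃ c0 : ℂ, ‖c0‖ = 1 ∧ ∀ z ∉ l, ∃ T,
      Cost tM T (l.length - (l.countP fun i => (lab i).isRight) / 2) ∧
      mono (cy (z :: l) * p) (fun i => if i ∈ l then gs (gp (lab i)) (ω * κ i) else 1) =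
        T * dg z (gs g c0) := by
  induction h with
  | nil =>
    refine ⟨1, fun _ => 1, ⟨by simp, by simp, by simp, by simp, by simp⟩, 1, by simp,
      fun z _ => ⟨1, by simpa using Cost.one, ?_⟩⟩
    simp [cy, dg_eq, gs_one]
  | @cons c l g k hc _ ih =>
    obtain ⟨hcl, hl'⟩ := List.nodup_cons.mp hl
    obtain ⟨p, κ, hp, c0, hc0, hT⟩ := ih hl'
    refine ⟨p, κ, ⟨hp.inv, fun i hi => hp.fix i (hi.imp_left fun h h' => h (by simp [h'])),
      fun i hi hi' => ?_, hp.norm, hp.star⟩, ω * c0, by simp [hω, hc0], fun z hz => ?_⟩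
    · rcases List.mem_cons.mp hi with rfl | hi
      · simp [hc] at hi'
      · exact hp.lab i hi hi'
    · simp only [List.mem_cons, not_or] at hz
      obtain ⟨T, hT1, hT2⟩ := hT c hcl
      obtain ⟨T', h1, h2⟩ := step1 (z := z) (Ne.symm hz.1) (hp.fix c (Or.inl hcl)).1
        (hp.fix z (Or.inl hz.2)).1 (if_neg hcl) (if_neg hz.2) (gs_unitary k hω) hT2
      refine ⟨T * T', (hT1.mul h1).mono (by simp [hc]; linarith), ?_⟩
      rw [gs_mul] at h2
      rw [← h2]
      congr 1
      funext i
      by_cases hi : i = c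
      · subst hi; simp [hc, gp, (hp.fix i (Or.inl hcl)).2]
      · simp [hi]
  | @arc c c' l l' g j b hc hc' _ _ ih' ih =>
    have hl0 := hl
    simp only [List.nodup_cons, List.mem_cons, List.mem_append, not_or, List.nodup_append] at hl
    obtain ⟨⟨hcl', hcc', hcl⟩, hl', ⟨hc'l, hl⟩, hdis⟩ := hl
    have hc'l' : c' ∉ l' := fun h => hdis c' h c' (Or.inl rfl) rfl
    have hdis' : ∀ i ∈ l', i ∉ l := fun i h h' => hdis i h i (Or.inr h') rfl
    obtain ⟨p, κ, hp, c0, hc0, hT⟩ := ih hl
    obtain ⟨p', κ', hp', c1, hc1, hT'⟩ := ih' hl'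
    have pc := hp.fix c (Or.inl hcl)
    have pc' := hp.fix c' (Or.inl hc'l)
    have qc := hp'.fix c (Or.inl hcl')
    have qc' := hp'.fix c' (Or.inl hc'l')
    have hmem : ∀ i ∈ l, p i ∈ l := fun i hi => by
      by_contra h
      have := (hp.fix _ (Or.inl h)).1
      rw [p.injective this] at h; exact h hi
    have hmem' : ∀ i ∈ l', p' i ∈ l' := fun i hi => by
      by_contra h
      have := (hp'.fix _ (Or.inl h)).1
      rw [p'.injective this] at h; exact h hi
    set k : ℂ := star (c1 * ω) with hk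
    have hk1 : ‖k‖ = 1 := by simp [hk, hc1, hω]
    set P := p * p' * swap c c' with hP
    set K : I → ℂ := fun i => if i = c then k else if i = c' then star k else κ i * κ' i with hK
    have P1 : P c = c' := by simp [hP, pc'.1, qc'.1]
    have P2 : P c' = c := by simp [hP, pc.1, qc.1]
    have K1 : K c = k := by simp [hK]
    have K2 : K c' = star k := by simp [hK, Ne.symm hcc']
    have P3 : ∀ i ∈ l, P i = p i ∧ K i = κ i := fun i hi => by
      have h1 : i ≠ c := fun h => hcl (h ▸ hi)
      have h2 : i ≠ c' := fun h => hc'l (h ▸ hi)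
      have := hp'.fix i (Or.inl fun h => hdis' i h hi)
      simp [hP, hK, h1, h2, swap_apply_of_ne_of_ne h1 h2, this.1, this.2]
    have P4 : ∀ i ∈ l', P i = p' i ∧ K i = κ' i := fun i hi => by
      have h1 : i ≠ c := fun h => hcl' (h ▸ hi)
      have h2 : i ≠ c' := fun h => hc'l' (h ▸ hi)
      simp [hP, hK, h1, h2, swap_apply_of_ne_of_ne h1 h2,
        (hp.fix _ (Or.inl (hdis' _ (hmem' i hi)))).1, (hp.fix _ (Or.inl (hdis' _ hi))).2]
    have P5 : ∀ i, i ≠ c → i ≠ c' → i ∉ l → i ∉ l' → P i = i ∧ K i = 1 := fun i h1 h2 h3 h4 => by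
      simp [hP, hK, h1, h2, swap_apply_of_ne_of_ne h1 h2, hp.fix i (Or.inl h3),
        hp'.fix i (Or.inl h4)]
    have cases : ∀ i, i = c ∨ i = c' ∨ i ∈ l ∨ i ∈ l' ∨ (i ≠ c ∧ i ≠ c' ∧ i ∉ l ∧ i ∉ l') := by
      intro i; tauto
    refine ⟨P, K, ⟨fun i => ?_, fun i hi => ?_, fun i hi hi' => ?_, fun i => ?_, fun i => ?_⟩,
      ω * star k * c0, by simp [hω, hk1, hc0], fun z hz => ?_⟩
    · rcases cases i with rfl | rfl | h | h | h
      · rw [P1, P2]
      · rw [P2, P1]
      · rw [(P3 i h).1, (P3 _ (hmem i h)).1, hp.inv]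
      · rw [(P4 i h).1, (P4 _ (hmem' i h)).1, hp'.inv]
      · have := (P5 i h.1 h.2.1 h.2.2.1 h.2.2.2).1
        rw [this, this]
    · rcases cases i with rfl | rfl | h | h | h
      · simp [hc] at hi
      · simp [hc'] at hi
      · rw [(P3 i h).1, (P3 i h).2]; exact hp.fix i (Or.inr (hi.resolve_left (by simp [h])))
      · rw [(P4 i h).1, (P4 i h).2]; exact hp'.fix i (Or.inr (hi.resolve_left (by simp [h])))
      · exact P5 i h.1 h.2.1 h.2.2.1 h.2.2.2
    · rcases cases i with rfl | rfl | h | h | h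
      · rw [P1, hc, hc']; rfl
      · rw [P2, hc, hc']; simp [invL]
      · rw [(P3 i h).1]; exact hp.lab i h hi'
      · rw [(P4 i h).1]; exact hp'.lab i h hi'
      · simp [h] at hi
    · rcases cases i with rfl | rfl | h | h | h
      · rw [K1, hk1]
      · rw [K2, norm_star, hk1]
      · rw [(P3 i h).2, hp.norm]
      · rw [(P4 i h).2, hp'.norm]
      · rw [(P5 i h.1 h.2.1 h.2.2.1 h.2.2.2).2, norm_one]
    · rcases cases i with rfl | rfl | h | h | h
      · rw [P1, K1, K2]
      · rw [P2, K1, K2, star_star]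
      · rw [(P3 i h).1, (P3 i h).2, (P3 _ (hmem i h)).2, hp.star]
      · rw [(P4 i h).1, (P4 i h).2, (P4 _ (hmem' i h)).2, hp'.star]
      · rw [(P5 i h.1 h.2.1 h.2.2.1 h.2.2.2).1, (P5 i h.1 h.2.1 h.2.2.1 h.2.2.2).2, star_one]
    · have hz0 := hz
      simp only [List.mem_cons, List.mem_append, not_or] at hz
      obtain ⟨hzc, hzl', hzc', hzl⟩ := hz
      obtain ⟨T, hT1, hT2⟩ := hT c' hc'l
      obtain ⟨T', h1, h2⟩ := step1 (z := z) (Ne.symm hzc') pc'.1
        (hp.fix z (Or.inl hzl)).1 (if_neg hc'l) (if_neg hzl)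
        (gs_unitary (1 : G) (c := ω * star k) (by simp [hω, hk1])) hT2
      obtain ⟨T1, hS1, hS2⟩ := hT' c hcl'
      have hS3 : T1 = mono (cy (c :: l') * p') (Function.update
          (fun i => if i ∈ l' then gs (gp (lab i)) (ω * κ' i) else 1) c (gs 1 (ω * k))) := by
        have e : dg c (gs (1 : G) c1) * dg c (gs 1 (ω * k)) = 1 := by
          have : c1 * (ω * k) = 1 := by
            rw [← mul_assoc, hk, RCLike.star_def, Complex.mul_conj, Complex.normSq_eq_norm_sq]
            simp [hc1, hω]
          rw [dg, dg, diagonal_mul_diagonal, ← diagonal_one]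
          congr 1; funext i; split_ifs <;> simp [gs_mul, this, gs_one]
        rw [← mul_one T1, ← e, ← mul_assoc, ← hS2, dg_eq, mono_mul, mul_one]
        congr 1; funext i
        by_cases hi : i = c
        · subst hi; simp [hcl']
        · by_cases hi' : i ∈ l' <;> simp [hi, hi']
      have hsupp : ∀ i, i ≠ c → i ∉ l' → (cy (c :: l') * p') i = i := fun i h1 h2 => by
        rw [Perm.mul_apply, (hp'.fix i (Or.inl h2)).1, cy_notMem (by simp [h1, h2])]
      have hcomm : dg z (gs (1 : G) (ω * star k) * gs g c0) * T1 =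
          T1 * dg z (gs (1 : G) (ω * star k) * gs g c0) := by
        rw [hS3, dg_eq, mono_mul, mono_mul, one_mul, mul_one]
        congr 1; funext i
        rw [supp_apply (a := 1) (d := fun i => if i = z then gs (1 : G) (ω * star k) * gs g c0 else 1)
          (fun i => by
            by_cases h : i = z
            · subst h; exact Or.inl (hsupp _ hzc hzl')
            · exact Or.inr (if_neg h))]
        by_cases h : i = z
        · subst h; simp [hzc, hzl']
        · simp [h]
      refine ⟨T * T' * T1, ((hT1.mul h1).mul hS1).mono ?_, ?_⟩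
      · simp [hc, hc']; linarith
      · rw [gs_mul, one_mul] at hcomm h2
        rw [mul_assoc _ T1, ← hcomm, ← mul_assoc (T * T'), ← h2, hS3, mono_mul]
        congr 1
        · have e1 : Commute p' (swap c c') := by
            rw [Commute, SemiconjBy, mul_swap_eq_swap_mul, qc.1, qc'.1]
          have e2 : Commute p (swap c c') := by
            rw [Commute, SemiconjBy, mul_swap_eq_swap_mul, pc.1, pc'.1]
          have e3 : Commute p (cy (c :: l')) := by
            refine Perm.Disjoint.commute fun x => ?_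
            by_cases hx : x ∈ l
            · refine Or.inr (cy_notMem ?_)
              simp only [List.mem_cons, not_or]
              exact ⟨fun h => hcl (h ▸ hx), fun h => hdis' x h hx⟩
            · exact Or.inl (hp.fix x (Or.inl hx)).1
          rw [hP, (e2.mul_left e1).eq, ← mul_assoc,
            cy_arc _ _ _ _ _ (List.nodup_cons.mpr ⟨hz0, hl0⟩)]
          simp only [mul_assoc]
          rw [← mul_assoc (cy (c :: l')), ← e3.eq, mul_assoc]
        · funext i
          rw [supp_apply (a := 1) (σ := cy (c :: l') * p') (d := Function.update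
            (fun i => if i ∈ l then gs (gp (lab i)) (ω * κ i) else 1) c' (gs 1 (ω * star k)))
            (fun i => by
            by_cases h : i = c ∨ i ∈ l'
            · right
              rcases h with rfl | h
              · simp [hcc', hcl]
              · have : i ≠ c' := fun e => hc'l' (e ▸ h)
                simp [this, hdis' i h]
            · exact Or.inl (hsupp i (fun e => h (Or.inl e)) fun e => h (Or.inr e)))]
          rcases cases i with rfl | rfl | h | h | h
          · simp [hc, gp, K1, hcc', hcl]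
          · simp [hc', gp, K2, Ne.symm hcc', hc'l']
          · have h1 : i ≠ c := fun e => hcl (e ▸ h)
            have h2 : i ≠ c' := fun e => hc'l (e ▸ h)
            have h3 : i ∉ l' := fun e => hdis' i e h
            simp [h, h1, h2, h3, (P3 i h).2]
          · have h1 : i ≠ c := fun e => hcl' (e ▸ h)
            have h2 : i ≠ c' := fun e => hc'l' (e ▸ h)
            simp [h, h1, h2, hdis' i h, (P4 i h).2]
          · simp [h]

/-- Lower structure. -/
inductive Low (s0 Φ0 : Perm I) : List I → ℕ → Prop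
  | nil : Low s0 Φ0 [] 0
  | face {f fs} : (∀ x ∈ f :: fs, s0 x = x ∧ Φ0 x = cy (f :: fs) x) → Low s0 Φ0 (f :: fs) 1
  | arc {c c' l l' n n'} : s0 c = c' → s0 c' = c → Φ0 c = c → Φ0 c' = c' → Low s0 Φ0 l' n' →
      Low s0 Φ0 l n → Low s0 Φ0 (c :: (l' ++ c' :: l)) (n + n' + 1)

theorem lower {s0 Φ0 : Perm I} {l : List I} {n : ℕ} (h : Low s0 Φ0 l n) :
    ∀ z, (z :: l).Nodup → ∃ s Φ : Perm I, (∀ x ∈ l, s x = s0 x ∧ Φ x = Φ0 x) ∧
      (∀ x ∉ l, s x = x ∧ Φ x = x) ∧ Cost tM (pm (GA G) (cy (z :: l) * s * Φ⁻¹)) n := by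
  induction h with
  | nil => exact fun z _ => ⟨1, 1, by simp, by simp, by simpa [cy, pm_one] using Cost.one⟩
  | @face f fs h =>
    intro z hz
    refine ⟨1, cy (f :: fs), fun x hx => ⟨(h x hx).1.symm, (h x hx).2.symm⟩,
      fun x hx => ⟨rfl, cy_notMem hx⟩, ?_⟩
    have hfz : f ≠ z := fun e => (List.nodup_cons.mp hz).1 (by simp [e])
    have := (cost_swap (G := G) hfz).conj tM_tr (pm_unitary (cy (f :: fs)))
    rw [pm_star, ← pm_mul, ← pm_mul] at this
    rw [cy_cons, mul_one]; simpa using this
  | @arc c c' l l' n n' h1 h2 h3 h4 _ _ ih' ih =>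
    intro z hz
    have hl := hz
    simp only [List.nodup_cons, List.mem_cons, List.mem_append, not_or, List.nodup_append] at hl
    obtain ⟨⟨hzc, hzl', hzc', hzl⟩, ⟨hcl', hcc', hcl⟩, hl', ⟨hc'l, hl⟩, hdis⟩ := hl
    have hc'l' : c' ∉ l' := fun h => hdis c' h c' (Or.inl rfl) rfl
    have hdis' : ∀ i ∈ l', i ∉ l := fun i h h' => hdis i h i (Or.inr h') rfl
    obtain ⟨s, Φ, a1, a2, a3⟩ := ih c' (List.nodup_cons.mpr ⟨hc'l, hl⟩)
    obtain ⟨s', Φ', b1, b2, b3⟩ := ih' c (List.nodup_cons.mpr ⟨hcl', hl'⟩)
    have hm : ∀ {σ : Perm I}, (∀ x ∉ l', σ x = x) → ∀ i ∈ l', σ i ∉ l := fun h i hi => by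
      refine hdis' _ ?_
      by_contra e
      rw [Equiv.injective _ (h _ e)] at e; exact e hi
    refine ⟨s * s' * swap c c', Φ * Φ', fun x hx => ?_, fun x hx => ?_, ?_⟩
    · simp only [List.mem_cons, List.mem_append] at hx
      rcases hx with rfl | hx | rfl | hx
      · simp [a2, b2, *]
      · have e1 : x ≠ c := fun e => hcl' (e ▸ hx)
        have e2 : x ≠ c' := fun e => hc'l' (e ▸ hx)
        simp only [Perm.mul_apply, swap_apply_of_ne_of_ne e1 e2]
        rw [(a2 _ (hm (fun x h => (b2 x h).1) x hx)).1, (a2 _ (hm (fun x h => (b2 x h).2) x hx)).2]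
        exact b1 x hx
      · simp [a2, b2, *]
      · have e1 : x ≠ c := fun e => hcl (e ▸ hx)
        have e2 : x ≠ c' := fun e => hc'l (e ▸ hx)
        have e3 : x ∉ l' := fun e => hdis' x e hx
        simp only [Perm.mul_apply, swap_apply_of_ne_of_ne e1 e2, b2 x e3]
        exact a1 x hx
    · simp only [List.mem_cons, List.mem_append, not_or] at hx
      simp [swap_apply_of_ne_of_ne hx.1 hx.2.2.1, a2 x hx.2.2.2, b2 x hx.2.1]
    · have e1 : Commute s' (swap c c') := by
        rw [Commute, SemiconjBy, mul_swap_eq_swap_mul, (b2 _ hcl').1, (b2 _ hc'l').1]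
      have e2 : Commute s (swap c c') := by
        rw [Commute, SemiconjBy, mul_swap_eq_swap_mul, (a2 _ hcl).1, (a2 _ hc'l).1]
      have e3 : Commute s (cy (c :: l')) := by
        refine Perm.Disjoint.commute fun x => ?_
        by_cases hx : x ∈ l
        · refine Or.inr (cy_notMem ?_)
          simp only [List.mem_cons, not_or]
          exact ⟨fun h => hcl (h ▸ hx), fun h => hdis' x h hx⟩
        · exact Or.inl (a2 x hx).1
      have e4 : Commute s (swap c' z) := by
        rw [Commute, SemiconjBy, mul_swap_eq_swap_mul, (a2 _ hzl).1, (a2 _ hc'l).1]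
      have := a3.mul (((cost_swap (G := G) (Ne.symm hzc')).mul b3).conj tM_tr (pm_unitary Φ))
      rw [pm_star, ← pm_mul, ← pm_mul, ← pm_mul, ← pm_mul] at this
      rw [(e2.mul_left e1).eq, ← mul_assoc, cy_arc _ _ _ _ _ hz, cy_cons]
      convert this using 1
      · congr 1
        simp only [mul_assoc, _root_.mul_inv_rev, inv_mul_cancel_left]
        rw [← mul_assoc (cy (c :: l')), ← e3.eq, ← mul_assoc s (swap c' z), e4.eq]
        simp only [mul_assoc]
      · push_cast; ring

end Vale.Agent.P174
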